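import Vale.Agent.Lib.P123.NearExt

/-!
P123: the abstract inequality.
-/

namespace Vale.Agent.P123

open scoped InnerProductSpace BoundedContinuousFunction

variable {X : Type*} [TopologicalSpace X]
  {H : Type*} [NormedAddCommGroup H] [InnerProductSpace ℂ H] [CompleteSpace H]

/-- numerical certificate -/
structure Cert (Ks : ℝ) (ψ φ χ : Polynomial ℂ) (B c₀ : ℝ) : Prop where
  Ks_ge : 1 ≤ Ks
  c0_pos : 0 < c₀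
  maj : ∀ f g : ℂ, ‖f‖ ≤ 1 → ‖g‖ ≤ 1 →
    ‖f * ψ.eval (f * g) + star (g * φ.eval (f * g))‖ ≤ (χ.eval (f * g)).re
  pos : ∀ κ : ℝ, Ks ≤ κ → ∀ v f g : ℂ, ‖v‖ ≤ 1 → ‖f‖ ≤ 1 → ‖g‖ ≤ 1 →
    c₀ ≤ ((κ : ℂ) * ψ.eval v + (κ : ℂ)⁻¹ * (v * φ.eval v) - χ.eval v + B * v).re
      + ((κ : ℂ)⁻¹ * (f * ψ.eval (f * g)) + (κ : ℂ) * (g * φ.eval (f * g)) - χ.eval (f * g)
        - B * f).re

/-- almost positivity of a functional with `Λ 1 = 1`, `‖Λ‖ ≤ 1 + δ²` -/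
theorem lam_pos {Λ : (X →ᵇ ℂ) →L[ℂ] ℂ} {δ M : ℝ} (hδ : 0 < δ) (hδ1 : δ ≤ 1) (hM : 0 < M)
    (h1 : Λ 1 = 1) (hn : ‖Λ‖ ≤ 1 + δ ^ 2) (Q : X →ᵇ ℂ) (hQ : ∀ s, 0 ≤ (Q s).re)
    (hQM : ‖Q‖ ≤ M) : -(2 * δ * M) ≤ (Λ Q).re := by
  set R : ℝ := M / δ with hR
  have hRpos : 0 < R := div_pos hM hδ
  have hδR : δ * R = M := by rw [hR]; field_simp
  have h2 : ‖(R : ℂ) • (1 : X →ᵇ ℂ) - Q‖ ≤ R + δ * M / 2 := by
    rw [BoundedContinuousFunction.norm_le (by positivity)]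
    intro t
    have h3 : ((R : ℂ) • (1 : X →ᵇ ℂ) - Q) t = (R : ℂ) - Q t := by
      simp
    rw [h3]
    have h4 : ‖(R : ℂ) - Q t‖ ^ 2 ≤ (R + δ * M / 2) ^ 2 := by
      rw [← Complex.normSq_eq_norm_sq, Complex.normSq_apply]
      have h5 : ‖Q t‖ ≤ M := (Q.norm_coe_le_norm t).trans hQM
      have h6 : ‖Q t‖ ^ 2 ≤ M ^ 2 := pow_le_pow_left₀ (norm_nonneg _) h5 2
      rw [← Complex.normSq_eq_norm_sq, Complex.normSq_apply] at h6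
      simp only [Complex.sub_re, Complex.sub_im, Complex.ofReal_re, Complex.ofReal_im]
      have h7 : 0 ≤ R * (Q t).re := mul_nonneg hRpos.le (hQ t)
      have h8 : (R + δ * M / 2) ^ 2 = R ^ 2 + (δ * R) * M + (δ * M / 2) ^ 2 := by ring
      rw [h8, hδR]
      nlinarith [sq_nonneg (δ * M / 2)]
    exact le_of_sq_le_sq h4 (by positivity)
  have h3 : ‖Λ ((R : ℂ) • (1 : X →ᵇ ℂ) - Q)‖ ≤ (1 + δ ^ 2) * (R + δ * M / 2) := by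
    refine (Λ.le_opNorm _).trans ?_
    exact mul_le_mul hn h2 (norm_nonneg _) (by positivity)
  have h4 : (Λ ((R : ℂ) • (1 : X →ᵇ ℂ) - Q)).re = R - (Λ Q).re := by
    rw [map_sub, map_smul, h1]
    simp
  have h5 := (Complex.re_le_norm (Λ ((R : ℂ) • (1 : X →ᵇ ℂ) - Q))).trans h3
  rw [h4] at h5
  have h6 : (1 + δ ^ 2) * (R + δ * M / 2) = R + δ * M / 2 + δ * (δ * R) + δ ^ 2 * δ * M / 2 := by
    ring
  rw [h6, hδR] at h5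
  have h7 : δ ^ 2 * δ * M / 2 ≤ δ * M / 2 := by
    have : δ ^ 2 ≤ 1 := by nlinarith
    have h8 : 0 < δ * M := mul_pos hδ hM
    nlinarith
  linarith

theorem P_re_ge {P : (X →ᵇ ℂ) →ₗ[ℂ] ℂ} (hP1 : P 1 = 1)
    (hPpos : ∀ k : X →ᵇ ℂ, (∀ t, 0 ≤ (k t).re) → 0 ≤ (P k).re) (W : X →ᵇ ℂ) (c : ℝ)
    (h : ∀ t, c ≤ (W t).re) : c ≤ (P W).re := by
  have h1 := hPpos (W - (c : ℂ) • (1 : X →ᵇ ℂ)) (fun t => by
    have : (W - (c : ℂ) • (1 : X →ᵇ ℂ)) t = W t - (c : ℂ) := by simp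
    rw [this, Complex.sub_re, Complex.ofReal_re]
    linarith [h t])
  rw [map_sub, map_smul, hP1] at h1
  simp at h1
  exact h1

theorem P_norm_le {P : (X →ᵇ ℂ) →ₗ[ℂ] ℂ} (hP1 : P 1 = 1)
    (hPpos : ∀ k : X →ᵇ ℂ, (∀ t, 0 ≤ (k t).re) → 0 ≤ (P k).re) (k : X →ᵇ ℂ) :
    ‖P k‖ ≤ ‖k‖ := by
  by_cases hz : P k = 0
  · rw [hz, norm_zero]; exact norm_nonneg _
  have hz' : 0 < ‖P k‖ := norm_pos_iff.mpr hz
  set ω : ℂ := -(star (P k) / (‖P k‖ : ℂ)) with hω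
  have hωn : ‖ω‖ = 1 := by
    rw [hω, norm_neg, norm_div, norm_star, Complex.norm_real, norm_norm, div_self hz'.ne']
  have h1 : -‖k‖ ≤ (P (ω • k)).re := by
    apply P_re_ge hP1 hPpos
    intro t
    have h2 : ‖(ω • k) t‖ ≤ ‖k‖ := by
      rw [BoundedContinuousFunction.smul_apply, norm_smul, hωn, one_mul]
      exact k.norm_coe_le_norm t
    have h3 := Complex.abs_re_le_norm ((ω • k) t)
    have h4 := neg_abs_le ((ω • k) t).re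
    linarith
  have h5 : P (ω • k) = -(‖P k‖ : ℂ) := by
    rw [map_smul, smul_eq_mul, hω]
    have h2 : star (P k) * P k = ((‖P k‖ ^ 2 : ℝ) : ℂ) := by
      rw [Complex.star_def, mul_comm, Complex.mul_conj, Complex.normSq_eq_norm_sq]
    have : (‖P k‖ : ℂ) ≠ 0 := by exact_mod_cast hz'.ne'
    rw [neg_mul, div_mul_eq_mul_div, h2]
    field_simp
    push_cast
    ring
  rw [h5, Complex.neg_re, Complex.ofReal_re] at h1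
  linarith

/-- evaluation of the first component as an algebra homomorphism -/
noncomputable def evE (t : X) : ((X →ᵇ ℂ) × (H →L[ℂ] H)) →ₐ[ℂ] ℂ where
  toFun p := p.1 t
  map_one' := rfl
  map_mul' _ _ := rfl
  map_zero' := rfl
  map_add' _ _ := rfl
  commutes' c := by
    show (algebraMap ℂ ((X →ᵇ ℂ) × (H →L[ℂ] H)) c).1 t = c
    rfl

omit [CompleteSpace H] in
theorem aeval_fst_apply (v : (X →ᵇ ℂ) × (H →L[ℂ] H)) (ψ : Polynomial ℂ) (t : X) :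
    (Polynomial.aeval v ψ).1 t = ψ.eval (v.1 t) := by
  have h1 : (Polynomial.aeval v ψ).1 t = evE t (Polynomial.aeval v ψ) := rfl
  rw [h1, ← Polynomial.aeval_algHom_apply]
  show Polynomial.aeval (v.1 t) ψ = ψ.eval (v.1 t)
  rw [Polynomial.coe_aeval_eq_eval]

omit [CompleteSpace H] in
theorem aeval_mem_G (G : Subalgebra ℂ ((X →ᵇ ℂ) × (H →L[ℂ] H))) {v : (X →ᵇ ℂ) × (H →L[ℂ] H)}
    (hv : v ∈ G) (ψ : Polynomial ℂ) : Polynomial.aeval v ψ ∈ G := by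
  have h1 : Polynomial.aeval v ψ = ((Polynomial.aeval (⟨v, hv⟩ : G) ψ : G) :
      (X →ᵇ ℂ) × (H →L[ℂ] H)) := by
    rw [Polynomial.aeval_subalgebra_coe]
  rw [h1]
  exact Subtype.property _


/-- the pointwise inequality at one point `s` -/
theorem point_ineq {Ks B c₀ : ℝ} {ψ φ χ : Polynomial ℂ} (cert : Cert Ks ψ φ χ B c₀)
    {P : (X →ᵇ ℂ) →ₗ[ℂ] ℂ} (hP1 : P 1 = 1)
    (hPpos : ∀ k : X →ᵇ ℂ, (∀ t, 0 ≤ (k t).re) → 0 ≤ (P k).re)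
    {κ : ℝ} (hκ : Ks ≤ κ) {f g Ψ Φ Χ : X →ᵇ ℂ} (hf : ‖f‖ ≤ 1) (hg : ‖g‖ ≤ 1)
    (hΨ : ∀ t, Ψ t = f t * ψ.eval (f t * g t)) (hΦ : ∀ t, Φ t = g t * φ.eval (f t * g t))
    (hΧ : ∀ t, Χ t = χ.eval (f t * g t)) {u v : ℂ} (hu : ‖u‖ = 1) (hv : ‖v‖ ≤ 1) :
    c₀ ≤ ((κ : ℂ) * ψ.eval v + (κ : ℂ)⁻¹ * (v * φ.eval v) - χ.eval v + B * v).re
      + ((κ : ℂ)⁻¹ * (u * P (star Ψ)) + (κ : ℂ) * (star u * P (star Φ)) - P (star Χ)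
        - B * (u * P (star f))).re := by
  set c : ℝ := c₀ - ((κ : ℂ) * ψ.eval v + (κ : ℂ)⁻¹ * (v * φ.eval v) - χ.eval v + B * v).re
    with hc
  set W : X →ᵇ ℂ := ((κ : ℂ)⁻¹ * u) • star Ψ + ((κ : ℂ) * star u) • star Φ - star Χ
    - ((B : ℂ) * u) • star f with hW
  have huu : star u * u = 1 := by
    rw [Complex.star_def, mul_comm, Complex.mul_conj, Complex.normSq_eq_norm_sq, hu]
    norm_num
  have h1 : c ≤ (P W).re := by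
    apply P_re_ge hP1 hPpos
    intro t
    have hft : ‖f t‖ ≤ 1 := (f.norm_coe_le_norm t).trans hf
    have hgt : ‖g t‖ ≤ 1 := (g.norm_coe_le_norm t).trans hg
    have h2 := cert.pos κ hκ v (star u * f t) (u * g t) hv
      (by rw [norm_mul, norm_star, hu, one_mul]; exact hft)
      (by rw [norm_mul, hu, one_mul]; exact hgt)
    have h3 : star u * f t * (u * g t) = f t * g t := by
      calc star u * f t * (u * g t) = (star u * u) * (f t * g t) := by ring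
        _ = f t * g t := by rw [huu, one_mul]
    rw [h3] at h2
    have h4 : (W t).re = (star (W t)).re := by rw [Complex.star_def, Complex.conj_re]
    have h5 : star (W t) = (κ : ℂ)⁻¹ * (star u * f t * ψ.eval (f t * g t))
        + (κ : ℂ) * (u * g t * φ.eval (f t * g t)) - χ.eval (f t * g t) - B * (star u * f t) := by
      have h6 : W t = ((κ : ℂ)⁻¹ * u) * star (Ψ t) + ((κ : ℂ) * star u) * star (Φ t)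
          - star (Χ t) - ((B : ℂ) * u) * star (f t) := rfl
      rw [h6, hΨ, hΦ, hΧ]
      simp only [star_sub, star_add, star_mul', star_star, star_inv₀]
      rw [Complex.star_def, Complex.conj_ofReal, Complex.conj_ofReal]
      ring
    rw [h4, h5, hc]
    linarith
  have h2 : P W = (κ : ℂ)⁻¹ * (u * P (star Ψ)) + (κ : ℂ) * (star u * P (star Φ)) - P (star Χ)
      - B * (u * P (star f)) := by
    rw [hW]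
    simp only [map_sub, map_add, map_smul, smul_eq_mul]
    ring
  rw [← h2]
  linarith

/-- the pointwise lower bound for `Q` -/
theorem Q_lower {κ M₀ B c₀ : ℝ} (hκ : 1 ≤ κ) (hM₀ : 0 ≤ M₀) {f₀ g₀ u a b x Ψ' Φ' Χ' : ℂ}
    (hf₀ : ‖f₀‖ ≤ 1) (hg₀ : ‖g₀‖ ≤ 1) (hu : ‖u‖ = 1) (hfu : f₀ = (‖f₀‖ : ℂ) * u)
    (ha : ‖a‖ ≤ M₀) (hΨ' : ‖Ψ'‖ ≤ M₀) (hΦ' : ‖Φ'‖ ≤ M₀)
    (h : c₀ ≤ ((κ : ℂ) * a + (κ : ℂ)⁻¹ * (f₀ * g₀ * b) - x + B * (f₀ * g₀)).re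
      + ((κ : ℂ)⁻¹ * (u * Ψ') + (κ : ℂ) * (star u * Φ') - Χ' - B * (u * g₀)).re) :
    c₀ - ((3 * κ + 1) * M₀ + |B|) * (1 - ‖f₀‖) ≤
      ((κ : ℂ) * (star f₀ * (f₀ * a)) + (κ : ℂ)⁻¹ * (f₀ * Ψ') + (κ : ℂ)⁻¹ * (f₀ * (g₀ * b))
        + (κ : ℂ) * (star f₀ * Φ') - x - Χ').re := by
  set r : ℝ := ‖f₀‖ with hr
  have hr0 : 0 ≤ r := norm_nonneg _
  have hκ0 : 0 < κ := by linarith
  have hκi : κ⁻¹ ≤ 1 := inv_le_one_of_one_le₀ hκ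
  have hκi0 : 0 < κ⁻¹ := inv_pos.mpr hκ0
  have hff : star f₀ * f₀ = ((r ^ 2 : ℝ) : ℂ) := by
    rw [Complex.star_def, mul_comm, Complex.mul_conj, Complex.normSq_eq_norm_sq]
  have hsf : star f₀ = (r : ℂ) * star u := by
    conv_lhs => rw [hfu]
    rw [star_mul', Complex.star_def, Complex.conj_ofReal]
  -- difference of the two expressions
  have hd : ((κ : ℂ) * a + (κ : ℂ)⁻¹ * (f₀ * g₀ * b) - x + B * (f₀ * g₀))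
      + ((κ : ℂ)⁻¹ * (u * Ψ') + (κ : ℂ) * (star u * Φ') - Χ' - B * (u * g₀))
      - ((κ : ℂ) * (star f₀ * (f₀ * a)) + (κ : ℂ)⁻¹ * (f₀ * Ψ') + (κ : ℂ)⁻¹ * (f₀ * (g₀ * b))
        + (κ : ℂ) * (star f₀ * Φ') - x - Χ')
      = ((κ * (1 - r ^ 2) : ℝ) : ℂ) * a + ((κ⁻¹ * (1 - r) : ℝ) : ℂ) * (u * Ψ')
        + ((κ * (1 - r) : ℝ) : ℂ) * (star u * Φ') - ((B * (1 - r) : ℝ) : ℂ) * (u * g₀) := by
    have e1 : star f₀ * (f₀ * a) = ((r ^ 2 : ℝ) : ℂ) * a := by rw [← mul_assoc, hff]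
    rw [e1, hsf]
    have e2 : f₀ * g₀ = (r : ℂ) * (u * g₀) := by
      conv_lhs => rw [hfu]
      ring
    have e3 : f₀ * Ψ' = (r : ℂ) * (u * Ψ') := by
      conv_lhs => rw [hfu]
      ring
    have e4 : (κ : ℂ)⁻¹ * (f₀ * g₀ * b) = (κ : ℂ)⁻¹ * (f₀ * (g₀ * b)) := by ring
    rw [e4, e3]
    have e5 : (B : ℂ) * (f₀ * g₀) = (B : ℂ) * ((r : ℂ) * (u * g₀)) := by rw [e2]
    rw [e5]
    push_cast
    ring
  have hn : ‖((κ * (1 - r ^ 2) : ℝ) : ℂ) * a + ((κ⁻¹ * (1 - r) : ℝ) : ℂ) * (u * Ψ')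
        + ((κ * (1 - r) : ℝ) : ℂ) * (star u * Φ') - ((B * (1 - r) : ℝ) : ℂ) * (u * g₀)‖
      ≤ ((3 * κ + 1) * M₀ + |B|) * (1 - r) := by
    have n1 : ‖((κ * (1 - r ^ 2) : ℝ) : ℂ) * a‖ ≤ κ * (2 * (1 - r)) * M₀ := by
      rw [norm_mul, Complex.norm_real, Real.norm_eq_abs, abs_of_nonneg (by
        apply mul_nonneg hκ0.le; nlinarith)]
      apply mul_le_mul _ ha (norm_nonneg _) (by
        apply mul_nonneg hκ0.le; linarith)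
      apply mul_le_mul_of_nonneg_left _ hκ0.le
      nlinarith
    have n2 : ‖((κ⁻¹ * (1 - r) : ℝ) : ℂ) * (u * Ψ')‖ ≤ (1 - r) * M₀ := by
      rw [norm_mul, norm_mul, hu, one_mul, Complex.norm_real, Real.norm_eq_abs, abs_of_nonneg
        (mul_nonneg hκi0.le (by linarith))]
      apply mul_le_mul _ hΨ' (norm_nonneg _) (by linarith)
      nlinarith
    have n3 : ‖((κ * (1 - r) : ℝ) : ℂ) * (star u * Φ')‖ ≤ κ * (1 - r) * M₀ := by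
      rw [norm_mul, norm_mul, norm_star, hu, one_mul, Complex.norm_real, Real.norm_eq_abs,
        abs_of_nonneg (mul_nonneg hκ0.le (by linarith))]
      apply mul_le_mul_of_nonneg_left hΦ'
      exact mul_nonneg hκ0.le (by linarith)
    have n4 : ‖((B * (1 - r) : ℝ) : ℂ) * (u * g₀)‖ ≤ |B| * (1 - r) := by
      rw [norm_mul, norm_mul, hu, one_mul, Complex.norm_real, Real.norm_eq_abs, abs_mul,
        abs_of_nonneg (by linarith : (0 : ℝ) ≤ 1 - r)]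
      have : 0 ≤ |B| * (1 - r) := mul_nonneg (abs_nonneg _) (by linarith)
      nlinarith [norm_nonneg g₀]
    calc _ ≤ ‖((κ * (1 - r ^ 2) : ℝ) : ℂ) * a + ((κ⁻¹ * (1 - r) : ℝ) : ℂ) * (u * Ψ')
        + ((κ * (1 - r) : ℝ) : ℂ) * (star u * Φ')‖ + ‖((B * (1 - r) : ℝ) : ℂ) * (u * g₀)‖ :=
          norm_sub_le _ _
      _ ≤ (‖((κ * (1 - r ^ 2) : ℝ) : ℂ) * a‖ + ‖((κ⁻¹ * (1 - r) : ℝ) : ℂ) * (u * Ψ')‖
        + ‖((κ * (1 - r) : ℝ) : ℂ) * (star u * Φ')‖)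
          + ‖((B * (1 - r) : ℝ) : ℂ) * (u * g₀)‖ := by
          gcongr
          exact norm_add₃_le
      _ ≤ (κ * (2 * (1 - r)) * M₀ + (1 - r) * M₀ + κ * (1 - r) * M₀) + |B| * (1 - r) := by
          linarith
      _ = ((3 * κ + 1) * M₀ + |B|) * (1 - r) := by ring
  have h1 := (Complex.re_le_norm _).trans hn
  rw [← hd, Complex.sub_re, Complex.add_re] at h1
  linarith


/-- The main estimate for near-extremal data: everything is expressed through `Λ`. -/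
theorem main_est {Ks B c₀ : ℝ} {ψ φ χ : Polynomial ℂ} (cert : Cert Ks ψ φ χ B c₀)
    (G : Subalgebra ℂ ((X →ᵇ ℂ) × (H →L[ℂ] H)))
    (P : X → (X →ᵇ ℂ) →ₗ[ℂ] ℂ) (hP1 : ∀ s, P s 1 = 1)
    (hPpos : ∀ s, ∀ k : X →ᵇ ℂ, (∀ t, 0 ≤ (k t).re) → 0 ≤ (P s k).re)
    (S : (X →ᵇ ℂ) → (H →L[ℂ] H)) (hSadd : ∀ k l, S (k + l) = S k + S l)
    (hSstar : ∀ k, S (star k) = ContinuousLinearMap.adjoint (S k))
    (hS : ∀ k χ : X →ᵇ ℂ, (∀ t, ‖k t‖ ≤ (χ t).re) → ∀ x y : H,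
      (⟪y, S k x⟫_ℂ).re ≤ ((⟪x, S χ x⟫_ℂ).re + (⟪y, S χ y⟫_ℂ).re) / 2)
    (hG : ∀ p ∈ G, ∃ q ∈ G, (∀ s, q.1 s = P s (star p.1)) ∧
      S p.1 = p.2 + ContinuousLinearMap.adjoint q.2)
    {M₀ : ℝ} (hM₀ : ∀ z : ℂ, ‖z‖ ≤ 1 → ‖ψ.eval z‖ ≤ M₀ ∧ ‖φ.eval z‖ ≤ M₀ ∧ ‖χ.eval z‖ ≤ M₀)
    {p : (X →ᵇ ℂ) × (H →L[ℂ] H)} (hp : p ∈ G) (hp1 : ‖p.1‖ ≤ 1) {x y : H} {κ ε : ℝ}
    (hκ : Ks ≤ κ) (hε : 0 ≤ ε)
    {Λ : (X →ᵇ ℂ) →L[ℂ] ℂ}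
    (e1 : ∀ q ∈ G, ‖⟪y, q.2 x⟫_ℂ - κ * Λ (star p.1 * q.1)‖ ≤ ε * ‖q.1‖)
    (e2 : ∀ q ∈ G, ‖⟪x, q.2 x⟫_ℂ - Λ q.1‖ ≤ ε * ‖q.1‖)
    (e3 : ∀ q ∈ G, ⟪y, q.2 y⟫_ℂ = Λ q.1)
    (e4 : ∀ q ∈ G, ‖⟪x, q.2 y⟫_ℂ - (κ : ℂ)⁻¹ * Λ (p.1 * q.1)‖ ≤ ε * ‖q.1‖) :
    ∃ Q : X →ᵇ ℂ, (Λ Q).re ≤ 5 * M₀ * ε ∧ ‖Q‖ ≤ (4 * κ + 2) * M₀ ∧
      ∀ s, c₀ - ((3 * κ + 1) * M₀ + |B|) * (1 - ‖p.1 s‖) ≤ (Q s).re := by
  have hM0 : 0 ≤ M₀ := (norm_nonneg _).trans (hM₀ 0 (by simp)).1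
  have hκ1 : 1 ≤ κ := cert.Ks_ge.trans hκ
  have hκ0 : 0 < κ := by linarith
  have hκi : κ⁻¹ ≤ 1 := inv_le_one_of_one_le₀ hκ1
  have hκi0 : 0 ≤ κ⁻¹ := inv_nonneg.mpr hκ0.le
  have hbd : ∀ (k l : X →ᵇ ℂ), (∀ s, l s = P s (star k)) → ‖k‖ ≤ M₀ → ‖l‖ ≤ M₀ := by
    intro k l hl hk
    rw [BoundedContinuousFunction.norm_le hM0]
    intro s
    rw [hl s]
    refine (P_norm_le (hP1 s) (hPpos s) _).trans ?_
    rwa [norm_star]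
  obtain ⟨q, hq, hq1, hq2⟩ := hG p hp
  have hq1n : ‖q.1‖ ≤ 1 := by
    rw [BoundedContinuousFunction.norm_le zero_le_one]
    intro s
    rw [hq1 s]
    refine (P_norm_le (hP1 s) (hPpos s) _).trans ?_
    rwa [norm_star]
  have hpt : ∀ t, ‖p.1 t‖ ≤ 1 := fun t => (p.1.norm_coe_le_norm t).trans hp1
  have hqt : ∀ t, ‖q.1 t‖ ≤ 1 := fun t => (q.1.norm_coe_le_norm t).trans hq1n
  have hv1 : ∀ t, ‖p.1 t * q.1 t‖ ≤ 1 := by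
    intro t
    rw [norm_mul]
    exact mul_le_one₀ (hpt t) (norm_nonneg _) (hqt t)
  set v := p * q with hv
  have hvG : v ∈ G := G.mul_mem hp hq
  set Ψ := p * Polynomial.aeval v ψ with hΨ
  set Φ := q * Polynomial.aeval v φ with hΦ
  set Χ := Polynomial.aeval v χ with hΧ
  have hΨG : Ψ ∈ G := G.mul_mem hp (aeval_mem_G G hvG ψ)
  have hΦG : Φ ∈ G := G.mul_mem hq (aeval_mem_G G hvG φ)
  have hΧG : Χ ∈ G := aeval_mem_G G hvG χ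
  have aΨ : ∀ t, Ψ.1 t = p.1 t * ψ.eval (p.1 t * q.1 t) := by
    intro t
    show p.1 t * (Polynomial.aeval v ψ).1 t = _
    rw [aeval_fst_apply]
    rfl
  have aΦ : ∀ t, Φ.1 t = q.1 t * φ.eval (p.1 t * q.1 t) := by
    intro t
    show q.1 t * (Polynomial.aeval v φ).1 t = _
    rw [aeval_fst_apply]
    rfl
  have aΧ : ∀ t, Χ.1 t = χ.eval (p.1 t * q.1 t) := by
    intro t
    rw [hΧ, aeval_fst_apply]
    rfl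
  have nΨ : ‖Ψ.1‖ ≤ M₀ := by
    rw [BoundedContinuousFunction.norm_le hM0]
    intro t
    rw [aΨ t, norm_mul]
    have := (hM₀ _ (hv1 t)).1
    calc _ ≤ 1 * M₀ := mul_le_mul (hpt t) this (norm_nonneg _) zero_le_one
      _ = M₀ := one_mul _
  have nΦ : ‖Φ.1‖ ≤ M₀ := by
    rw [BoundedContinuousFunction.norm_le hM0]
    intro t
    rw [aΦ t, norm_mul]
    have := (hM₀ _ (hv1 t)).2.1
    calc _ ≤ 1 * M₀ := mul_le_mul (hqt t) this (norm_nonneg _) zero_le_one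
      _ = M₀ := one_mul _
  have nΧ : ‖Χ.1‖ ≤ M₀ := by
    rw [BoundedContinuousFunction.norm_le hM0]
    intro t
    rw [aΧ t]
    exact (hM₀ _ (hv1 t)).2.2
  obtain ⟨Ψ', hΨ'G, hΨ'1, hΨ'2⟩ := hG Ψ hΨG
  obtain ⟨Φ', hΦ'G, hΦ'1, hΦ'2⟩ := hG Φ hΦG
  obtain ⟨Χ', hΧ'G, hΧ'1, hΧ'2⟩ := hG Χ hΧG
  have nΨ' := hbd Ψ.1 Ψ'.1 hΨ'1 nΨ
  have nΦ' := hbd Φ.1 Φ'.1 hΦ'1 nΦ
  have nΧ' := hbd Χ.1 Χ'.1 hΧ'1 nΧ
  -- the test inequality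
  have hT := hS (Ψ.1 + star Φ.1) Χ.1 (fun t => by
    have h1 := cert.maj (p.1 t) (q.1 t) (hpt t) (hqt t)
    have h2 : (Ψ.1 + star Φ.1) t = p.1 t * ψ.eval (p.1 t * q.1 t)
        + star (q.1 t * φ.eval (p.1 t * q.1 t)) := by
      show Ψ.1 t + star (Φ.1 t) = _
      rw [aΨ, aΦ]
    rw [h2, aΧ]
    exact h1) x y
  have hL : ⟪y, S (Ψ.1 + star Φ.1) x⟫_ℂ = ⟪y, Ψ.2 x⟫_ℂ + star ⟪x, Ψ'.2 y⟫_ℂ
      + star ⟪x, Φ.2 y⟫_ℂ + ⟪y, Φ'.2 x⟫_ℂ := by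
    rw [hSadd, hSstar, hΨ'2, hΦ'2, map_add, ContinuousLinearMap.adjoint_adjoint]
    simp only [add_apply, inner_add_right,
      ContinuousLinearMap.adjoint_inner_right]
    rw [← inner_conj_symm (Ψ'.2 y) x, ← inner_conj_symm (Φ.2 y) x]
    rw [Complex.star_def]
    ring
  have hR1 : ⟪x, S Χ.1 x⟫_ℂ = ⟪x, Χ.2 x⟫_ℂ + star ⟪x, Χ'.2 x⟫_ℂ := by
    rw [hΧ'2, add_apply, inner_add_right,
      ContinuousLinearMap.adjoint_inner_right, ← inner_conj_symm (Χ'.2 x) x]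
    rfl
  have hR2 : ⟪y, S Χ.1 y⟫_ℂ = ⟪y, Χ.2 y⟫_ℂ + star ⟪y, Χ'.2 y⟫_ℂ := by
    rw [hΧ'2, add_apply, inner_add_right,
      ContinuousLinearMap.adjoint_inner_right, ← inner_conj_symm (Χ'.2 y) y]
    rfl
  rw [hL, hR1, hR2] at hT
  simp only [Complex.add_re, Complex.star_def, Complex.conj_re] at hT
  -- pass to Λ
  have bd : ∀ (w : ℂ) (z : ℂ) (k : X →ᵇ ℂ), ‖w - z‖ ≤ ε * ‖k‖ → ‖k‖ ≤ M₀ →
      |w.re - z.re| ≤ ε * M₀ := by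
    intro w z k h1 h2
    rw [← Complex.sub_re]
    exact (Complex.abs_re_le_norm _).trans (h1.trans (mul_le_mul_of_nonneg_left h2 hε))
  have t1 := abs_le.mp (bd _ _ _ (e1 Ψ hΨG) nΨ)
  have t2 := abs_le.mp (bd _ _ _ (e4 Ψ' hΨ'G) nΨ')
  have t3 := abs_le.mp (bd _ _ _ (e4 Φ hΦG) nΦ)
  have t4 := abs_le.mp (bd _ _ _ (e1 Φ' hΦ'G) nΦ')
  have t5 := abs_le.mp (bd _ _ _ (e2 Χ hΧG) nΧ)
  have t6 := abs_le.mp (bd _ _ _ (e2 Χ' hΧ'G) nΧ')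
  rw [e3 Χ hΧG, e3 Χ' hΧ'G] at hT
  set Q : X →ᵇ ℂ := (κ : ℂ) • (star p.1 * Ψ.1) + (κ : ℂ)⁻¹ • (p.1 * Ψ'.1)
    + (κ : ℂ)⁻¹ • (p.1 * Φ.1) + (κ : ℂ) • (star p.1 * Φ'.1) - Χ.1 - Χ'.1 with hQ
  have hΛQ : Λ Q = (κ : ℂ) * Λ (star p.1 * Ψ.1) + (κ : ℂ)⁻¹ * Λ (p.1 * Ψ'.1)
    + (κ : ℂ)⁻¹ * Λ (p.1 * Φ.1) + (κ : ℂ) * Λ (star p.1 * Φ'.1) - Λ Χ.1 - Λ Χ'.1 := by
    rw [hQ]
    simp only [map_sub, map_add, map_smul, smul_eq_mul]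
  refine ⟨Q, ?_, ?_, ?_⟩
  · rw [hΛQ]
    simp only [Complex.add_re, Complex.sub_re]
    linarith [t1.1, t1.2, t2.1, t2.2, t3.1, t3.2, t4.1, t4.2, t5.1, t5.2, t6.1, t6.2]
  · have hsp : ‖star p.1‖ ≤ 1 := by rwa [norm_star]
    have m1 : ∀ (a b : X →ᵇ ℂ) (c : ℂ), ‖a‖ ≤ 1 → ‖b‖ ≤ M₀ → ‖c • (a * b)‖ ≤ ‖c‖ * M₀ := by
      intro a b c ha hb
      refine (norm_smul_le _ _).trans (mul_le_mul_of_nonneg_left ?_ (norm_nonneg _))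
      calc ‖a * b‖ ≤ ‖a‖ * ‖b‖ := norm_mul_le _ _
        _ ≤ 1 * M₀ := mul_le_mul ha hb (norm_nonneg _) zero_le_one
        _ = M₀ := one_mul _
    have nκ : ‖(κ : ℂ)‖ = κ := by
      rw [Complex.norm_real, Real.norm_eq_abs, abs_of_pos hκ0]
    have nκi : ‖(κ : ℂ)⁻¹‖ ≤ 1 := by rw [norm_inv, nκ]; exact hκi
    have c1 := m1 _ _ (κ : ℂ) hsp nΨ
    have c2 := m1 _ _ ((κ : ℂ)⁻¹) hp1 nΨ'
    have c3 := m1 _ _ ((κ : ℂ)⁻¹) hp1 nΦ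
    have c4 := m1 _ _ (κ : ℂ) hsp nΦ'
    rw [nκ] at c1 c4
    have d1 : ‖(κ : ℂ)⁻¹‖ * M₀ ≤ κ * M₀ :=
      mul_le_mul_of_nonneg_right (nκi.trans hκ1) hM0
    have h1 := norm_sub_le ((κ : ℂ) • (star p.1 * Ψ.1) + (κ : ℂ)⁻¹ • (p.1 * Ψ'.1)
      + (κ : ℂ)⁻¹ • (p.1 * Φ.1) + (κ : ℂ) • (star p.1 * Φ'.1) - Χ.1) Χ'.1
    have h2 := norm_sub_le ((κ : ℂ) • (star p.1 * Ψ.1) + (κ : ℂ)⁻¹ • (p.1 * Ψ'.1)
      + (κ : ℂ)⁻¹ • (p.1 * Φ.1) + (κ : ℂ) • (star p.1 * Φ'.1)) Χ.1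
    have h3 := norm_add_le ((κ : ℂ) • (star p.1 * Ψ.1) + (κ : ℂ)⁻¹ • (p.1 * Ψ'.1)
      + (κ : ℂ)⁻¹ • (p.1 * Φ.1)) ((κ : ℂ) • (star p.1 * Φ'.1))
    have h4 := norm_add_le ((κ : ℂ) • (star p.1 * Ψ.1) + (κ : ℂ)⁻¹ • (p.1 * Ψ'.1))
      ((κ : ℂ)⁻¹ • (p.1 * Φ.1))
    have h5 := norm_add_le ((κ : ℂ) • (star p.1 * Ψ.1)) ((κ : ℂ)⁻¹ • (p.1 * Ψ'.1))
    have h6 : ‖Q‖ = ‖(κ : ℂ) • (star p.1 * Ψ.1) + (κ : ℂ)⁻¹ • (p.1 * Ψ'.1)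
      + (κ : ℂ)⁻¹ • (p.1 * Φ.1) + (κ : ℂ) • (star p.1 * Φ'.1) - Χ.1 - Χ'.1‖ := rfl
    rw [h6]
    linarith
  · intro s
    have hQs : Q s = (κ : ℂ) * (star (p.1 s) * (p.1 s * ψ.eval (p.1 s * q.1 s)))
        + (κ : ℂ)⁻¹ * (p.1 s * Ψ'.1 s)
        + (κ : ℂ)⁻¹ * (p.1 s * (q.1 s * φ.eval (p.1 s * q.1 s)))
        + (κ : ℂ) * (star (p.1 s) * Φ'.1 s) - χ.eval (p.1 s * q.1 s) - Χ'.1 s := by
      rw [← aΨ s, ← aΦ s, ← aΧ s]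
      rfl
    rw [hQs]
    -- the phase of f(s)
    obtain ⟨u, hu, hfu⟩ : ∃ u : ℂ, ‖u‖ = 1 ∧ p.1 s = (‖p.1 s‖ : ℂ) * u := by
      by_cases h0 : p.1 s = 0
      · exact ⟨1, norm_one, by rw [h0]; simp⟩
      · have hne : (‖p.1 s‖ : ℂ) ≠ 0 := by
          exact_mod_cast (norm_pos_iff.mpr h0).ne'
        refine ⟨p.1 s / (‖p.1 s‖ : ℂ), ?_, ?_⟩
        · rw [norm_div, Complex.norm_real, norm_norm, div_self (norm_pos_iff.mpr h0).ne']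
        · field_simp
    have h1 := point_ineq cert (hP1 s) (hPpos s) hκ hp1 hq1n aΨ aΦ aΧ hu (hv1 s)
    rw [← hΨ'1 s, ← hΦ'1 s, ← hΧ'1 s, ← hq1 s] at h1
    exact Q_lower hκ1 hM0 (hpt s) (hqt s) hu hfu (hM₀ _ (hv1 s)).1
      ((Ψ'.1.norm_coe_le_norm s).trans nΨ') ((Φ'.1.norm_coe_le_norm s).trans nΦ') h1

/-- The abstract theorem. -/
theorem abstract_bound {Ks B c₀ : ℝ} {ψ φ χ : Polynomial ℂ} (cert : Cert Ks ψ φ χ B c₀)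
    (G : Subalgebra ℂ ((X →ᵇ ℂ) × (H →L[ℂ] H))) (K₀ : ℝ)
    (hK₀ : ∀ p ∈ G, ‖p.2‖ ≤ K₀ * ‖p.1‖)
    (P : X → (X →ᵇ ℂ) →ₗ[ℂ] ℂ) (hP1 : ∀ s, P s 1 = 1)
    (hPpos : ∀ s, ∀ k : X →ᵇ ℂ, (∀ t, 0 ≤ (k t).re) → 0 ≤ (P s k).re)
    (S : (X →ᵇ ℂ) → (H →L[ℂ] H)) (hSadd : ∀ k l, S (k + l) = S k + S l)
    (hSstar : ∀ k, S (star k) = ContinuousLinearMap.adjoint (S k))
    (hS : ∀ k χ : X →ᵇ ℂ, (∀ t, ‖k t‖ ≤ (χ t).re) → ∀ x y : H,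
      (⟪y, S k x⟫_ℂ).re ≤ ((⟪x, S χ x⟫_ℂ).re + (⟪y, S χ y⟫_ℂ).re) / 2)
    (hG : ∀ p ∈ G, ∃ q ∈ G, (∀ s, q.1 s = P s (star p.1)) ∧
      S p.1 = p.2 + ContinuousLinearMap.adjoint q.2)
    {p₀ : (X →ᵇ ℂ) × (H →L[ℂ] H)} (hp₀ : p₀ ∈ G) : ‖p₀.2‖ ≤ Ks * ‖p₀.1‖ := by
  by_contra hcon
  push Not at hcon
  have hKs := cert.Ks_ge
  -- the optimal constant
  set T : Set ℝ := {r | ∃ p ∈ G, ‖p.1‖ ≤ 1 ∧ r = ‖p.2‖} with hT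
  have hTne : T.Nonempty := ⟨0, 0, G.zero_mem, by simp, by simp⟩
  have hTbdd : BddAbove T := by
    refine ⟨|K₀|, ?_⟩
    rintro r ⟨p, hp, hp1, rfl⟩
    calc ‖p.2‖ ≤ K₀ * ‖p.1‖ := hK₀ p hp
      _ ≤ |K₀| * ‖p.1‖ := mul_le_mul_of_nonneg_right (le_abs_self _) (norm_nonneg _)
      _ ≤ |K₀| * 1 := mul_le_mul_of_nonneg_left hp1 (abs_nonneg _)
      _ = |K₀| := mul_one _
  set K : ℝ := sSup T with hKdef
  have hK : ∀ p ∈ G, ‖p.2‖ ≤ K * ‖p.1‖ := by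
    intro p hp
    by_cases h0 : ‖p.1‖ = 0
    · have := hK₀ p hp
      rw [h0, mul_zero] at this
      rw [h0, mul_zero]; exact this
    · have hpos : 0 < ‖p.1‖ := lt_of_le_of_ne (norm_nonneg _) (Ne.symm h0)
      have h1 : ‖((((‖p.1‖ : ℝ) : ℂ)⁻¹ • p)).2‖ ≤ K := by
        apply le_csSup hTbdd
        refine ⟨((‖p.1‖ : ℝ) : ℂ)⁻¹ • p, G.smul_mem hp _, ?_, rfl⟩
        rw [Prod.smul_fst, norm_smul, norm_inv, Complex.norm_real, norm_norm,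
          inv_mul_cancel₀ hpos.ne']
      rw [Prod.smul_snd, norm_smul, norm_inv, Complex.norm_real, norm_norm,
        inv_mul_le_iff₀ hpos] at h1
      linarith
  have hsup : ∀ K' < K, ∃ p ∈ G, ‖p.1‖ ≤ 1 ∧ K' < ‖p.2‖ := by
    intro K' hK'
    obtain ⟨r, ⟨p, hp, hp1, rfl⟩, hr⟩ := exists_lt_of_lt_csSup hTne hK'
    exact ⟨p, hp, hp1, hr⟩
  have hKKs : Ks < K := by
    by_contra h
    push Not at h
    have h1 := hK p₀ hp₀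
    have h2 : K * ‖p₀.1‖ ≤ Ks * ‖p₀.1‖ := mul_le_mul_of_nonneg_right h (norm_nonneg _)
    linarith
  have hK1 : 1 ≤ K := by linarith
  -- bound for the polynomials
  obtain ⟨M₀, hM₀⟩ : ∃ M₀ : ℝ, ∀ z : ℂ, ‖z‖ ≤ 1 →
      ‖ψ.eval z‖ ≤ M₀ ∧ ‖φ.eval z‖ ≤ M₀ ∧ ‖χ.eval z‖ ≤ M₀ := by
    have hc : IsCompact (Metric.closedBall (0 : ℂ) 1) := isCompact_closedBall _ _
    obtain ⟨a, ha⟩ := hc.exists_bound_of_continuousOn (f := fun z => ψ.eval z)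
      ψ.continuous.continuousOn
    obtain ⟨b, hb⟩ := hc.exists_bound_of_continuousOn (f := fun z => φ.eval z)
      φ.continuous.continuousOn
    obtain ⟨c, hc'⟩ := hc.exists_bound_of_continuousOn (f := fun z => χ.eval z)
      χ.continuous.continuousOn
    refine ⟨max a (max b c), fun z hz => ?_⟩
    have hz' : z ∈ Metric.closedBall (0 : ℂ) 1 := by simpa using hz
    exact ⟨(ha z hz').trans (le_max_left _ _),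
      (hb z hz').trans ((le_max_left _ _).trans (le_max_right _ _)),
      (hc' z hz').trans ((le_max_right _ _).trans (le_max_right _ _))⟩
  have hM0 : 0 ≤ M₀ := (norm_nonneg _).trans (hM₀ 0 (by simp)).1
  have hc0 := cert.c0_pos
  set C₂ : ℝ := (3 * K + 1) * M₀ + |B| with hC₂
  have hC₂0 : 0 ≤ C₂ := by
    have := abs_nonneg B
    positivity
  set M₁ : ℝ := (4 * K + 2) * M₀ + c₀ + 2 * C₂ with hM₁
  have hM₁0 : 0 < M₁ := by positivity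
  -- choice of δ
  obtain ⟨δ, hδ0, hδ1, hδ2, hδ3⟩ : ∃ δ : ℝ, 0 < δ ∧ δ ≤ 1 ∧ δ ≤ K - Ks ∧
      δ * (2 * M₁ + 5 * M₀ + C₂) < c₀ := by
    have hD : 0 < 2 * M₁ + 5 * M₀ + C₂ := by positivity
    refine ⟨min 1 (min (K - Ks) (c₀ / (2 * (2 * M₁ + 5 * M₀ + C₂)))), ?_, min_le_left _ _,
      (min_le_right _ _).trans (min_le_left _ _), ?_⟩
    · apply lt_min (by norm_num)
      apply lt_min (by linarith)
      positivity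
    · have h1 : min 1 (min (K - Ks) (c₀ / (2 * (2 * M₁ + 5 * M₀ + C₂))))
          ≤ c₀ / (2 * (2 * M₁ + 5 * M₀ + C₂)) :=
        (min_le_right _ _).trans (min_le_right _ _)
      calc _ ≤ c₀ / (2 * (2 * M₁ + 5 * M₀ + C₂)) * (2 * M₁ + 5 * M₀ + C₂) :=
            mul_le_mul_of_nonneg_right h1 hD.le
        _ = c₀ / 2 := by field_simp
        _ < c₀ := by linarith
  have hδsq : δ ^ 2 ≤ δ := by nlinarith
  obtain ⟨p, hp, x, y, κ, Λ, hp1, hx, hy, hκ1, hκ2, hκh, hΛ1, hΛn, hΛabs, e1, e2, e3, e4⟩ :=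
    near_ext G K hK1 hK hsup (δ ^ 2) (by positivity)
  have hκKs : Ks ≤ κ := by linarith
  obtain ⟨Q, hQ1, hQ2, hQ3⟩ := main_est cert G P hP1 hPpos S hSadd hSstar hS hG hM₀ hp hp1 hκKs
    (by positivity : (0 : ℝ) ≤ δ ^ 2) e1 e2 e3 e4
  -- Q + C₂ (1 - |f|) - c₀
  set Q' : X →ᵇ ℂ := Q + (C₂ : ℂ) • ((1 - absE p.1) * 1) - (c₀ : ℂ) • (1 : X →ᵇ ℂ) with hQ'
  have hpt : ∀ t, ‖p.1 t‖ ≤ 1 := fun t => (p.1.norm_coe_le_norm t).trans hp1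
  have h1 : ∀ s, 0 ≤ (Q' s).re := by
    intro s
    have h2 : Q' s = Q s + (C₂ : ℂ) * ((1 - ((‖p.1 s‖ : ℝ) : ℂ)) * 1) - (c₀ : ℂ) := by
      simp [hQ', absE_apply]
    have h3 : (Q' s).re = (Q s).re + C₂ * (1 - ‖p.1 s‖) - c₀ := by
      rw [h2]
      simp
    rw [h3]
    have h4 := hQ3 s
    have h5 : ((3 * κ + 1) * M₀ + |B|) * (1 - ‖p.1 s‖) ≤ C₂ * (1 - ‖p.1 s‖) := by
      apply mul_le_mul_of_nonneg_right _ (by linarith [hpt s])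
      rw [hC₂]
      nlinarith
    linarith
  have h2 : ‖Q'‖ ≤ M₁ := by
    have a1 : ‖(1 - absE p.1) * (1 : X →ᵇ ℂ)‖ ≤ 2 := by
      rw [BoundedContinuousFunction.norm_le (by norm_num)]
      intro t
      have : ((1 - absE p.1) * (1 : X →ᵇ ℂ)) t = ((1 - ‖p.1 t‖ : ℝ) : ℂ) := by
        simp [absE_apply]
      rw [this, Complex.norm_real, Real.norm_eq_abs, abs_of_nonneg (by linarith [hpt t])]
      linarith [norm_nonneg (p.1 t)]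
    have a2 : ‖(C₂ : ℂ) • ((1 - absE p.1) * (1 : X →ᵇ ℂ))‖ ≤ C₂ * 2 := by
      refine (norm_smul_le _ _).trans ?_
      rw [Complex.norm_real, Real.norm_eq_abs, abs_of_nonneg hC₂0]
      exact mul_le_mul_of_nonneg_left a1 hC₂0
    have a3 : ‖(c₀ : ℂ) • (1 : X →ᵇ ℂ)‖ ≤ c₀ := by
      rw [BoundedContinuousFunction.norm_le hc0.le]
      intro t
      have : ((c₀ : ℂ) • (1 : X →ᵇ ℂ)) t = (c₀ : ℂ) := by simp
      rw [this, Complex.norm_real, Real.norm_eq_abs, abs_of_pos hc0]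
    have a4 : (4 * κ + 2) * M₀ ≤ (4 * K + 2) * M₀ := by
      apply mul_le_mul_of_nonneg_right _ hM0
      linarith
    calc ‖Q'‖ ≤ ‖Q + (C₂ : ℂ) • ((1 - absE p.1) * 1)‖ + ‖(c₀ : ℂ) • (1 : X →ᵇ ℂ)‖ :=
          norm_sub_le _ _
      _ ≤ (‖Q‖ + ‖(C₂ : ℂ) • ((1 - absE p.1) * (1 : X →ᵇ ℂ))‖) + c₀ :=
          add_le_add (norm_add_le _ _) a3
      _ ≤ M₁ := by rw [hM₁]; linarith
  have h3 := lam_pos hδ0 hδ1 hM₁0 hΛ1 hΛn Q' h1 h2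
  have h4 : Λ Q' = Λ Q + (C₂ : ℂ) * Λ ((1 - absE p.1) * 1) - (c₀ : ℂ) := by
    rw [hQ', map_sub, map_add, map_smul, map_smul, hΛ1]
    simp
  have h5 : (Λ Q').re ≤ 5 * M₀ * δ ^ 2 + C₂ * δ ^ 2 - c₀ := by
    rw [h4]
    have h6 : ‖Λ ((1 - absE p.1) * (1 : X →ᵇ ℂ))‖ ≤ δ ^ 2 := by
      refine (hΛabs 1).trans ?_
      have h7 : ‖(1 : X →ᵇ ℂ)‖ ≤ 1 := by
        rw [BoundedContinuousFunction.norm_le zero_le_one]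
        intro t; simp
      calc δ ^ 2 * ‖(1 : X →ᵇ ℂ)‖ ≤ δ ^ 2 * 1 :=
            mul_le_mul_of_nonneg_left h7 (by positivity)
        _ = δ ^ 2 := mul_one _
    have h8 := (Complex.re_le_norm (Λ ((1 - absE p.1) * (1 : X →ᵇ ℂ)))).trans h6
    have h9 : ((C₂ : ℂ) * Λ ((1 - absE p.1) * (1 : X →ᵇ ℂ))).re
        = C₂ * (Λ ((1 - absE p.1) * (1 : X →ᵇ ℂ))).re := by
      simp
    have h10 : C₂ * (Λ ((1 - absE p.1) * (1 : X →ᵇ ℂ))).re ≤ C₂ * δ ^ 2 :=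
      mul_le_mul_of_nonneg_left h8 hC₂0
    rw [Complex.sub_re, Complex.add_re, h9, Complex.ofReal_re]
    linarith
  have h6 : 5 * M₀ * δ ^ 2 ≤ 5 * M₀ * δ := mul_le_mul_of_nonneg_left hδsq (by positivity)
  have h7 : C₂ * δ ^ 2 ≤ C₂ * δ := mul_le_mul_of_nonneg_left hδsq hC₂0
  nlinarith

end Vale.Agent.P123
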