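import Vale.Agent.Lib.P123.Res

namespace Vale.Agent.P123

open MeasureTheory
open scoped Real InnerProductSpace BoundedContinuousFunction

variable {h : ℝ → ℝ} {H : Type*} [NormedAddCommGroup H] [InnerProductSpace ℂ H] [CompleteSpace H]
  {A : H →L[ℂ] H} {δ : ℝ}

set_option linter.unusedSectionVars false

/-! ### elementary facts about the curve -/

theorem exists_cur_bound (hh : Adm h) : ∃ M : ℝ, 0 ≤ M ∧ ∀ s, ‖cur h s‖ ≤ M := by
  obtain ⟨C, hC⟩ := (isCompact_Icc (a := (0 : ℝ)) (b := 2 * π)).exists_bound_of_continuousOn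
    (continuous_cur hh).continuousOn
  have hp : Function.Periodic (cur h) (2 * π) := fun θ => cur_per hh θ
  refine ⟨C, le_trans (norm_nonneg _) (hC 0 ⟨le_rfl, by positivity⟩), fun s => ?_⟩
  obtain ⟨y, hy, hs⟩ := hp.exists_mem_Ico₀ (by positivity) s
  rw [hs]
  exact hC y ⟨hy.1, hy.2.le⟩

theorem exists_dcur_bound (hh : Adm h) : ∃ M : ℝ, 0 ≤ M ∧ ∀ s, ‖dcur h s‖ ≤ M := by
  obtain ⟨C, hC⟩ := (isCompact_Icc (a := (0 : ℝ)) (b := 2 * π)).exists_bound_of_continuousOn
    (continuous_dcur hh).continuousOn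
  have hp : Function.Periodic (dcur h) (2 * π) := fun θ => dcur_per hh θ
  refine ⟨C, le_trans (norm_nonneg _) (hC 0 ⟨le_rfl, by positivity⟩), fun s => ?_⟩
  obtain ⟨y, hy, hs⟩ := hp.exists_mem_Ico₀ (by positivity) s
  rw [hs]
  exact hC y ⟨hy.1, hy.2.le⟩

theorem sub_pos_norm (hh : Adm h) {r : ℝ} (h0 : 0 ≤ r) (h1 : r < 1) (t s : ℝ) :
    0 < ‖cur h t - r * cur h s‖ :=
  lt_of_lt_of_le (mul_pos (by linarith) (hh.pos t)) (norm_sub_ge hh h0 h1.le t s)

theorem sub_ne (hh : Adm h) {r : ℝ} (h0 : 0 ≤ r) (h1 : r < 1) (t s : ℝ) :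
    cur h t - r * cur h s ≠ 0 := norm_pos_iff.mp (sub_pos_norm hh h0 h1 t s)

theorem cur_ne_zero (hh : Adm h) (t : ℝ) : cur h t ≠ 0 := by
  have := sub_ne hh le_rfl zero_lt_one t t
  simpa using this

theorem bcf_cur_apply (hh : Adm h) (s : ℝ) : bcf (cur h) s = cur h s := by
  obtain ⟨M, _, hM⟩ := exists_cur_bound hh
  exact bcf_apply (continuous_cur hh) M hM s

theorem gen_fst_apply (hh : Adm h) {r : ℝ} (h0 : 0 ≤ r) (h1 : r < 1) (t s : ℝ) :
    (gen h A r t).1 s = (cur h t - r * cur h s)⁻¹ := by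
  have hc : Continuous (fun s => (cur h t - r * cur h s)⁻¹) := by
    apply Continuous.inv₀
    · exact continuous_const.sub (continuous_const.mul (continuous_cur hh))
    · intro s; exact sub_ne hh h0 h1 t s
  refine bcf_apply hc (((1 - r) * h t)⁻¹) (fun s => ?_) s
  rw [norm_inv]
  exact inv_anti₀ (mul_pos (by linarith) (hh.pos t)) (norm_sub_ge hh h0 h1.le t s)

theorem norm_gen_fst_le (hh : Adm h) {r : ℝ} (h0 : 0 ≤ r) (h1 : r < 1) (t : ℝ) :
    ‖(gen h A r t).1‖ ≤ ((1 - r) * h t)⁻¹ := by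
  have hpos : 0 < (1 - r) * h t := mul_pos (by linarith) (hh.pos t)
  rw [BoundedContinuousFunction.norm_le (inv_nonneg.mpr hpos.le)]
  intro s
  rw [gen_fst_apply hh h0 h1, norm_inv]
  exact inv_anti₀ hpos (norm_sub_ge hh h0 h1.le t s)

theorem norm_gen_le (hh : Adm h) (hA : AdmA h A δ) {r : ℝ} (h0 : 0 ≤ r) (h1 : r < 1) (t : ℝ) :
    ‖gen h A r t‖ ≤ ((1 - r) * h t)⁻¹ + δ⁻¹ := by
  have hpos : 0 < (1 - r) * h t := mul_pos (by linarith) (hh.pos t)
  have hδ : 0 < δ := hA.δ_pos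
  rw [Prod.norm_def]
  apply max_le
  · exact le_trans (norm_gen_fst_le hh h0 h1 t) (by
      have : 0 ≤ δ⁻¹ := by positivity
      linarith)
  · exact le_trans (norm_res_le hA h0 h1.le t) (by
      have : 0 ≤ ((1 - r) * h t)⁻¹ := by positivity
      linarith)

theorem gen_mem {r : ℝ} (h0 : 0 ≤ r) (h1 : r < 1) (t : ℝ) : gen h A r t ∈ GG h A :=
  Submodule.le_topologicalClosure _ (Submodule.subset_span ⟨r, t, h0, h1, rfl⟩)

theorem isClosed_GG : IsClosed (GG h A : Set ((ℝ →ᵇ ℂ) × (H →L[ℂ] H))) :=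
  Submodule.isClosed_topologicalClosure _

/-- closed submodules containing the generators contain `GG` -/
theorem GG_le {S : Submodule ℂ ((ℝ →ᵇ ℂ) × (H →L[ℂ] H))}
    (hS : IsClosed (S : Set ((ℝ →ᵇ ℂ) × (H →L[ℂ] H))))
    (hg : ∀ r t : ℝ, 0 ≤ r → r < 1 → gen h A r t ∈ S) : GG h A ≤ S := by
  apply Submodule.topologicalClosure_minimal _ _ hS
  rw [Submodule.span_le]
  rintro p ⟨r, t, h0, h1, rfl⟩
  exact hg r t h0 h1

/-- the resolvent identities in the product algebra -/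
theorem gen_mul_sub (hh : Adm h) (hA : AdmA h A δ) {r : ℝ} (h0 : 0 ≤ r) (h1 : r < 1) (t : ℝ) :
    gen h A r t * (cur h t • (1 : (ℝ →ᵇ ℂ) × (H →L[ℂ] H)) - (r : ℂ) • (bcf (cur h), A)) = 1 := by
  apply Prod.ext
  · apply BoundedContinuousFunction.ext
    intro s
    have := sub_ne hh h0 h1 t s
    have h1s : (1 : ℝ →ᵇ ℂ) s = 1 := rfl
    simp only [Prod.fst_mul, Prod.fst_sub, Prod.smul_fst, Prod.fst_one,
      BoundedContinuousFunction.mul_apply, BoundedContinuousFunction.sub_apply,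
      BoundedContinuousFunction.smul_apply, h1s, smul_eq_mul,
      gen_fst_apply hh h0 h1, bcf_cur_apply hh, mul_one]
    exact inv_mul_cancel₀ this
  · simp only [Prod.snd_mul, Prod.snd_sub, Prod.smul_snd, Prod.snd_one]
    have := Ring.inverse_mul_cancel _ (isUnit_sub hA h0 h1.le t)
    rw [Algebra.algebraMap_eq_smul_one] at this
    simp only [gen, res]
    rw [Algebra.algebraMap_eq_smul_one]
    exact this

theorem sub_mul_gen (hh : Adm h) (hA : AdmA h A δ) {r : ℝ} (h0 : 0 ≤ r) (h1 : r < 1) (t : ℝ) :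
    (cur h t • (1 : (ℝ →ᵇ ℂ) × (H →L[ℂ] H)) - (r : ℂ) • (bcf (cur h), A)) * gen h A r t = 1 := by
  apply Prod.ext
  · apply BoundedContinuousFunction.ext
    intro s
    have := sub_ne hh h0 h1 t s
    have h1s : (1 : ℝ →ᵇ ℂ) s = 1 := rfl
    simp only [Prod.fst_mul, Prod.fst_sub, Prod.smul_fst, Prod.fst_one,
      BoundedContinuousFunction.mul_apply, BoundedContinuousFunction.sub_apply,
      BoundedContinuousFunction.smul_apply, h1s, smul_eq_mul,
      gen_fst_apply hh h0 h1, bcf_cur_apply hh, mul_one]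
    exact mul_inv_cancel₀ this
  · simp only [Prod.snd_mul, Prod.snd_sub, Prod.smul_snd, Prod.snd_one]
    have := Ring.mul_inverse_cancel _ (isUnit_sub hA h0 h1.le t)
    rw [Algebra.algebraMap_eq_smul_one] at this
    simp only [gen, res]
    rw [Algebra.algebraMap_eq_smul_one]
    exact this

/-- partial fractions -/
theorem partial_fractions {E : Type*} [Ring E] [Algebra ℂ E] {u G G' : E} {a b r r' : ℂ}
    (h1 : G * (a • (1 : E) - r • u) = 1) (h2 : (b • (1 : E) - r' • u) * G' = 1) :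
    (r' * a - r * b) • (G * G') = r' • G' - r • G := by
  have e0 : ((r' * a - r * b) • (1 : E))
      = r' • (a • (1 : E) - r • u) - r • (b • (1 : E) - r' • u) := by
    simp only [smul_sub, smul_smul, sub_smul]
    rw [mul_comm r r']
    abel
  have e1 : G * ((r' * a - r * b) • (1 : E)) * G'
      = r' • (G * (a • (1 : E) - r • u) * G') - r • (G * ((b • (1 : E) - r' • u) * G')) := by
    rw [e0, mul_sub, sub_mul, mul_smul_comm, mul_smul_comm, smul_mul_assoc, smul_mul_assoc,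
      mul_assoc G (b • (1 : E) - r' • u) G']
  rw [h1, h2, one_mul, mul_one] at e1
  rw [← e1, mul_smul_comm, mul_one, smul_mul_assoc]

/-- Lipschitz dependence on `r` -/
theorem resolvent_diff {E : Type*} [Ring E] [Algebra ℂ E] {u G G' : E} {a r r' : ℂ}
    (h1 : G * (a • (1 : E) - r • u) = 1) (h2 : (a • (1 : E) - r' • u) * G' = 1) :
    G - G' = (r - r') • (G * u * G') := by
  have e1 : G - G' = G * ((a • (1 : E) - r' • u) - (a • (1 : E) - r • u)) * G' := by
    rw [mul_sub, sub_mul, mul_assoc, h2, h1, mul_one, one_mul]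
  rw [e1]
  have e2 : (a • (1 : E) - r' • u) - (a • (1 : E) - r • u) = (r - r') • u := by
    rw [sub_smul]; abel
  rw [e2, mul_smul_comm, smul_mul_assoc]

theorem tendsto_gen (hh : Adm h) (hA : AdmA h A δ) {r : ℝ} (h0 : 0 ≤ r) (h1 : r < 1) (t : ℝ) :
    Filter.Tendsto (fun s : ℝ => gen h A s t) (nhdsWithin r (Set.Ioo r 1)) (nhds (gen h A r t)) := by
  set q : ℝ := (1 + r) / 2 with hq
  have hq1 : q < 1 := by rw [hq]; linarith
  have hrq : r < q := by rw [hq]; linarith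
  have hδ : 0 < δ := hA.δ_pos
  have hht := hh.pos t
  set B : ℝ := ((1 - q) * h t)⁻¹ + δ⁻¹ with hB
  have hBpos : 0 < B := by
    have : 0 < (1 - q) * h t := mul_pos (by linarith) hht
    positivity
  have hbd : ∀ s : ℝ, 0 ≤ s → s ≤ q → ‖gen h A s t‖ ≤ B := by
    intro s hs0 hs1
    refine le_trans (norm_gen_le hh hA hs0 (lt_of_le_of_lt hs1 hq1) t) ?_
    have : ((1 - s) * h t)⁻¹ ≤ ((1 - q) * h t)⁻¹ := by
      apply inv_anti₀ (mul_pos (by linarith) hht)
      exact mul_le_mul_of_nonneg_right (by linarith) hht.le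
    linarith
  rw [tendsto_iff_norm_sub_tendsto_zero]
  have hlim : Filter.Tendsto (fun s : ℝ => |s - r| * (B * ‖((bcf (cur h), A) : (ℝ →ᵇ ℂ) × (H →L[ℂ] H))‖ * B))
      (nhdsWithin r (Set.Ioo r 1)) (nhds 0) := by
    have : Filter.Tendsto (fun s : ℝ => |s - r| * (B * ‖((bcf (cur h), A) : (ℝ →ᵇ ℂ) × (H →L[ℂ] H))‖ * B))
      (nhds r) (nhds (|r - r| * (B * ‖((bcf (cur h), A) : (ℝ →ᵇ ℂ) × (H →L[ℂ] H))‖ * B))) := by
      apply Continuous.tendsto
      fun_prop
    rw [sub_self, abs_zero, zero_mul] at this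
    exact this.mono_left nhdsWithin_le_nhds
  refine squeeze_zero' (Filter.Eventually.of_forall fun _ => norm_nonneg _) ?_ hlim
  have hev : ∀ᶠ s in nhdsWithin r (Set.Ioo r 1), s < q :=
    (eventually_lt_nhds hrq).filter_mono nhdsWithin_le_nhds
  have hev2 : ∀ᶠ s in nhdsWithin r (Set.Ioo r 1), s ∈ Set.Ioo r 1 := self_mem_nhdsWithin
  filter_upwards [hev, hev2] with s hs1 hs2
  have hs0 : 0 ≤ s := le_trans h0 hs2.1.le
  rw [resolvent_diff (gen_mul_sub hh hA hs0 hs2.2 t) (sub_mul_gen hh hA h0 h1 t), norm_smul]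
  have e1 : ‖((s : ℂ) - (r : ℂ))‖ = |s - r| := by
    rw [← Complex.ofReal_sub, Complex.norm_real, Real.norm_eq_abs]
  rw [e1]
  apply mul_le_mul_of_nonneg_left _ (abs_nonneg _)
  refine le_trans (norm_mul_le _ _) ?_
  refine mul_le_mul ?_ (hbd r h0 hrq.le) (norm_nonneg _) (by positivity)
  refine le_trans (norm_mul_le _ _) ?_
  exact mul_le_mul_of_nonneg_right (hbd s hs0 hs1.le) (norm_nonneg _)

theorem neBot_Ioo {r : ℝ} (h1 : r < 1) : (nhdsWithin r (Set.Ioo r 1)).NeBot :=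
  left_nhdsWithin_Ioo_neBot h1

theorem gen_mul_gen_mem (hh : Adm h) (hA : AdmA h A δ) {r r' : ℝ} (h0 : 0 ≤ r) (h1 : r < 1)
    (h0' : 0 ≤ r') (h1' : r' < 1) (t t' : ℝ) : gen h A r t * gen h A r' t' ∈ GG h A := by
  -- the generic case
  have gen_case : ∀ s : ℝ, 0 ≤ s → s < 1 → ((r' : ℂ) * cur h t - s * cur h t') ≠ 0 →
      gen h A s t * gen h A r' t' ∈ GG h A := by
    intro s hs0 hs1 hD
    have e := partial_fractions (gen_mul_sub hh hA hs0 hs1 t) (sub_mul_gen hh hA h0' h1' t')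
    have e2 : gen h A s t * gen h A r' t'
        = ((r' : ℂ) * cur h t - s * cur h t')⁻¹ • ((r' : ℂ) • gen h A r' t' - (s : ℂ) • gen h A s t) := by
      rw [← e, smul_smul, inv_mul_cancel₀ hD, one_smul]
    rw [e2]
    exact (GG h A).smul_mem _ ((GG h A).sub_mem ((GG h A).smul_mem _ (gen_mem h0' h1' t'))
      ((GG h A).smul_mem _ (gen_mem hs0 hs1 t)))
  by_cases hD : ((r' : ℂ) * cur h t - r * cur h t') = 0
  · have : (nhdsWithin r (Set.Ioo r 1)).NeBot := neBot_Ioo h1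
    have hl : Filter.Tendsto (fun s : ℝ => gen h A s t * gen h A r' t')
        (nhdsWithin r (Set.Ioo r 1)) (nhds (gen h A r t * gen h A r' t')) :=
      (tendsto_gen hh hA h0 h1 t).mul tendsto_const_nhds
    refine isClosed_GG.mem_of_tendsto hl ?_
    have hev2 : ∀ᶠ s in nhdsWithin r (Set.Ioo r 1), s ∈ Set.Ioo r 1 := self_mem_nhdsWithin
    filter_upwards [hev2] with s hs
    apply gen_case s (le_trans h0 hs.1.le) hs.2
    intro h3
    have h4 : ((s : ℂ) - r) * cur h t' = 0 := by linear_combination hD - h3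
    rcases mul_eq_zero.mp h4 with h5 | h5
    · rw [← Complex.ofReal_sub, Complex.ofReal_eq_zero] at h5
      exact absurd h5 (by have := hs.1; intro h6; linarith)
    · exact cur_ne_zero hh t' h5
  · exact gen_case r h0 h1 hD

theorem mul_mem_GG (hh : Adm h) (hA : AdmA h A δ) {p q : (ℝ →ᵇ ℂ) × (H →L[ℂ] H)}
    (hp : p ∈ GG h A) (hq : q ∈ GG h A) : p * q ∈ GG h A := by
  -- fix a generator on the left
  have step1 : ∀ r t : ℝ, 0 ≤ r → r < 1 → ∀ q ∈ GG h A, gen h A r t * q ∈ GG h A := by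
    intro r t h0 h1
    have hle : GG h A ≤ (GG h A).comap (LinearMap.mulLeft ℂ (gen h A r t)) := by
      apply GG_le
      · change IsClosed ((fun q => gen h A r t * q) ⁻¹' (GG h A : Set _))
        exact isClosed_GG.preimage (continuous_const.mul continuous_id)
      · intro r' t' h0' h1'
        exact gen_mul_gen_mem hh hA h0 h1 h0' h1' t t'
    intro q hq
    exact hle hq
  have hle : GG h A ≤ (GG h A).comap (LinearMap.mulRight ℂ q) := by
    apply GG_le
    · change IsClosed ((fun p => p * q) ⁻¹' (GG h A : Set _))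
      exact isClosed_GG.preimage (continuous_id.mul continuous_const)
    · intro r t h0 h1
      exact step1 r t h0 h1 q hq
  exact hle hp

theorem one_mem_GG (hh : Adm h) (hA : AdmA h A δ) :
    (1 : (ℝ →ᵇ ℂ) × (H →L[ℂ] H)) ∈ GG h A := by
  have e := gen_mul_sub hh hA le_rfl zero_lt_one (0 : ℝ)
  rw [Complex.ofReal_zero, zero_smul, sub_zero, mul_smul_comm, mul_one] at e
  rw [← e]
  exact (GG h A).smul_mem _ (gen_mem le_rfl zero_lt_one 0)

theorem cur_mem_GG (hh : Adm h) (hA : AdmA h A δ) : (bcf (cur h), A) ∈ GG h A := by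
  have hne : (nhdsWithin (0 : ℝ) (Set.Ioo 0 1)).NeBot := neBot_Ioo zero_lt_one
  have hl : Filter.Tendsto (fun s : ℝ => cur h 0 • ((bcf (cur h), A) * gen h A s 0))
      (nhdsWithin (0 : ℝ) (Set.Ioo 0 1)) (nhds (cur h 0 • ((bcf (cur h), A) * gen h A 0 0))) :=
    (tendsto_const_nhds.mul (tendsto_gen hh hA le_rfl zero_lt_one 0)).const_smul _
  have e0 : cur h 0 • ((bcf (cur h), A) * gen h A 0 0) = (bcf (cur h), A) := by
    have e := sub_mul_gen hh hA le_rfl zero_lt_one (0 : ℝ)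
    rw [Complex.ofReal_zero, zero_smul, sub_zero, smul_mul_assoc, one_mul] at e
    rw [← mul_smul_comm, e, mul_one]
  rw [e0] at hl
  refine isClosed_GG.mem_of_tendsto hl ?_
  have hev2 : ∀ᶠ s in nhdsWithin (0 : ℝ) (Set.Ioo 0 1), s ∈ Set.Ioo (0 : ℝ) 1 :=
    self_mem_nhdsWithin
  filter_upwards [hev2] with s hs
  apply (GG h A).smul_mem
  have e := sub_mul_gen hh hA hs.1.le hs.2 (0 : ℝ)
  rw [sub_mul, smul_mul_assoc, smul_mul_assoc, one_mul] at e
  have hsne : (s : ℂ) ≠ 0 := by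
    exact_mod_cast hs.1.ne'
  have e2 : (bcf (cur h), A) * gen h A s 0 = (s : ℂ)⁻¹ • (cur h 0 • gen h A s 0 - 1) := by
    rw [← e, sub_sub_cancel, smul_smul, inv_mul_cancel₀ hsne, one_smul]
  rw [e2]
  exact (GG h A).smul_mem _ ((GG h A).sub_mem ((GG h A).smul_mem _ (gen_mem hs.1.le hs.2 0))
    (one_mem_GG hh hA))

/-! ### the Cauchy operator -/

theorem continuous_TC_integrand (hh : Adm h) (hA : AdmA h A δ) (k : ℝ →ᵇ ℂ) :
    Continuous (fun t => (k t * dcur h t) • res h A 1 t) :=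
  (k.continuous.mul (continuous_dcur hh)).smul (continuous_res hh hA zero_le_one le_rfl)

theorem exists_TC_bound (hh : Adm h) (hA : AdmA h A δ) :
    ∃ K₀ : ℝ, ∀ k : ℝ →ᵇ ℂ, ‖TC h A k‖ ≤ K₀ * ‖k‖ := by
  obtain ⟨M, hM0, hM⟩ := exists_dcur_bound hh
  have hδ := hA.δ_pos
  refine ⟨‖(2 * π * Complex.I : ℂ)⁻¹‖ * (M * δ⁻¹ * (2 * π)), fun k => ?_⟩
  rw [TC, norm_smul]
  refine le_trans (b := ‖(2 * π * Complex.I : ℂ)⁻¹‖ * (M * δ⁻¹ * (2 * π) * ‖k‖)) ?_
    (le_of_eq (by ring))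
  apply mul_le_mul_of_nonneg_left _ (norm_nonneg _)
  have hb : ∀ t ∈ Set.uIoc (0 : ℝ) (2 * π), ‖(k t * dcur h t) • res h A 1 t‖ ≤ ‖k‖ * M * δ⁻¹ := by
    intro t _
    rw [norm_smul, norm_mul]
    apply mul_le_mul _ (norm_res_le hA zero_le_one le_rfl t) (norm_nonneg _) (by positivity)
    exact mul_le_mul (k.norm_coe_le_norm t) (hM t) (norm_nonneg _) (norm_nonneg _)
  refine le_trans (intervalIntegral.norm_integral_le_of_norm_le_const hb) ?_
  rw [sub_zero, abs_of_nonneg (by positivity)]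
  apply le_of_eq
  ring

theorem TC_add (hh : Adm h) (hA : AdmA h A δ) (k l : ℝ →ᵇ ℂ) :
    TC h A (k + l : ℝ →ᵇ ℂ) = TC h A k + TC h A l := by
  rw [TC, TC, TC, ← smul_add, ← intervalIntegral.integral_add
    ((continuous_TC_integrand hh hA k).intervalIntegrable _ _)
    ((continuous_TC_integrand hh hA l).intervalIntegrable _ _)]
  congr 1
  apply intervalIntegral.integral_congr
  intro t _
  simp only [BoundedContinuousFunction.add_apply, add_mul, add_smul]

theorem TC_smul (c : ℂ) (k : ℝ →ᵇ ℂ) :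
    TC h A (c • k : ℝ →ᵇ ℂ) = c • TC h A k := by
  have e : ∫ t in (0 : ℝ)..(2 * π), ((c • k : ℝ →ᵇ ℂ) t * dcur h t) • res h A 1 t
      = c • ∫ t in (0 : ℝ)..(2 * π), (k t * dcur h t) • res h A 1 t := by
    rw [← intervalIntegral.integral_smul]
    apply intervalIntegral.integral_congr
    intro t _
    simp only [BoundedContinuousFunction.smul_apply, smul_smul, smul_eq_mul, mul_assoc]
  rw [TC, TC, e, smul_comm c]

/-- `TC` as a continuous linear map on bounded continuous functions -/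
theorem exists_TCL (hh : Adm h) (hA : AdmA h A δ) :
    ∃ T : (ℝ →ᵇ ℂ) →L[ℂ] (H →L[ℂ] H), ∀ k : ℝ →ᵇ ℂ, T k = TC h A k := by
  obtain ⟨K₀, hK⟩ := exists_TC_bound hh hA
  exact ⟨LinearMap.mkContinuous
    { toFun := fun k => TC h A k
      map_add' := fun k l => TC_add hh hA k l
      map_smul' := fun c k => TC_smul c k } K₀ (fun k => hK k), fun k => rfl⟩

theorem res_mul_res (hA : AdmA h A δ) {r : ℝ} (h0 : 0 ≤ r) (h1 : r < 1) (t s : ℝ) :
    (cur h t - r * cur h s) • (res h A r t * res h A 1 s) = res h A 1 s - (r : ℂ) • res h A r t := by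
  have e1 := Ring.inverse_mul_cancel _ (isUnit_sub hA h0 h1.le t)
  have e2 := Ring.mul_inverse_cancel _ (isUnit_sub hA zero_le_one le_rfl s)
  rw [Algebra.algebraMap_eq_smul_one] at e1 e2
  have := partial_fractions (u := A) (G := res h A r t) (G' := res h A 1 s)
    (a := cur h t) (b := cur h s) (r := (r : ℂ)) (r' := ((1 : ℝ) : ℂ))
    (by rw [res, Algebra.algebraMap_eq_smul_one]; exact e1)
    (by rw [res, Algebra.algebraMap_eq_smul_one]; exact e2)
  rw [Complex.ofReal_one, one_mul, one_smul] at this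
  exact this

theorem TC_gen (hh : Adm h) (hA : AdmA h A δ) {r : ℝ} (h0 : 0 ≤ r) (h1 : r < 1) (t : ℝ) :
    TC h A (gen h A r t).1 = res h A r t := by
  have hI : ∀ s : ℝ, ((gen h A r t).1 s * dcur h s) • res h A 1 s
      = (r : ℂ) • ((dcur h s / (cur h t - r * cur h s)) • res h A r t)
        + res h A r t * (dcur h s • res h A 1 s) := by
    intro s
    rw [gen_fst_apply hh h0 h1]
    have hne := sub_ne hh h0 h1 t s
    have e := res_mul_res hA h0 h1 t s
    have e3 : res h A 1 s = (r : ℂ) • res h A r t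
        + (cur h t - r * cur h s) • (res h A r t * res h A 1 s) := by rw [e]; abel
    have e4 : (((cur h t - r * cur h s)⁻¹ * dcur h s) * (cur h t - r * cur h s)) = dcur h s := by
      field_simp
    calc ((cur h t - r * cur h s)⁻¹ * dcur h s) • res h A 1 s
        = ((cur h t - r * cur h s)⁻¹ * dcur h s) • ((r : ℂ) • res h A r t
        + (cur h t - r * cur h s) • (res h A r t * res h A 1 s)) := by rw [← e3]
      _ = _ := by
        rw [smul_add, smul_smul _ (cur h t - r * cur h s), e4, mul_smul_comm]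
        congr 1
        rw [smul_comm, div_eq_inv_mul]
  have hc1 : Continuous (fun s => (r : ℂ) • ((dcur h s / (cur h t - r * cur h s)) • res h A r t)) := by
    have hd : Continuous (fun s => dcur h s / (cur h t - r * cur h s)) := by
      apply (continuous_dcur hh).div
      · exact continuous_const.sub (continuous_const.mul (continuous_cur hh))
      · intro s; exact sub_ne hh h0 h1 t s
    have he : Continuous (fun s => (dcur h s / (cur h t - r * cur h s)) • res h A r t) :=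
      hd.smul continuous_const
    exact he.const_smul (r : ℂ)
  have hc2 : Continuous (fun s => (dcur h s • res h A 1 s)) :=
    (continuous_dcur hh).smul (continuous_res hh hA zero_le_one le_rfl)
  have hc3 : Continuous (fun s => res h A r t * (dcur h s • res h A 1 s)) :=
    continuous_const.mul hc2
  rw [TC, intervalIntegral.integral_congr (fun s _ => hI s), intervalIntegral.integral_add
    (hc1.intervalIntegrable _ _) (hc3.intervalIntegrable _ _), intervalIntegral.integral_smul,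
    intervalIntegral.integral_smul_const, integral_outside hh t r h0 h1, zero_smul, smul_zero,
    zero_add]
  have e5 : ∫ s in (0 : ℝ)..(2 * π), res h A r t * (dcur h s • res h A 1 s)
      = res h A r t * ∫ s in (0 : ℝ)..(2 * π), (dcur h s • res h A 1 s) :=
    ((ContinuousLinearMap.mul ℂ (H →L[ℂ] H)) (res h A r t)).intervalIntegral_comp_comm
      (hc2.intervalIntegrable _ _)
  rw [e5, integral_res hh hA, mul_smul_comm, mul_one, smul_smul, inv_mul_cancel₀, one_smul]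
  have : (π : ℂ) ≠ 0 := by exact_mod_cast Real.pi_ne_zero
  exact mul_ne_zero (mul_ne_zero two_ne_zero this) Complex.I_ne_zero

theorem per_of_mem (hh : Adm h) {p : (ℝ →ᵇ ℂ) × (H →L[ℂ] H)} (hp : p ∈ GG h A) (t : ℝ) :
    p.1 (t + 2 * π) = p.1 t := by
  let ev : ℝ → ((ℝ →ᵇ ℂ) × (H →L[ℂ] H)) →L[ℂ] ℂ := fun t =>
    (BoundedContinuousFunction.evalCLM ℂ t).comp (ContinuousLinearMap.fst ℂ (ℝ →ᵇ ℂ) (H →L[ℂ] H))
  have hle : GG h A ≤ LinearMap.ker ((ev (t + 2 * π) - ev t : ((ℝ →ᵇ ℂ) × (H →L[ℂ] H)) →L[ℂ] ℂ) :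
      ((ℝ →ᵇ ℂ) × (H →L[ℂ] H)) →ₗ[ℂ] ℂ) := by
    apply GG_le
    · exact (ev (t + 2 * π) - ev t).isClosed_ker
    · intro r s h0 h1
      rw [LinearMap.mem_ker]
      change (gen h A r s).1 (t + 2 * π) - (gen h A r s).1 t = 0
      rw [gen_fst_apply hh h0 h1, gen_fst_apply hh h0 h1, cur_per hh, sub_self]
  have := hle hp
  rw [LinearMap.mem_ker] at this
  change p.1 (t + 2 * π) - p.1 t = 0 at this
  exact sub_eq_zero.mp this

/-- Cauchy formula on the closed algebra -/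
theorem snd_eq_TC (hh : Adm h) (hA : AdmA h A δ) {p : (ℝ →ᵇ ℂ) × (H →L[ℂ] H)}
    (hp : p ∈ GG h A) : p.2 = TC h A p.1 := by
  obtain ⟨T, hT⟩ := exists_TCL hh hA
  let L : ((ℝ →ᵇ ℂ) × (H →L[ℂ] H)) →L[ℂ] (H →L[ℂ] H) :=
    ContinuousLinearMap.snd ℂ (ℝ →ᵇ ℂ) (H →L[ℂ] H)
      - T.comp (ContinuousLinearMap.fst ℂ (ℝ →ᵇ ℂ) (H →L[ℂ] H))
  have hle : GG h A ≤ LinearMap.ker (L : ((ℝ →ᵇ ℂ) × (H →L[ℂ] H)) →ₗ[ℂ] (H →L[ℂ] H)) := by
    apply GG_le
    · exact L.isClosed_ker
    · intro r s h0 h1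
      rw [LinearMap.mem_ker]
      change (gen h A r s).2 - T (gen h A r s).1 = 0
      rw [hT, TC_gen hh hA h0 h1]
      exact sub_self _
  have := hle hp
  rw [LinearMap.mem_ker] at this
  change p.2 - T p.1 = 0 at this
  rw [hT] at this
  exact sub_eq_zero.mp this

theorem exists_bound (hh : Adm h) (hA : AdmA h A δ) :
    ∃ K₀ : ℝ, ∀ p ∈ GG h A, ‖p.2‖ ≤ K₀ * ‖p.1‖ := by
  obtain ⟨K₀, hK⟩ := exists_TC_bound hh hA
  refine ⟨K₀, fun p hp => ?_⟩
  rw [snd_eq_TC hh hA hp]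
  exact hK p.1

end Vale.Agent.P123
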