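import Vale.Agent.Lib.P123.CurveB

namespace Vale.Agent.P123

open MeasureTheory
open scoped Real

variable {h : ℝ → ℝ}

/-- a continuous periodic function is bounded -/
theorem exists_bound_of_periodic {f : ℝ → ℂ} (hf : Continuous f)
    (hper : ∀ t, f (t + 2 * π) = f t) : ∃ M : ℝ, 0 < M ∧ ∀ t, ‖f t‖ ≤ M := by
  have hb := Function.Periodic.isBounded_of_continuous (f := f) (c := 2 * π) hper
    (by positivity) hf
  obtain ⟨M, hM⟩ := hb.exists_norm_le
  exact ⟨max M 1, by positivity, fun t => (hM _ ⟨t, rfl⟩).trans (le_max_left _ _)⟩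

/-- a continuous periodic function is uniformly continuous -/
theorem exists_delta_of_periodic {f : ℝ → ℂ} (hf : Continuous f)
    (hper : ∀ t, f (t + 2 * π) = f t) (ε : ℝ) (hε : 0 < ε) :
    ∃ r : ℝ, 0 < r ∧ ∀ t s : ℝ, |t - s| < r → ‖f t - f s‖ ≤ ε := by
  have huc := (isCompact_Icc (a := (-1 : ℝ)) (b := 2 * π + 1)).uniformContinuousOn_of_continuous
    hf.continuousOn
  obtain ⟨δ, hδ, h⟩ := Metric.uniformContinuousOn_iff.1 huc ε hε
  refine ⟨min δ 1, by positivity, fun t s hts => ?_⟩
  have hP : Function.Periodic f (2 * π) := hper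
  have hpi : (0 : ℝ) < 2 * π := by positivity
  set k : ℤ := ⌊s / (2 * π)⌋ with hk
  have h1 : (k : ℝ) * (2 * π) ≤ s := by
    rw [← le_div_iff₀ hpi]; exact Int.floor_le _
  have h2 : s < (k : ℝ) * (2 * π) + 2 * π := by
    have := Int.lt_floor_add_one (s / (2 * π))
    rw [div_lt_iff₀ hpi] at this
    rw [← hk] at this
    linarith
  have hd1 : |t - s| < δ := lt_of_lt_of_le hts (min_le_left _ _)
  have hd2 := abs_lt.1 (lt_of_lt_of_le hts (min_le_right _ _))
  have e1 : f (t - (k : ℝ) * (2 * π)) = f t := hP.sub_int_mul_eq k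
  have e2 : f (s - (k : ℝ) * (2 * π)) = f s := hP.sub_int_mul_eq k
  have h3 := h (t - (k : ℝ) * (2 * π)) ⟨by linarith [hd2.1], by linarith [hd2.2]⟩
    (s - (k : ℝ) * (2 * π)) ⟨by linarith, by linarith⟩
    (by rw [Real.dist_eq]; simpa using hd1)
  rw [e1, e2, dist_eq_norm] at h3
  exact h3.le

/-- uniform convergence of the double layer potentials to their boundary values -/
theorem conv (hh : Adm h) (f : ℝ → ℂ) (hf : Continuous f) (hper : ∀ t, f (t + 2 * π) = f t)
    (ε : ℝ) (hε : 0 < ε) :
    ∃ q₀ : ℝ, q₀ < 1 ∧ ∀ q : ℝ, 0 ≤ q → q₀ < q → q < 1 → ∀ s : ℝ,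
      ‖(∫ t in (s - π)..(s + π), (f t - f s) * ((ker h (q * cur h s) t : ℝ) : ℂ))
        - ∫ t in (s - π)..(s + π), (f t - f s) * ((ker h (cur h s) t : ℝ) : ℂ)‖ ≤ ε := by
  have hpi : 0 < π := Real.pi_pos
  obtain ⟨M, hM0, hM⟩ := exists_bound_of_periodic hf hper
  obtain ⟨Mc, hMc0, hMc⟩ := exists_bound_of_periodic (continuous_cur hh) (cur_per hh)
  obtain ⟨Md, hMd0, hMd⟩ := exists_bound_of_periodic (continuous_dcur hh) (dcur_per hh)
  set ε' : ℝ := ε / (6 * π) with hε'
  have hε'0 : 0 < ε' := by positivity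
  obtain ⟨r, hr0, hr⟩ := exists_delta_of_periodic hf hper ε' hε'0
  obtain ⟨c, hc0, hc⟩ := dist_lower hh r hr0
  set C : ℝ := Md * Mc / (c * c) with hC
  have hC0 : 0 < C := by positivity
  set B : ℝ := 4 * π * M * C with hB
  have hB0 : 0 < B := by positivity
  refine ⟨1 - ε / (2 * (B + 1)), by have : 0 < ε / (2 * (B + 1)) := by positivity
                                    linarith, ?_⟩
  intro q hq0 hq1 hq2 s
  have hqB : B * (1 - q) ≤ ε / 2 := by
    have h1 : (B + 1) * (1 - q) ≤ (B + 1) * (ε / (2 * (B + 1))) :=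
      mul_le_mul_of_nonneg_left (by linarith) (by positivity)
    have h2 : (B + 1) * (ε / (2 * (B + 1))) = ε / 2 := by field_simp
    nlinarith
  have hk1 : ∀ t, 0 ≤ ker h (cur h s) t := fun t => ker_nonneg hh (fun θ => sp_cur_le hh θ s) t
  have hkq : ∀ t, 0 ≤ ker h (q * cur h s) t := fun t =>
    ker_nonneg hh (fun θ => (sp_lt_of_scale hh hq0 hq2 θ s).le) t
  have hcq : Continuous (ker h (q * cur h s)) :=
    continuous_ker_inside hh _ (fun θ => sp_lt_of_scale hh hq0 hq2 θ s)
  have hI1 : IntervalIntegrable (ker h (cur h s)) volume (s - π) (s + π) :=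
    intervalIntegrable_ker hh s
  have hIq : IntervalIntegrable (ker h (q * cur h s)) volume (s - π) (s + π) :=
    hcq.intervalIntegrable _ _
  have hfc : Continuous fun t => f t - f s := hf.sub continuous_const
  have hJ1 : IntervalIntegrable (fun t => (f t - f s) * ((ker h (cur h s) t : ℝ) : ℂ)) volume
      (s - π) (s + π) := by
    have h1 : IntervalIntegrable (fun t => ((ker h (cur h s) t : ℝ) : ℂ)) volume
        (s - π) (s + π) := ⟨hI1.1.ofReal, hI1.2.ofReal⟩
    exact h1.continuousOn_mul hfc.continuousOn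
  have hJq : IntervalIntegrable (fun t => (f t - f s) * ((ker h (q * cur h s) t : ℝ) : ℂ)) volume
      (s - π) (s + π) := by
    refine Continuous.intervalIntegrable ?_ _ _
    exact hfc.mul (Complex.continuous_ofReal.comp hcq)
  rw [← intervalIntegral.integral_sub hJq hJ1]
  have hbd : ∀ t ∈ Set.Ioc (s - π) (s + π),
      ‖(f t - f s) * ((ker h (q * cur h s) t : ℝ) : ℂ) -
        (f t - f s) * ((ker h (cur h s) t : ℝ) : ℂ)‖ ≤
      ε' * (ker h (q * cur h s) t + ker h (cur h s) t) + 2 * M * (C * (1 - q)) := by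
    intro t ht
    have hts : |t - s| ≤ π := by
      rw [abs_le]; constructor <;> linarith [ht.1, ht.2]
    have hk1t := hk1 t
    have hkqt := hkq t
    rw [← mul_sub, norm_mul, ← Complex.ofReal_sub, Complex.norm_real, Real.norm_eq_abs]
    by_cases hnear : |t - s| < r
    · have h1 : ‖f t - f s‖ ≤ ε' := hr t s hnear
      have h2 : |ker h (q * cur h s) t - ker h (cur h s) t| ≤
          ker h (q * cur h s) t + ker h (cur h s) t := by
        rw [abs_le]; constructor <;> linarith
      have h3 := mul_le_mul h1 h2 (abs_nonneg _) hε'0.le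
      have h4 : 0 ≤ 2 * M * (C * (1 - q)) := by
        have : 0 ≤ 1 - q := by linarith
        positivity
      linarith
    · push Not at hnear
      have hd1 : c ≤ ‖cur h t - q * cur h s‖ := hc q hq0 hq2.le s t hnear hts
      have hd2 : c ≤ ‖cur h t - cur h s‖ := by
        have := hc 1 zero_le_one le_rfl s t hnear hts
        simpa using this
      have hn1 : cur h t - q * cur h s ≠ 0 := by
        intro h0; rw [h0, norm_zero] at hd1; linarith
      have hn2 : cur h t - cur h s ≠ 0 := by
        intro h0; rw [h0, norm_zero] at hd2; linarith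
      have h2 : |ker h (q * cur h s) t - ker h (cur h s) t| ≤ C * (1 - q) := by
        rw [← im_div, ← im_div, ← Complex.sub_im]
        refine (Complex.abs_im_le_norm _).trans ?_
        have e : dcur h t / (cur h t - q * cur h s) - dcur h t / (cur h t - cur h s) =
            dcur h t * ((q - 1 : ℂ) * cur h s) / ((cur h t - q * cur h s) * (cur h t - cur h s)) := by
          field_simp
          ring
        rw [e, norm_div, norm_mul, norm_mul, norm_mul]
        have e1 : ‖(q - 1 : ℂ)‖ = 1 - q := by
          rw [← Complex.ofReal_one, ← Complex.ofReal_sub, Complex.norm_real, Real.norm_eq_abs,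
            abs_of_neg (by linarith)]
          ring
        rw [e1, hC, div_mul_eq_mul_div]
        have e2 : ‖dcur h t‖ * ((1 - q) * ‖cur h s‖) ≤ Md * Mc * (1 - q) := by
          have h5 := mul_le_mul (hMd t) (hMc s) (norm_nonneg _) hMd0.le
          have h6 := mul_le_mul_of_nonneg_right h5 (by linarith : (0 : ℝ) ≤ 1 - q)
          linarith
        exact div_le_div₀ (by have : 0 ≤ 1 - q := by linarith
                              positivity) e2 (by positivity)
          (mul_le_mul hd1 hd2 hc0.le (by linarith))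
      have h1 : ‖f t - f s‖ ≤ 2 * M := by
        refine (norm_sub_le _ _).trans ?_
        linarith [hM t, hM s]
      have h3 := mul_le_mul h1 h2 (abs_nonneg _) (by positivity)
      have h4 : 0 ≤ ε' * (ker h (q * cur h s) t + ker h (cur h s) t) := by positivity
      linarith
  have hle : s - π ≤ s + π := by linarith
  refine (intervalIntegral.norm_integral_le_of_norm_le hle
    (Filter.Eventually.of_forall hbd) ?_).trans ?_
  · exact ((hIq.add hI1).const_mul ε').add intervalIntegrable_const
  · rw [intervalIntegral.integral_add ((hIq.add hI1).const_mul ε') intervalIntegrable_const,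
      intervalIntegral.integral_const_mul, intervalIntegral.integral_add hIq hI1,
      intervalIntegral.integral_const,
      integral_ker_inside hh _ (fun θ => sp_lt_of_scale hh hq0 hq2 θ s) s]
    have hTh := Th_le hh s
    unfold Th at hTh
    have e1 : ε' * (2 * π + ∫ t in (s - π)..(s + π), ker h (cur h s) t) ≤ ε' * (2 * π + π) :=
      mul_le_mul_of_nonneg_left (by linarith) hε'0.le
    have e2 : ε' * (2 * π + π) = ε / 2 := by
      rw [hε']; field_simp; ring
    have e3 : (s + π - (s - π)) • (2 * M * (C * (1 - q))) = B * (1 - q) := by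
      rw [hB, smul_eq_mul]; ring
    rw [e3]
    linarith

end Vale.Agent.P123
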