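import Vale.Agent.Lib.P123.Alg
import Vale.Agent.Lib.P123.Conv

namespace Vale.Agent.P123

open MeasureTheory
open scoped Real InnerProductSpace BoundedContinuousFunction

variable {h : ℝ → ℝ} {H : Type*} [NormedAddCommGroup H] [InnerProductSpace ℂ H] [CompleteSpace H]
  {A : H →L[ℂ] H} {δ : ℝ}

/-- the generators depend continuously on the parameter -/
theorem continuous_gen (hh : Adm h) (hA : AdmA h A δ) {r : ℝ} (h0 : 0 ≤ r) (h1 : r < 1) :
    Continuous (fun t => gen h A r t) := by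
  have hδ : 0 < δ := hA.δ_pos
  set B : ℝ := ((1 - r) * δ)⁻¹ + δ⁻¹ with hB
  have h1r : 0 < 1 - r := by linarith
  have hB0 : 0 < B := by positivity
  have hbd : ∀ t, ‖gen h A r t‖ ≤ B := by
    intro t
    refine le_trans (norm_gen_le hh hA h0 h1 t) ?_
    have : ((1 - r) * h t)⁻¹ ≤ ((1 - r) * δ)⁻¹ := by
      apply inv_anti₀ (by positivity)
      exact mul_le_mul_of_nonneg_left (hA.le_h t) h1r.le
    linarith
  have hkey : ∀ t t', ‖gen h A r t - gen h A r t'‖ ≤ ‖cur h t' - cur h t‖ * (B * B) := by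
    intro t t'
    have e1 := gen_mul_sub hh hA h0 h1 t
    have e2 := sub_mul_gen hh hA h0 h1 t'
    have e3 : gen h A r t - gen h A r t' =
        (cur h t' - cur h t) • (gen h A r t * gen h A r t') := by
      calc gen h A r t - gen h A r t'
          = gen h A r t * ((cur h t' • (1 : (ℝ →ᵇ ℂ) × (H →L[ℂ] H)) - (r : ℂ) • (bcf (cur h), A))
              * gen h A r t')
            - (gen h A r t * (cur h t • (1 : (ℝ →ᵇ ℂ) × (H →L[ℂ] H))
              - (r : ℂ) • (bcf (cur h), A))) * gen h A r t' := by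
            rw [e1, e2, mul_one, one_mul]
        _ = _ := by
            rw [mul_assoc (gen h A r t), ← mul_sub, ← sub_mul, sub_sub_sub_cancel_right,
              ← sub_smul, smul_mul_assoc, one_mul, mul_smul_comm]
    rw [e3, norm_smul]
    apply mul_le_mul_of_nonneg_left _ (norm_nonneg _)
    refine le_trans (norm_mul_le _ _) ?_
    exact mul_le_mul (hbd t) (hbd t') (norm_nonneg _) hB0.le
  rw [continuous_iff_continuousAt]
  intro t'
  rw [ContinuousAt, tendsto_iff_norm_sub_tendsto_zero]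
  have hlim : Filter.Tendsto (fun t => ‖cur h t' - cur h t‖ * (B * B)) (nhds t') (nhds 0) := by
    have hc : Continuous (fun t => ‖cur h t' - cur h t‖ * (B * B)) :=
      ((continuous_const.sub (continuous_cur hh)).norm).mul continuous_const
    have := hc.tendsto t'
    simpa using this
  exact squeeze_zero (fun _ => norm_nonneg _) (fun t => hkey t t') hlim

/-- integrals stay in closed subspaces -/
theorem integral_mem_closed {E : Type*} [NormedAddCommGroup E] [NormedSpace ℂ E] [CompleteSpace E]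
    (S : Submodule ℂ E) (hS : IsClosed (S : Set E)) (F : ℝ → E) (hF : Continuous F)
    (hm : ∀ t, F t ∈ S) (a b : ℝ) : ∫ t in a..b, F t ∈ S := by
  have : CompleteSpace S := hS.completeSpace_coe
  let F' : ℝ → S := fun t => ⟨F t, hm t⟩
  have hF' : Continuous F' := hF.subtype_mk _
  have h1 := (S.subtypeL).intervalIntegral_comp_comm (hF'.intervalIntegrable (μ := volume) a b)
  have h2 : ∫ t in a..b, F t = ((∫ t in a..b, F' t : S) : E) := h1
  rw [h2]
  exact Subtype.mem _

/-- Cauchy's formula for the functions `(a - r z)⁻¹` -/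
theorem cauchy_gen (hh : Adm h) {r : ℝ} (h0 : 0 ≤ r) (h1 : r < 1) (t₀ : ℝ) {u : ℝ} (hu0 : 0 ≤ u)
    (hu1 : u < 1) (s : ℝ) :
    ∫ t in (0 : ℝ)..(2 * π), (cur h t₀ - r * cur h t)⁻¹ * (dcur h t / (cur h t - u * cur h s)) =
      2 * π * Complex.I * (cur h t₀ - r * (u * cur h s))⁻¹ := by
  have hz : ∀ θ, sp θ (u * cur h s) < h θ := fun θ => sp_lt_of_scale hh hu0 hu1 θ s
  have hne1 : ∀ t, cur h t₀ - r * cur h t ≠ 0 := fun t => sub_ne hh h0 h1 t₀ t
  have hne2 : ∀ t, cur h t - u * cur h s ≠ 0 := fun t => sub_ne hh hu0 hu1 t s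
  have hne3 : cur h t₀ - r * (u * cur h s) ≠ 0 := by
    have := sub_ne hh (r := r * u) (mul_nonneg h0 hu0) (by nlinarith) t₀ s
    push_cast at this
    rwa [mul_assoc] at this
  have hc1 : Continuous (fun t => dcur h t / (cur h t₀ - r * cur h t)) :=
    (continuous_dcur hh).div (continuous_const.sub (continuous_const.mul (continuous_cur hh))) hne1
  have hc2 : Continuous (fun t => dcur h t / (cur h t - u * cur h s)) :=
    continuous_log_deriv hh _ hz
  have hpf : ∀ t, (cur h t₀ - r * cur h t)⁻¹ * (dcur h t / (cur h t - u * cur h s)) =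
      (cur h t₀ - r * (u * cur h s))⁻¹ * (r * (dcur h t / (cur h t₀ - r * cur h t))
        + dcur h t / (cur h t - u * cur h s)) := by
    intro t
    have key : ∀ x y w d e : ℂ, x ≠ 0 → y ≠ 0 → w ≠ 0 → e * y + x = w →
        x⁻¹ * (d / y) = w⁻¹ * (e * (d / x) + d / y) := by
      intro x y w d e hx hy hw he
      have h3 : e * (d / x) + d / y = w * (x⁻¹ * (d / y)) := by
        rw [← he]
        field_simp
      rw [h3, ← mul_assoc, inv_mul_cancel₀ hw, one_mul]
    exact key _ _ _ _ _ (hne1 t) (hne2 t) hne3 (by ring)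
  have hc3 : Continuous (fun t => (r : ℂ) * (dcur h t / (cur h t₀ - r * cur h t))) :=
    continuous_const.mul hc1
  rw [intervalIntegral.integral_congr (fun t _ => hpf t), intervalIntegral.integral_const_mul,
    intervalIntegral.integral_add (hc3.intervalIntegrable _ _)
      (hc2.intervalIntegrable _ _), intervalIntegral.integral_const_mul,
    integral_outside hh t₀ r h0 h1, integral_inside hh _ hz]
  ring

/-- the first component of the Cauchy transform of the conjugate -/
theorem first_comp (hh : Adm h) {f : ℝ → ℂ} (hf : Continuous f)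
    (hper : ∀ t, f (t + 2 * π) = f t) {F : ℂ} {u : ℝ} (hu0 : 0 ≤ u) (hu1 : u < 1) (s : ℝ)
    (hF : ∫ t in (0 : ℝ)..(2 * π), f t * (dcur h t / (cur h t - u * cur h s)) =
      2 * π * Complex.I * F) :
    (2 * π * Complex.I : ℂ)⁻¹ *
        ∫ t in (0 : ℝ)..(2 * π), star (f t) * (dcur h t / (cur h t - u * cur h s)) =
      star (f s) - star (F - f s) + (1 / π : ℂ) *
        ∫ t in (s - π)..(s + π), (star (f t) - star (f s)) *
          ((ker h (u * cur h s) t : ℝ) : ℂ) := by
  have hz : ∀ θ, sp θ (u * cur h s) < h θ := fun θ => sp_lt_of_scale hh hu0 hu1 θ s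
  have hcg : Continuous (fun t => dcur h t / (cur h t - u * cur h s)) :=
    continuous_log_deriv hh _ hz
  have hck : Continuous (fun t => ((ker h (u * cur h s) t : ℝ) : ℂ)) :=
    Complex.continuous_ofReal.comp (continuous_ker_inside hh _ hz)
  have hcs : Continuous (fun t => star (f t)) := continuous_star.comp hf
  have hpi : (π : ℂ) ≠ 0 := by exact_mod_cast Real.pi_ne_zero
  -- the function is `conj (f g) + 2 i conj f ker`
  have e1 : ∀ t, star (f t) * (dcur h t / (cur h t - u * cur h s)) =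
      star (f t * (dcur h t / (cur h t - u * cur h s))) +
        2 * Complex.I * (star (f t) * ((ker h (u * cur h s) t : ℝ) : ℂ)) := by
    intro t
    rw [← im_div t (u * cur h s)]
    set g := dcur h t / (cur h t - u * cur h s) with hg
    have h1 : g = star g + 2 * Complex.I * ((g.im : ℝ) : ℂ) := by
      apply Complex.ext <;> simp
      ring
    rw [star_mul']
    calc star (f t) * g = star (f t) * (star g + 2 * Complex.I * ((g.im : ℝ) : ℂ)) := by rw [← h1]
      _ = _ := by ring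
  have hi1 : Continuous (fun t => star (f t * (dcur h t / (cur h t - u * cur h s)))) :=
    continuous_star.comp (hf.mul hcg)
  have hi2 : Continuous (fun t => 2 * Complex.I *
      (star (f t) * ((ker h (u * cur h s) t : ℝ) : ℂ))) :=
    continuous_const.mul (hcs.mul hck)
  have hstar : ∫ t in (0 : ℝ)..(2 * π), star (f t * (dcur h t / (cur h t - u * cur h s))) =
      star (2 * π * Complex.I * F) := by
    rw [← hF]
    exact (Complex.conjCLE.toContinuousLinearMap.intervalIntegral_comp_comm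
      ((hf.mul hcg).intervalIntegrable _ _))
  have hp : Function.Periodic (fun t => star (f t) * ((ker h (u * cur h s) t : ℝ) : ℂ))
      (2 * π) := by
    intro t
    show star (f (t + 2 * π)) * ((ker h (u * cur h s) (t + 2 * π) : ℝ) : ℂ) = _
    rw [hper, ← im_div (t + 2 * π), dcur_per hh, cur_per hh, im_div]
  have hshift := hp.intervalIntegral_add_eq (s - π) 0
  rw [zero_add, show s - π + 2 * π = s + π by ring] at hshift
  rw [intervalIntegral.integral_congr (fun t _ => e1 t),
    intervalIntegral.integral_add (hi1.intervalIntegrable _ _) (hi2.intervalIntegrable _ _),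
    intervalIntegral.integral_const_mul, hstar, ← hshift]
  have hsub : ∫ t in (s - π)..(s + π), (star (f t) - star (f s)) *
          ((ker h (u * cur h s) t : ℝ) : ℂ) =
      (∫ t in (s - π)..(s + π), star (f t) * ((ker h (u * cur h s) t : ℝ) : ℂ)) -
        star (f s) * (2 * π) := by
    have h2 : ∀ t, (star (f t) - star (f s)) * ((ker h (u * cur h s) t : ℝ) : ℂ) =
        star (f t) * ((ker h (u * cur h s) t : ℝ) : ℂ) -
          star (f s) * ((ker h (u * cur h s) t : ℝ) : ℂ) := fun t => by ring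
    have hc1 : Continuous (fun t => star (f t) * ((ker h (u * cur h s) t : ℝ) : ℂ)) := hcs.mul hck
    have hc2 : Continuous (fun t => star (f s) * ((ker h (u * cur h s) t : ℝ) : ℂ)) :=
      continuous_const.mul hck
    rw [intervalIntegral.integral_congr (fun t _ => h2 t), intervalIntegral.integral_sub
      (hc1.intervalIntegrable _ _) (hc2.intervalIntegrable _ _),
      intervalIntegral.integral_const_mul, intervalIntegral.integral_ofReal,
      integral_ker_inside hh _ hz]
    push_cast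
    rfl
  rw [hsub]
  set J := ∫ t in (s - π)..(s + π), star (f t) * ((ker h (u * cur h s) t : ℝ) : ℂ)
  have h5 : star (2 * π * Complex.I * F) = -(2 * π * Complex.I) * star F := by
    simp
  rw [h5, star_sub]
  field_simp
  ring

/-- the kernel against a continuous function -/
theorem integrable_ker_mul (hh : Adm h) {k : ℝ → ℂ} (hk : Continuous k) (s : ℝ) :
    IntervalIntegrable (fun t => ((ker h (cur h s) t : ℝ) : ℂ) * k t) volume (s - π) (s + π) := by
  have h1 : IntervalIntegrable (fun t => ((ker h (cur h s) t : ℝ) : ℂ)) volume (s - π) (s + π) :=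
    ⟨Integrable.ofReal (intervalIntegrable_ker hh s).1,
      Integrable.ofReal (intervalIntegrable_ker hh s).2⟩
  exact h1.mul_continuousOn hk.continuousOn

theorem np_simple (hh : Adm h) (k : ℝ → ℂ) (s : ℝ) :
    np h k s = (1 / π : ℂ) * ∫ t in (s - π)..(s + π), ((ker h (cur h s) t : ℝ) : ℂ) * k t := by
  unfold np
  rw [Th_eq hh, div_self Real.pi_ne_zero, sub_self, Complex.ofReal_zero, zero_mul, zero_add]

theorem np_eq (hh : Adm h) {k : ℝ → ℂ} (hk : Continuous k) (s : ℝ) :
    np h k s = k s + (1 / π : ℂ) * ∫ t in (s - π)..(s + π), (k t - k s) *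
      ((ker h (cur h s) t : ℝ) : ℂ) := by
  have hpi : (π : ℂ) ≠ 0 := by exact_mod_cast Real.pi_ne_zero
  have h1 : ∀ t, (k t - k s) * ((ker h (cur h s) t : ℝ) : ℂ) =
      ((ker h (cur h s) t : ℝ) : ℂ) * k t - ((ker h (cur h s) t : ℝ) : ℂ) * k s :=
    fun t => by ring
  have h2 : ∫ t in (s - π)..(s + π), ((ker h (cur h s) t : ℝ) : ℂ) = π := by
    rw [intervalIntegral.integral_ofReal]
    have : ∫ t in (s - π)..(s + π), ker h (cur h s) t = π := Th_eq hh s
    rw [this]
  rw [np_simple hh, intervalIntegral.integral_congr (fun t _ => h1 t),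
    intervalIntegral.integral_sub (integrable_ker_mul hh hk s)
      (integrable_ker_mul hh (k := fun _ => k s) continuous_const s),
    intervalIntegral.integral_mul_const, h2]
  field_simp
  ring

theorem np_add (hh : Adm h) {k l : ℝ → ℂ} (hk : Continuous k) (hl : Continuous l) (s : ℝ) :
    np h (fun t => k t + l t) s = np h k s + np h l s := by
  rw [np_simple hh, np_simple hh, np_simple hh, ← mul_add, ← intervalIntegral.integral_add
    (integrable_ker_mul hh hk s) (integrable_ker_mul hh hl s)]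
  congr 1
  apply intervalIntegral.integral_congr
  intro t _
  simp only [mul_add]

theorem np_smul (hh : Adm h) (c : ℂ) (k : ℝ → ℂ) (s : ℝ) :
    np h (fun t => c * k t) s = c * np h k s := by
  have h1 : ∫ t in (s - π)..(s + π), ((ker h (cur h s) t : ℝ) : ℂ) * (c * k t) =
      c * ∫ t in (s - π)..(s + π), ((ker h (cur h s) t : ℝ) : ℂ) * k t := by
    rw [← intervalIntegral.integral_const_mul]
    apply intervalIntegral.integral_congr
    intro t _
    show ((ker h (cur h s) t : ℝ) : ℂ) * (c * k t) = c * (((ker h (cur h s) t : ℝ) : ℂ) * k t)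
    ring
  rw [np_simple hh, np_simple hh, h1]
  ring

theorem norm_np_le (hh : Adm h) {k : ℝ → ℂ} {C : ℝ}
    (hC : ∀ t, ‖k t‖ ≤ C) (s : ℝ) : ‖np h k s‖ ≤ C := by
  have hpi := Real.pi_pos
  rw [np_simple hh, norm_mul]
  have h1 : ‖∫ t in (s - π)..(s + π), ((ker h (cur h s) t : ℝ) : ℂ) * k t‖ ≤
      ∫ t in (s - π)..(s + π), ker h (cur h s) t * C := by
    apply intervalIntegral.norm_integral_le_of_norm_le (by linarith)
    · filter_upwards with t _
      rw [norm_mul, Complex.norm_real, Real.norm_eq_abs, abs_of_nonneg (ker_nonneg' hh s t)]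
      exact mul_le_mul_of_nonneg_left (hC t) (ker_nonneg' hh s t)
    · exact (intervalIntegrable_ker hh s).mul_const C
  rw [intervalIntegral.integral_mul_const] at h1
  have h2 : ∫ t in (s - π)..(s + π), ker h (cur h s) t = π := Th_eq hh s
  rw [h2] at h1
  have h3 : ‖(1 / π : ℂ)‖ = 1 / π := by
    rw [norm_div, norm_one, Complex.norm_real, Real.norm_eq_abs, abs_of_pos hpi]
  rw [h3]
  calc 1 / π * ‖∫ t in (s - π)..(s + π), ((ker h (cur h s) t : ℝ) : ℂ) * k t‖
      ≤ 1 / π * (π * C) := mul_le_mul_of_nonneg_left h1 (by positivity)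
    _ = C := by field_simp

/-- `np` at a point as a continuous functional -/
theorem exists_NP (hh : Adm h) : ∃ N : ℝ → (ℝ →ᵇ ℂ) →L[ℂ] ℂ,
    (∀ s (k : ℝ →ᵇ ℂ), N s k = np h k s) ∧ ∀ s (k : ℝ →ᵇ ℂ), ‖N s k‖ ≤ ‖k‖ := by
  have hb : ∀ s (k : ℝ →ᵇ ℂ), ‖np h k s‖ ≤ ‖k‖ := fun s k =>
    norm_np_le hh (fun t => k.norm_coe_le_norm t) s
  refine ⟨fun s => LinearMap.mkContinuous
    { toFun := fun k : ℝ →ᵇ ℂ => np h k s
      map_add' := fun k l => np_add hh k.continuous l.continuous s
      map_smul' := fun c k => np_smul hh c k s } 1 (fun k => by rw [one_mul]; exact hb s k),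
    fun s k => rfl, fun s k => hb s k⟩

/-- the Cauchy transform of `conj f`, evaluated on the curve `u γ` and at `u A` -/
noncomputable def QQ (h : ℝ → ℝ) (A : H →L[ℂ] H) (f : ℝ → ℂ) (u : ℝ) :
    (ℝ →ᵇ ℂ) × (H →L[ℂ] H) :=
  (2 * π * Complex.I : ℂ)⁻¹ • ∫ t in (0 : ℝ)..(2 * π), (star (f t) * dcur h t) • gen h A u t

theorem continuous_QQ_integrand (hh : Adm h) (hA : AdmA h A δ) {f : ℝ → ℂ} (hf : Continuous f)
    {u : ℝ} (h0 : 0 ≤ u) (h1 : u < 1) :
    Continuous (fun t => (star (f t) * dcur h t) • gen h A u t) :=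
  ((continuous_star.comp hf).mul (continuous_dcur hh)).smul (continuous_gen hh hA h0 h1)

theorem QQ_mem (hh : Adm h) (hA : AdmA h A δ) {f : ℝ → ℂ} (hf : Continuous f)
    {u : ℝ} (h0 : 0 ≤ u) (h1 : u < 1) : QQ h A f u ∈ GG h A := by
  have hm : ∀ t, (star (f t) * dcur h t) • gen h A u t ∈ GG h A := fun t =>
    (GG h A).smul_mem _ (gen_mem h0 h1 t)
  have h2 : (∫ t in (0 : ℝ)..(2 * π), (star (f t) * dcur h t) • gen h A u t) ∈ GG h A :=
    integral_mem_closed (GG h A) isClosed_GG (fun t => (star (f t) * dcur h t) • gen h A u t)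
      (continuous_QQ_integrand hh hA hf h0 h1) hm 0 (2 * π)
  exact (GG h A).smul_mem _ h2

theorem QQ_fst (hh : Adm h) (hA : AdmA h A δ) {f : ℝ → ℂ} (hf : Continuous f)
    {u : ℝ} (h0 : 0 ≤ u) (h1 : u < 1) (s : ℝ) :
    (QQ h A f u).1 s = (2 * π * Complex.I : ℂ)⁻¹ *
        ∫ t in (0 : ℝ)..(2 * π), star (f t) * (dcur h t / (cur h t - u * cur h s)) := by
  have e := ((BoundedContinuousFunction.evalCLM ℂ s).comp
    (ContinuousLinearMap.fst ℂ (ℝ →ᵇ ℂ) (H →L[ℂ] H))).intervalIntegral_comp_comm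
    ((continuous_QQ_integrand hh hA hf h0 h1).intervalIntegrable (μ := volume) 0 (2 * π))
  have e2 : (QQ h A f u).1 s = (2 * π * Complex.I : ℂ)⁻¹ *
      (∫ t in (0 : ℝ)..(2 * π), (star (f t) * dcur h t) • gen h A u t).1 s := rfl
  have e3 : (∫ t in (0 : ℝ)..(2 * π), (star (f t) * dcur h t) • gen h A u t).1 s =
      ∫ t in (0 : ℝ)..(2 * π), (star (f t) * dcur h t) * (gen h A u t).1 s := e.symm
  rw [e2, e3]
  congr 1
  apply intervalIntegral.integral_congr
  intro t _
  show (star (f t) * dcur h t) * (gen h A u t).1 s = _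
  rw [gen_fst_apply hh h0 h1]
  ring

theorem QQ_snd (hh : Adm h) (hA : AdmA h A δ) {f : ℝ → ℂ} (hf : Continuous f)
    {u : ℝ} (h0 : 0 ≤ u) (h1 : u < 1) :
    (QQ h A f u).2 = (2 * π * Complex.I : ℂ)⁻¹ •
        ∫ t in (0 : ℝ)..(2 * π), (star (f t) * dcur h t) • res h A u t := by
  have e := (ContinuousLinearMap.snd ℂ (ℝ →ᵇ ℂ) (H →L[ℂ] H)).intervalIntegral_comp_comm
    ((continuous_QQ_integrand hh hA hf h0 h1).intervalIntegrable (μ := volume) 0 (2 * π))
  have e2 : (QQ h A f u).2 = (2 * π * Complex.I : ℂ)⁻¹ •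
      (∫ t in (0 : ℝ)..(2 * π), (star (f t) * dcur h t) • gen h A u t).2 := rfl
  have e3 : (∫ t in (0 : ℝ)..(2 * π), (star (f t) * dcur h t) • gen h A u t).2 =
      ∫ t in (0 : ℝ)..(2 * π), (star (f t) * dcur h t) • res h A u t := e.symm
  rw [e2, e3]

/-- a sequence of elements of `GG` with uniformly convergent components converges in `GG` -/
theorem exists_limit (x : ℕ → (ℝ →ᵇ ℂ) × (H →L[ℂ] H)) (hx : ∀ n, x n ∈ GG h A) (N : ℝ → ℂ)
    (T : H →L[ℂ] H)
    (hlim : ∀ ε : ℝ, 0 < ε → ∃ n₀ : ℕ, ∀ n, n₀ ≤ n → (∀ s, ‖(x n).1 s - N s‖ ≤ ε) ∧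
      ‖(x n).2 - T‖ ≤ ε) :
    ∃ q ∈ GG h A, (∀ s, q.1 s = N s) ∧ q.2 = T := by
  have hC : CauchySeq x := by
    rw [Metric.cauchySeq_iff']
    intro ε hε
    obtain ⟨n₀, hn₀⟩ := hlim (ε / 3) (by positivity)
    refine ⟨n₀, fun n hn => ?_⟩
    have hle : dist (x n) (x n₀) ≤ ε / 3 + ε / 3 := by
      rw [Prod.dist_eq]
      apply max_le
      · rw [BoundedContinuousFunction.dist_le (by positivity)]
        intro s
        have e1 := (hn₀ n hn).1 s
        have e2 := (hn₀ n₀ le_rfl).1 s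
        rw [← dist_eq_norm] at e1 e2
        exact (dist_triangle_right _ _ (N s)).trans (add_le_add e1 e2)
      · have e1 := (hn₀ n hn).2
        have e2 := (hn₀ n₀ le_rfl).2
        rw [← dist_eq_norm] at e1 e2
        exact (dist_triangle_right _ _ T).trans (add_le_add e1 e2)
    linarith
  obtain ⟨q, hq⟩ := cauchySeq_tendsto_of_complete hC
  refine ⟨q, isClosed_GG.mem_of_tendsto hq (Filter.Eventually.of_forall hx), fun s => ?_, ?_⟩
  · have h1 : Filter.Tendsto (fun n => (x n).1 s) Filter.atTop (nhds (q.1 s)) :=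
      ((((BoundedContinuousFunction.evalCLM ℂ s).continuous).comp continuous_fst).tendsto q).comp
        hq
    have h2 : Filter.Tendsto (fun n => (x n).1 s) Filter.atTop (nhds (N s)) := by
      rw [Metric.tendsto_atTop]
      intro ε hε
      obtain ⟨n₀, hn₀⟩ := hlim (ε / 2) (by positivity)
      refine ⟨n₀, fun n hn => ?_⟩
      rw [dist_eq_norm]
      have := (hn₀ n hn).1 s
      linarith
    exact tendsto_nhds_unique h1 h2
  · have h1 : Filter.Tendsto (fun n => (x n).2) Filter.atTop (nhds q.2) :=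
      (continuous_snd.tendsto q).comp hq
    have h2 : Filter.Tendsto (fun n => (x n).2) Filter.atTop (nhds T) := by
      rw [Metric.tendsto_atTop]
      intro ε hε
      obtain ⟨n₀, hn₀⟩ := hlim (ε / 2) (by positivity)
      refine ⟨n₀, fun n hn => ?_⟩
      rw [dist_eq_norm]
      have := (hn₀ n hn).2
      linarith
    exact tendsto_nhds_unique h1 h2

theorem QQ_fst_sub_le (hh : Adm h) (hA : AdmA h A δ) {r : ℝ} (h0 : 0 ≤ r) (h1 : r < 1)
    (t₀ : ℝ) (ε : ℝ) (hε : 0 < ε) :
    ∃ u₀ : ℝ, u₀ < 1 ∧ ∀ u : ℝ, 0 ≤ u → u₀ < u → u < 1 → ∀ s,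
      ‖(QQ h A (fun t => (cur h t₀ - r * cur h t)⁻¹) u).1 s -
        np h (fun t => star ((cur h t₀ - r * cur h t)⁻¹)) s‖ ≤ ε := by
  have hpi := Real.pi_pos
  set f : ℝ → ℂ := fun t => (cur h t₀ - r * cur h t)⁻¹ with hf
  have hfc : Continuous f := by
    apply Continuous.inv₀
    · exact continuous_const.sub (continuous_const.mul (continuous_cur hh))
    · intro t; exact sub_ne hh h0 h1 t₀ t
  have hfp : ∀ t, f (t + 2 * π) = f t := by
    intro t
    simp only [hf, cur_per hh]
  have hsc : Continuous (fun t => star (f t)) := continuous_star.comp hfc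
  have hsp : ∀ t, star (f (t + 2 * π)) = star (f t) := fun t => by rw [hfp]
  obtain ⟨q₀, hq₀, hconv⟩ := conv hh (fun t => star (f t)) hsc hsp (ε / 2) (by positivity)
  obtain ⟨M, hM0, hM⟩ := exists_cur_bound hh
  set L : ℝ := ((1 - r) * h t₀)⁻¹ with hL
  have hL0 : 0 < L := by
    have : 0 < (1 - r) * h t₀ := mul_pos (by linarith) (hh.pos t₀)
    positivity
  set K : ℝ := M * (L * L) + 1 with hK
  have hK0 : 0 < K := by positivity
  refine ⟨max q₀ (1 - ε / (2 * K)), ?_, ?_⟩
  · apply max_lt hq₀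
    have : 0 < ε / (2 * K) := by positivity
    linarith
  intro u hu0 hu2 hu1 s
  have huq : q₀ < u := lt_of_le_of_lt (le_max_left _ _) hu2
  have huK : (1 - u) * K ≤ ε / 2 := by
    have h3 : 1 - ε / (2 * K) < u := lt_of_le_of_lt (le_max_right _ _) hu2
    have h4 : 1 - u ≤ ε / (2 * K) := by linarith
    calc (1 - u) * K ≤ ε / (2 * K) * K := mul_le_mul_of_nonneg_right h4 hK0.le
      _ = ε / 2 := by field_simp
  have hcauchy := cauchy_gen hh h0 h1 t₀ hu0 hu1 s
  rw [QQ_fst hh hA hfc hu0 hu1, first_comp hh hfc hfp hu0 hu1 s hcauchy, np_eq hh hsc]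
  have hru : 0 ≤ r * u := mul_nonneg h0 hu0
  have hru1 : r * u ≤ r := by nlinarith
  have hb1 : ‖f s‖ ≤ L := by
    rw [hf]
    simp only
    rw [norm_inv]
    exact inv_anti₀ (mul_pos (by linarith) (hh.pos t₀)) (norm_sub_ge hh h0 h1.le t₀ s)
  have hb2 : ‖(cur h t₀ - r * (u * cur h s))⁻¹‖ ≤ L := by
    rw [norm_inv]
    apply inv_anti₀ (mul_pos (by linarith) (hh.pos t₀))
    have h5 := norm_sub_ge hh hru (hru1.trans h1.le) t₀ s
    push_cast at h5
    rw [mul_assoc] at h5
    refine le_trans ?_ h5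
    exact mul_le_mul_of_nonneg_right (by linarith) (hh.pos t₀).le
  have hd : ‖(cur h t₀ - r * (u * cur h s))⁻¹ - f s‖ ≤ ε / 2 := by
    have hne1 : cur h t₀ - r * cur h s ≠ 0 := sub_ne hh h0 h1 t₀ s
    have hne3 : cur h t₀ - r * (u * cur h s) ≠ 0 := by
      have := sub_ne hh (r := r * u) hru (lt_of_le_of_lt hru1 h1) t₀ s
      push_cast at this
      rwa [mul_assoc] at this
    have key : ∀ x y w : ℂ, x ≠ 0 → y ≠ 0 → y - x = w → x⁻¹ - y⁻¹ = w * (x⁻¹ * y⁻¹) := by
      intro x y w hx hy he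
      rw [← he]
      field_simp
    have e1 : (cur h t₀ - r * (u * cur h s))⁻¹ - f s =
        ((((r * (u - 1) : ℝ)) : ℂ) * cur h s) * ((cur h t₀ - r * (u * cur h s))⁻¹ * f s) := by
      apply key _ _ _ hne3 hne1
      push_cast
      ring
    rw [e1, norm_mul, norm_mul, norm_mul, Complex.norm_real, Real.norm_eq_abs]
    have h6 : |r * (u - 1)| ≤ 1 - u := by
      rw [abs_mul, abs_of_nonneg h0, abs_of_nonpos (by linarith), neg_sub]
      nlinarith
    calc |r * (u - 1)| * ‖cur h s‖ * (‖(cur h t₀ - r * (u * cur h s))⁻¹‖ * ‖f s‖)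
        ≤ (1 - u) * M * (L * L) := by
          apply mul_le_mul
          · exact mul_le_mul h6 (hM s) (norm_nonneg _) (by linarith)
          · exact mul_le_mul hb2 hb1 (norm_nonneg _) hL0.le
          · positivity
          · exact mul_nonneg (by linarith) hM0
      _ ≤ (1 - u) * K := by
          rw [mul_assoc]
          apply mul_le_mul_of_nonneg_left _ (by linarith)
          rw [hK]; linarith
      _ ≤ ε / 2 := huK
  have hc := hconv u hu0 huq hu1 s
  have h7 : ∀ a b c d e : ℂ, (a - b + c * d) - (a + c * e) = -b + c * (d - e) := by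
    intro a b c d e; ring
  rw [h7]
  refine (norm_add_le _ _).trans ?_
  rw [norm_neg, norm_star, norm_mul]
  have h3 : ‖(1 / π : ℂ)‖ = 1 / π := by
    rw [norm_div, norm_one, Complex.norm_real, Real.norm_eq_abs, abs_of_pos hpi]
  rw [h3]
  have h8 : 1 / π ≤ 1 := by
    rw [div_le_one hpi]
    linarith [Real.pi_gt_three]
  have h9 : 1 / π * ‖(∫ t in (s - π)..(s + π), (star (f t) - star (f s)) *
      ((ker h (u * cur h s) t : ℝ) : ℂ)) - ∫ t in (s - π)..(s + π), (star (f t) - star (f s)) *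
      ((ker h (cur h s) t : ℝ) : ℂ)‖ ≤ 1 * (ε / 2) :=
    mul_le_mul h8 hc (norm_nonneg _) zero_le_one
  linarith

theorem QQ_snd_sub_le (hh : Adm h) (hA : AdmA h A δ) {f : ℝ → ℂ} (hf : Continuous f)
    (hper : ∀ t, f (t + 2 * π) = f t) (ε : ℝ) (hε : 0 < ε) :
    ∃ u₀ : ℝ, u₀ < 1 ∧ ∀ u : ℝ, 0 ≤ u → u₀ < u → u < 1 →
      ‖(QQ h A f u).2 - TC h A (fun t => star (f t))‖ ≤ ε := by
  have hpi := Real.pi_pos
  have hδ := hA.δ_pos
  obtain ⟨Mf, hMf0, hMf⟩ := exists_bound_of_periodic hf hper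
  obtain ⟨Md, hMd0, hMd⟩ := exists_dcur_bound hh
  set K : ℝ := ‖(2 * π * Complex.I : ℂ)⁻¹‖ * (Mf * Md * (‖A‖ * (δ⁻¹) ^ 2) * (2 * π)) + 1 with hK
  have hK0 : 0 < K := by positivity
  refine ⟨1 - ε / K, ?_, ?_⟩
  · have : 0 < ε / K := by positivity
    linarith
  intro u hu0 hu2 hu1
  have huK : (1 - u) * K ≤ ε := by
    have h4 : 1 - u ≤ ε / K := by linarith
    calc (1 - u) * K ≤ ε / K * K := mul_le_mul_of_nonneg_right h4 hK0.le
      _ = ε := by field_simp
  have hc1 : Continuous (fun t => (star (f t) * dcur h t) • res h A u t) :=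
    ((continuous_star.comp hf).mul (continuous_dcur hh)).smul
      (continuous_res hh hA hu0 hu1.le)
  have hc2 : Continuous (fun t => (star (f t) * dcur h t) • res h A 1 t) :=
    ((continuous_star.comp hf).mul (continuous_dcur hh)).smul
      (continuous_res hh hA zero_le_one le_rfl)
  rw [QQ_snd hh hA hf hu0 hu1, TC, ← smul_sub, ← intervalIntegral.integral_sub
    (hc1.intervalIntegrable _ _) (hc2.intervalIntegrable _ _), norm_smul]
  have hb : ∀ t ∈ Set.uIoc (0 : ℝ) (2 * π), ‖(star (f t) * dcur h t) • res h A u t -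
      (star (f t) * dcur h t) • res h A 1 t‖ ≤ Mf * Md * ((1 - u) * ‖A‖ * (δ⁻¹) ^ 2) := by
    intro t _
    rw [← smul_sub, norm_smul, norm_mul, norm_star]
    apply mul_le_mul _ (norm_res_sub_le hA hu0 hu1.le t) (norm_nonneg _) (by positivity)
    exact mul_le_mul (hMf t) (hMd t) (norm_nonneg _) hMf0.le
  have h2 := intervalIntegral.norm_integral_le_of_norm_le_const hb
  rw [sub_zero, abs_of_nonneg (by positivity)] at h2
  calc ‖(2 * π * Complex.I : ℂ)⁻¹‖ * _
      ≤ ‖(2 * π * Complex.I : ℂ)⁻¹‖ * (Mf * Md * ((1 - u) * ‖A‖ * (δ⁻¹) ^ 2) * (2 * π)) :=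
        mul_le_mul_of_nonneg_left h2 (norm_nonneg _)
    _ = (1 - u) * (‖(2 * π * Complex.I : ℂ)⁻¹‖ * (Mf * Md * (‖A‖ * (δ⁻¹) ^ 2) * (2 * π))) := by
        ring
    _ ≤ (1 - u) * K := mul_le_mul_of_nonneg_left (by rw [hK]; linarith) (by linarith)
    _ ≤ ε := huK

/-- the claim for a generator -/
theorem np_mem_gen (hh : Adm h) (hA : AdmA h A δ) {r : ℝ} (h0 : 0 ≤ r) (h1 : r < 1) (t₀ : ℝ) :
    ∃ q ∈ GG h A, (∀ s, q.1 s = np h (fun t => star ((gen h A r t₀).1 t)) s) ∧
      q.2 = TC h A (fun t => star ((gen h A r t₀).1 t)) := by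
  have hg : (fun t => star ((gen h A r t₀).1 t)) =
      fun t => star ((cur h t₀ - r * cur h t)⁻¹) := by
    funext t
    rw [gen_fst_apply hh h0 h1]
  rw [hg]
  set f : ℝ → ℂ := fun t => (cur h t₀ - r * cur h t)⁻¹ with hf
  have hfc : Continuous f := by
    apply Continuous.inv₀
    · exact continuous_const.sub (continuous_const.mul (continuous_cur hh))
    · intro t; exact sub_ne hh h0 h1 t₀ t
  have hfp : ∀ t, f (t + 2 * π) = f t := by
    intro t
    simp only [hf, cur_per hh]
  have hu : ∀ n : ℕ, (0 : ℝ) ≤ 1 - 1 / ((n : ℝ) + 1) ∧ 1 - 1 / ((n : ℝ) + 1) < (1 : ℝ) := by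
    intro n
    have hn : (0 : ℝ) < (n : ℝ) + 1 := by positivity
    constructor
    · rw [sub_nonneg, div_le_one hn]
      have : (0 : ℝ) ≤ n := Nat.cast_nonneg n
      linarith
    · have : 0 < 1 / ((n : ℝ) + 1) := by positivity
      linarith
  have hev : ∀ u₀ : ℝ, u₀ < 1 → ∃ n₀ : ℕ, ∀ n, n₀ ≤ n → u₀ < 1 - 1 / ((n : ℝ) + 1) := by
    intro u₀ hu₀
    obtain ⟨n₀, hn₀⟩ := exists_nat_one_div_lt (sub_pos.2 hu₀)
    refine ⟨n₀, fun n hn => ?_⟩
    have h2 : 1 / ((n : ℝ) + 1) ≤ 1 / ((n₀ : ℝ) + 1) := Nat.one_div_le_one_div hn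
    linarith
  apply exists_limit (fun n : ℕ => QQ h A f (1 - 1 / ((n : ℝ) + 1)))
    (fun n => QQ_mem hh hA hfc (hu n).1 (hu n).2)
  intro ε hε
  obtain ⟨u₁, hu₁, hlim1⟩ := QQ_fst_sub_le hh hA h0 h1 t₀ ε hε
  obtain ⟨u₂, hu₂, hlim2⟩ := QQ_snd_sub_le hh hA hfc hfp ε hε
  obtain ⟨n₀, hn₀⟩ := hev (max u₁ u₂) (max_lt hu₁ hu₂)
  refine ⟨n₀, fun n hn => ⟨fun s => ?_, ?_⟩⟩
  · exact hlim1 _ (hu n).1 (lt_of_le_of_lt (le_max_left _ _) (hn₀ n hn)) (hu n).2 s
  · exact hlim2 _ (hu n).1 (lt_of_le_of_lt (le_max_right _ _) (hn₀ n hn)) (hu n).2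

/-- the Cauchy transform of the conjugate: boundary values are given by `np` -/
theorem np_mem (hh : Adm h) (hA : AdmA h A δ) {p : (ℝ →ᵇ ℂ) × (H →L[ℂ] H)} (hp : p ∈ GG h A) :
    ∃ q ∈ GG h A, (∀ s, q.1 s = np h (fun t => star (p.1 t)) s) ∧
      q.2 = TC h A (fun t => star (p.1 t)) := by
  obtain ⟨N, hN, hNb⟩ := exists_NP hh
  obtain ⟨T, hT⟩ := exists_TCL hh hA
  obtain ⟨K₀, hK₀⟩ := exists_bound hh hA
  -- the conjugated functions with a Cauchy transform in the algebra
  let S : Submodule ℂ ((ℝ →ᵇ ℂ) × (H →L[ℂ] H)) :=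
    { carrier := {p | ∃ q ∈ GG h A, (∀ s, q.1 s = N s (star p.1)) ∧ q.2 = T (star p.1)}
      zero_mem' := ⟨0, (GG h A).zero_mem, fun s => by
        rw [Prod.fst_zero, star_zero, map_zero]; rfl, by
        rw [Prod.fst_zero, star_zero, map_zero]; rfl⟩
      add_mem' := by
        rintro p p' ⟨q, hq, h1, h2⟩ ⟨q', hq', h1', h2'⟩
        have hst : star (p + p').1 = star p.1 + star p'.1 := star_add p.1 p'.1
        refine ⟨q + q', (GG h A).add_mem hq hq', fun s => ?_, ?_⟩
        · rw [hst, map_add, ← h1, ← h1']; rfl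
        · rw [hst, map_add, ← h2, ← h2']; rfl
      smul_mem' := by
        rintro c p ⟨q, hq, h1, h2⟩
        have hst : star (c • p).1 = star c • star p.1 := star_smul c p.1
        refine ⟨star c • q, (GG h A).smul_mem _ hq, fun s => ?_, ?_⟩
        · rw [hst, map_smul, ← h1]; rfl
        · rw [hst, map_smul, ← h2]; rfl }
  have hS : IsClosed (S : Set ((ℝ →ᵇ ℂ) × (H →L[ℂ] H))) := by
    apply IsSeqClosed.isClosed
    intro x p hx hxp
    choose q hq hq1 hq2 using hx
    have hdiff : ∀ n m, ‖(q n - q m).1‖ ≤ ‖x n - x m‖ := by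
      intro n m
      rw [BoundedContinuousFunction.norm_le (norm_nonneg _)]
      intro s
      have e : (q n - q m).1 s = N s (star (x n - x m).1) := by
        rw [Prod.fst_sub, Prod.fst_sub, star_sub, map_sub, ← hq1 n s, ← hq1 m s]
        rfl
      rw [e]
      refine (hNb s _).trans ?_
      rw [norm_star]
      exact norm_fst_le _
    have hdiff2 : ∀ n m, ‖q n - q m‖ ≤ (1 + |K₀|) * ‖x n - x m‖ := by
      intro n m
      have h1 := hdiff n m
      have h2 := hK₀ (q n - q m) ((GG h A).sub_mem (hq n) (hq m))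
      have h3 : K₀ * ‖(q n - q m).1‖ ≤ |K₀| * ‖x n - x m‖ :=
        (mul_le_mul_of_nonneg_right (le_abs_self K₀) (norm_nonneg _)).trans
          (mul_le_mul_of_nonneg_left h1 (abs_nonneg _))
      have h4 : 0 ≤ |K₀| * ‖x n - x m‖ := by positivity
      have h5 := norm_nonneg (x n - x m)
      rw [Prod.norm_def]
      apply max_le <;> linarith
    have hC : CauchySeq q := by
      have hCx : CauchySeq x := hxp.cauchySeq
      rw [Metric.cauchySeq_iff'] at hCx ⊢
      intro ε hε
      obtain ⟨n₀, hn₀⟩ := hCx (ε / (1 + |K₀|)) (by positivity)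
      refine ⟨n₀, fun n hn => ?_⟩
      have h1 := hn₀ n hn
      rw [dist_eq_norm] at h1 ⊢
      rw [lt_div_iff₀ (by positivity)] at h1
      have h2 := hdiff2 n n₀
      linarith
    obtain ⟨q', hq'⟩ := cauchySeq_tendsto_of_complete hC
    have hp1 : Filter.Tendsto (fun n => star (x n).1) Filter.atTop (nhds (star p.1)) :=
      ((continuous_star.comp continuous_fst).tendsto p).comp hxp
    refine ⟨q', isClosed_GG.mem_of_tendsto hq' (Filter.Eventually.of_forall hq), fun s => ?_, ?_⟩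
    · have h1 : Filter.Tendsto (fun n => (q n).1 s) Filter.atTop (nhds (q'.1 s)) :=
        ((((BoundedContinuousFunction.evalCLM ℂ s).continuous).comp continuous_fst).tendsto
          q').comp hq'
      have h2 : Filter.Tendsto (fun n => (q n).1 s) Filter.atTop (nhds (N s (star p.1))) := by
        have := ((N s).continuous.tendsto (star p.1)).comp hp1
        refine this.congr fun n => ?_
        exact (hq1 n s).symm
      exact tendsto_nhds_unique h1 h2
    · have h1 : Filter.Tendsto (fun n => (q n).2) Filter.atTop (nhds q'.2) :=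
        (continuous_snd.tendsto q').comp hq'
      have h2 : Filter.Tendsto (fun n => (q n).2) Filter.atTop (nhds (T (star p.1))) := by
        have := (T.continuous.tendsto (star p.1)).comp hp1
        refine this.congr fun n => ?_
        exact (hq2 n).symm
      exact tendsto_nhds_unique h1 h2
  have hle : GG h A ≤ S := by
    apply GG_le hS
    intro r t h0 h1
    obtain ⟨q, hq, h2, h3⟩ := np_mem_gen hh hA h0 h1 t
    refine ⟨q, hq, fun s => ?_, ?_⟩
    · rw [h2 s, hN]
      rfl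
    · rw [h3, hT]
      rfl
  obtain ⟨q, hq, h1, h2⟩ := hle hp
  refine ⟨q, hq, fun s => ?_, ?_⟩
  · rw [h1 s, hN]
    rfl
  · rw [h2, hT]
    rfl

end Vale.Agent.P123
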