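import Vale.Agent.Lib.P123.Abs

/-!
P123: a certificate `Cert` from one-variable inequalities on the unit circle.
-/

namespace Vale.Agent.P123

open Polynomial Complex

/-- maximum principle for real parts on the unit disc -/
theorem re_ge_of_circle {F : ℂ → ℂ} (hF : Differentiable ℂ F) {m : ℝ}
    (h : ∀ z : ℂ, ‖z‖ = 1 → m ≤ (F z).re) {z : ℂ} (hz : ‖z‖ ≤ 1) : m ≤ (F z).re := by
  have h1 : ‖Complex.exp (-F z)‖ ≤ Real.exp (-m) := by
    refine Complex.norm_le_of_forall_mem_frontier_norm_le (U := Metric.ball (0 : ℂ) 1)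
      (f := fun w => Complex.exp (-F w)) Metric.isBounded_ball ?_ ?_ ?_
    · exact (hF.neg.cexp).diffContOnCl
    · intro w hw
      rw [frontier_ball (0 : ℂ) one_ne_zero] at hw
      have hw1 : ‖w‖ = 1 := by simpa using hw
      rw [Complex.norm_exp, Complex.neg_re]
      exact Real.exp_le_exp.mpr (neg_le_neg (h w hw1))
    · rw [closure_ball (0 : ℂ) one_ne_zero]
      simpa using hz
  rw [Complex.norm_exp, Complex.neg_re] at h1
  have := Real.exp_le_exp.mp h1
  linarith

/-- the same on the bidisc -/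
theorem re_ge_of_torus {F : ℂ → ℂ → ℂ} (hF1 : ∀ g, Differentiable ℂ (fun f => F f g))
    (hF2 : ∀ f, Differentiable ℂ (fun g => F f g)) {m : ℝ}
    (h : ∀ f g : ℂ, ‖f‖ = 1 → ‖g‖ = 1 → m ≤ (F f g).re) {f g : ℂ} (hf : ‖f‖ ≤ 1)
    (hg : ‖g‖ ≤ 1) : m ≤ (F f g).re := by
  refine re_ge_of_circle (hF2 f) (fun g hg => ?_) hg
  exact re_ge_of_circle (hF1 g) (fun f hf => h f g hf hg) hf

theorem exists_unit (z : ℂ) : ∃ ω : ℂ, ‖ω‖ = 1 ∧ (ω * z).re = ‖z‖ := by
  by_cases hz : z = 0
  · exact ⟨1, by simp, by simp [hz]⟩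
  · refine ⟨star z / ‖z‖, ?_, ?_⟩
    · rw [norm_div, norm_star, Complex.norm_real, norm_norm, div_self (norm_ne_zero_iff.mpr hz)]
    · have h1 : star z / (‖z‖ : ℂ) * z = ((‖z‖ : ℝ) : ℂ) := by
        have hn : ((‖z‖ : ℝ) : ℂ) ≠ 0 := by simpa using hz
        have h2 : star z * z = ((‖z‖ : ℝ) : ℂ) ^ 2 := by
          have := Complex.conj_mul' z
          simpa using this
        rw [div_mul_eq_mul_div, h2]
        field_simp
      rw [h1, Complex.ofReal_re]

theorem star_mul_self_of_norm {z : ℂ} (hz : ‖z‖ = 1) : star z * z = 1 := by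
  have := Complex.conj_mul' z
  rw [hz] at this
  simpa using this

theorem re_star_mul (ω z : ℂ) : (star ω * z).re = (ω * star z).re := by
  simp [Complex.mul_re]

/-- reduction of a certificate to inequalities on the unit circle -/
theorem cert_of_circle {Ks B e0 e1 m1 m2 m3 : ℝ} {ψ φ χ : ℂ[X]} (hKs : 1 ≤ Ks) (he : e1 < e0)
    (h1 : ∀ z : ℂ, ‖z‖ ≤ 1 → m1 ≤ (ψ.eval z).re) (h2 : ∀ z : ℂ, ‖z‖ ≤ 1 → ‖φ.eval z‖ ≤ m2)
    (h3 : ∀ z : ℂ, ‖z‖ ≤ 1 → ‖ψ.eval z‖ ≤ m3) (hm : m2 + m3 ≤ Ks ^ 2 * (m1 - m2))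
    (U1 : ∀ w : ℂ, ‖w‖ = 1 → ‖ψ.eval w + star (w * φ.eval w)‖ ≤ (χ.eval w).re)
    (U2 : ∀ v : ℂ, ‖v‖ = 1 →
      e0 ≤ ((Ks : ℂ) * ψ.eval v + (Ks : ℂ)⁻¹ * (v * φ.eval v) - χ.eval v + B * v).re)
    (U3 : ∀ w : ℂ, ‖w‖ = 1 →
      ‖(Ks : ℂ)⁻¹ * ψ.eval w - B + Ks * star (w * φ.eval w)‖ + (χ.eval w).re ≤ e1) :
    Cert Ks ψ φ χ B (e0 - e1) := by
  have hKs0 : 0 < Ks := by linarith
  refine ⟨hKs, by linarith, ?_, ?_⟩
  · intro f g hf hg
    obtain ⟨ω, hω, hωz⟩ := exists_unit (f * ψ.eval (f * g) + star (g * φ.eval (f * g)))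
    have hω2 : star ω * ω = 1 := star_mul_self_of_norm hω
    have key : 0 ≤ (χ.eval (f * g) - ω * (f * ψ.eval (f * g))
        - star ω * (g * φ.eval (f * g))).re := by
      refine re_ge_of_torus (F := fun f g => χ.eval (f * g) - ω * (f * ψ.eval (f * g))
        - star ω * (g * φ.eval (f * g))) ?_ ?_ ?_ hf hg
      · intro g
        fun_prop
      · intro f
        fun_prop
      · intro f g hf hg
        have hf2 : star f * f = 1 := star_mul_self_of_norm hf
        have hg2 : star g * g = 1 := star_mul_self_of_norm hg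
        have hw : ‖f * g‖ = 1 := by rw [norm_mul, hf, hg, one_mul]
        have h4 := U1 (f * g) hw
        have h5 : (χ.eval (f * g) - ω * (f * ψ.eval (f * g))
          - star ω * (g * φ.eval (f * g))).re = (χ.eval (f * g)).re
            - ((ω * f) * (ψ.eval (f * g) + star (f * g * φ.eval (f * g)))).re := by
          have h6 : (star ω * (g * φ.eval (f * g))).re
              = (ω * star (g * φ.eval (f * g))).re := re_star_mul _ _
          have h7 : ω * star (g * φ.eval (f * g))
              = ω * f * star (f * g * φ.eval (f * g)) := by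
            simp only [star_mul']
            linear_combination (-(ω * star g * star (eval (f * g) φ))) * hf2
          rw [Complex.sub_re, Complex.sub_re, h6, h7]
          have : (ω * f) * (ψ.eval (f * g) + star (f * g * φ.eval (f * g)))
            = ω * (f * eval (f * g) ψ) + ω * f * star (f * g * eval (f * g) φ) := by ring
          rw [this, Complex.add_re]
          ring
        rw [h5]
        have h8 : ((ω * f) * (ψ.eval (f * g) + star (f * g * φ.eval (f * g)))).re
            ≤ ‖ψ.eval (f * g) + star (f * g * φ.eval (f * g))‖ := by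
          refine (Complex.re_le_norm _).trans ?_
          rw [norm_mul, norm_mul, hω, hf, one_mul, one_mul]
        linarith
    have h6 : (star ω * (g * φ.eval (f * g))).re = (ω * star (g * φ.eval (f * g))).re :=
      re_star_mul _ _
    rw [← hωz, mul_add, Complex.add_re, ← h6]
    rw [Complex.sub_re, Complex.sub_re] at key
    linarith
  · intro κ hκ v f g hv hf hg
    have hκ0 : 0 < κ := by linarith
    have E1 : e0 ≤ ((Ks : ℂ) * ψ.eval v + (Ks : ℂ)⁻¹ * (v * φ.eval v) - χ.eval v + B * v).re := by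
      refine re_ge_of_circle (F := fun v => (Ks : ℂ) * ψ.eval v + (Ks : ℂ)⁻¹ * (v * φ.eval v)
        - χ.eval v + B * v) ?_ U2 hv
      fun_prop
    have E2 : -e1 ≤ ((Ks : ℂ)⁻¹ * (f * ψ.eval (f * g)) + (Ks : ℂ) * (g * φ.eval (f * g))
        - χ.eval (f * g) - B * f).re := by
      refine re_ge_of_torus (F := fun f g => (Ks : ℂ)⁻¹ * (f * ψ.eval (f * g))
        + (Ks : ℂ) * (g * φ.eval (f * g)) - χ.eval (f * g) - B * f) ?_ ?_ ?_ hf hg
      · intro g
        fun_prop
      · intro f
        fun_prop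
      · intro f g hf hg
        have hf2 : star f * f = 1 := star_mul_self_of_norm hf
        have hw : ‖f * g‖ = 1 := by rw [norm_mul, hf, hg, one_mul]
        have h4 := U3 (f * g) hw
        have h6 : ((Ks : ℂ) * (g * φ.eval (f * g))).re
            = (f * ((Ks : ℂ) * star (f * g * φ.eval (f * g)))).re := by
          have h7 : f * ((Ks : ℂ) * star (f * g * φ.eval (f * g)))
              = star ((Ks : ℂ) * (g * φ.eval (f * g))) := by
            simp only [star_mul']
            have h8 : star (Ks : ℂ) = (Ks : ℂ) := Complex.conj_ofReal Ks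
            rw [h8]
            linear_combination ((Ks : ℂ) * star g * star (eval (f * g) φ)) * hf2
          rw [h7]
          simp
        have h9 : ((Ks : ℂ)⁻¹ * (f * ψ.eval (f * g)) + (Ks : ℂ) * (g * φ.eval (f * g))
            - χ.eval (f * g) - B * f).re
            = (f * ((Ks : ℂ)⁻¹ * ψ.eval (f * g) - B
              + Ks * star (f * g * φ.eval (f * g)))).re - (χ.eval (f * g)).re := by
          have : f * ((Ks : ℂ)⁻¹ * ψ.eval (f * g) - B
              + Ks * star (f * g * φ.eval (f * g)))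
              = (Ks : ℂ)⁻¹ * (f * ψ.eval (f * g)) - B * f
                + f * ((Ks : ℂ) * star (f * g * φ.eval (f * g))) := by ring
          rw [this, Complex.sub_re, Complex.sub_re, Complex.add_re, Complex.add_re, h6,
            Complex.sub_re]
          ring
        rw [h9]
        have h10 : -‖f * ((Ks : ℂ)⁻¹ * ψ.eval (f * g) - B
              + Ks * star (f * g * φ.eval (f * g)))‖ ≤ (f * ((Ks : ℂ)⁻¹ * ψ.eval (f * g) - B
              + Ks * star (f * g * φ.eval (f * g)))).re :=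
          (abs_le.mp (Complex.abs_re_le_norm _)).1
        rw [norm_mul, hf, one_mul] at h10
        linarith
    -- monotonicity in `κ`
    have hfg : ‖f * g‖ ≤ 1 := by
      rw [norm_mul]
      nlinarith [norm_nonneg f, norm_nonneg g]
    set a1 : ℝ := (ψ.eval v + g * φ.eval (f * g)).re with ha1
    set a2 : ℝ := (v * φ.eval v + f * ψ.eval (f * g)).re with ha2
    have hm2 : 0 ≤ m2 := (norm_nonneg _).trans (h2 0 (by simp))
    have hm3 : 0 ≤ m3 := (norm_nonneg _).trans (h3 0 (by simp))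
    have ha1' : m1 - m2 ≤ a1 := by
      rw [ha1, Complex.add_re]
      have h4 := h1 v hv
      have h5 : -‖g * φ.eval (f * g)‖ ≤ (g * φ.eval (f * g)).re :=
        (abs_le.mp (Complex.abs_re_le_norm _)).1
      have h6 : ‖g * φ.eval (f * g)‖ ≤ m2 := by
        rw [norm_mul]
        calc ‖g‖ * ‖φ.eval (f * g)‖ ≤ 1 * m2 :=
              mul_le_mul hg (h2 _ hfg) (norm_nonneg _) zero_le_one
          _ = m2 := one_mul _
      linarith
    have ha2' : a2 ≤ m2 + m3 := by
      rw [ha2]
      refine (Complex.re_le_norm _).trans ((norm_add_le _ _).trans ?_)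
      refine add_le_add ?_ ?_
      · rw [norm_mul]
        calc ‖v‖ * ‖φ.eval v‖ ≤ 1 * m2 :=
              mul_le_mul hv (h2 _ hv) (norm_nonneg _) zero_le_one
          _ = m2 := one_mul _
      · rw [norm_mul]
        calc ‖f‖ * ‖ψ.eval (f * g)‖ ≤ 1 * m3 :=
              mul_le_mul hf (h3 _ hfg) (norm_nonneg _) zero_le_one
          _ = m3 := one_mul _
    have hre : ∀ (r : ℝ) (z : ℂ), ((r : ℂ) * z).re = r * z.re := fun r z => by simp
    have hinv : ∀ r : ℝ, ((r : ℂ))⁻¹ = ((r⁻¹ : ℝ) : ℂ) := fun r => by simp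
    have e : ∀ κ : ℝ, ((κ : ℂ) * ψ.eval v + (κ : ℂ)⁻¹ * (v * φ.eval v) - χ.eval v + B * v).re
        + ((κ : ℂ)⁻¹ * (f * ψ.eval (f * g)) + (κ : ℂ) * (g * φ.eval (f * g)) - χ.eval (f * g)
          - B * f).re = κ * a1 + κ⁻¹ * a2 - (χ.eval v).re - (χ.eval (f * g)).re
            + B * v.re - B * f.re := by
      intro κ
      rw [ha1, ha2, hinv]
      simp only [Complex.add_re, Complex.sub_re, hre]
      ring
    rw [e κ]
    have h12 : e0 - e1 ≤ Ks * a1 + Ks⁻¹ * a2 - (χ.eval v).re - (χ.eval (f * g)).re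
            + B * v.re - B * f.re := by
      rw [← e Ks]
      linarith
    have h13 : Ks * a1 + Ks⁻¹ * a2 ≤ κ * a1 + κ⁻¹ * a2 := by
      have h14 : κ * a1 + κ⁻¹ * a2 - (Ks * a1 + Ks⁻¹ * a2)
          = (κ - Ks) * (κ * Ks)⁻¹ * (κ * Ks * a1 - a2) := by
        field_simp
        ring
      have h15 : 0 ≤ κ * Ks * a1 - a2 := by
        have h16 : Ks ^ 2 * (m1 - m2) ≤ κ * Ks * (m1 - m2) := by
          have : 0 ≤ m1 - m2 := by
            by_contra hneg
            push Not at hneg
            nlinarith [pow_pos hKs0 2]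
          nlinarith [mul_le_mul_of_nonneg_right hκ hKs0.le]
        have h17 : κ * Ks * (m1 - m2) ≤ κ * Ks * a1 :=
          mul_le_mul_of_nonneg_left ha1' (by positivity)
        linarith
      have h18 : 0 ≤ (κ - Ks) * (κ * Ks)⁻¹ * (κ * Ks * a1 - a2) :=
        mul_nonneg (mul_nonneg (by linarith) (by positivity)) h15
      linarith
    linarith

end Vale.Agent.P123
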