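import Vale.Agent.Lib.P123.Cert

/-!
P123: a concrete certificate with `Ks = 2.28`.
-/

namespace Vale.Agent.P123

open Polynomial Complex

namespace C228

theorem pX {x : ℝ} (h1 : -1 ≤ x) (h2 : x ≤ 1) :
    0 ≤ (499/500) + (-111/1000) * x + (9/250) * x ^ 2 + (2/125) * x ^ 3 := by
  have ha : 0 ≤ x - (-1) := by linarith
  have hb : 0 ≤ (1) - x := by linarith
  have e : (499/500) + (-111/1000) * x + (9/250) * x ^ 2 + (2/125) * x ^ 3
      = (1129/8000) * ((1) - x) ^ 3 + (3117/8000) * (x - (-1)) ^ 1 * ((1) - x) ^ 2 +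
        (2799/8000) * (x - (-1)) ^ 2 * ((1) - x) ^ 1 + (939/8000) * (x - (-1)) ^ 3 := by ring
  rw [e]
  positivity

theorem pY {x : ℝ} (h1 : -1 ≤ x) (h2 : x ≤ 1) :
    0 ≤ (2503/10000) + (111/1000) * x + (-9/250) * x ^ 2 + (-2/125) * x ^ 3 := by
  have ha : 0 ≤ x - (-1) := by linarith
  have hb : 0 ≤ (1) - x := by linarith
  have e : (2503/10000) + (111/1000) * x + (-9/250) * x ^ 2 + (-2/125) * x ^ 3
      = (1193/80000) * ((1) - x) ^ 3 + (6279/80000) * (x - (-1)) ^ 1 * ((1) - x) ^ 2 +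
        (9459/80000) * (x - (-1)) ^ 2 * ((1) - x) ^ 1 + (3093/80000) * (x - (-1)) ^ 3 := by ring
  rw [e]
  positivity

theorem p1 {x : ℝ} (h1 : -1 ≤ x) (h2 : x ≤ 1) :
    0 ≤ (7467/4000000) + (2471/1000000) * x + (-283/200000) * x ^ 2 + (-1/2000) * x ^ 3 +
      (79/25000) * x ^ 4 + (-141/62500) * x ^ 5 + (-8/15625) * x ^ 6 := by
  rcases le_total x (0) with hx | hx
  · clear h2; rename' hx => h2
    have ha : 0 ≤ x - (-1) := by linarith
    have hb : 0 ≤ (0) - x := by linarith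
    have e : (7467/4000000) + (2471/1000000) * x + (-283/200000) * x ^ 2 + (-1/2000) * x ^ 3 +
          (79/25000) * x ^ 4 + (-141/62500) * x ^ 5 + (-8/15625) * x ^ 6
        = (13539/4000000) * ((0) - x) ^ 7 + (5317/800000) * (x - (-1)) ^ 1 * ((0) - x) ^ 6 +
          (10891/4000000) * (x - (-1)) ^ 2 * ((0) - x) ^ 5 +
          (5541/800000) * (x - (-1)) ^ 3 * ((0) - x) ^ 4 +
          (17357/800000) * (x - (-1)) ^ 4 * ((0) - x) ^ 3 +
          (91843/4000000) * (x - (-1)) ^ 5 * ((0) - x) ^ 2 +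
          (8477/800000) * (x - (-1)) ^ 6 * ((0) - x) ^ 1 + (7467/4000000) * (x - (-1)) ^ 7 := by ring
    rw [e]
    positivity
  · clear h1; rename' hx => h1
    have ha : 0 ≤ x - (0) := by linarith
    have hb : 0 ≤ (1) - x := by linarith
    have e : (7467/4000000) + (2471/1000000) * x + (-283/200000) * x ^ 2 + (-1/2000) * x ^ 3 +
          (79/25000) * x ^ 4 + (-141/62500) * x ^ 5 + (-8/15625) * x ^ 6
        = (7467/4000000) * ((1) - x) ^ 7 + (62153/4000000) * (x - (0)) ^ 1 * ((1) - x) ^ 6 +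
          (210451/4000000) * (x - (0)) ^ 2 * ((1) - x) ^ 5 +
          (75861/800000) * (x - (0)) ^ 3 * ((1) - x) ^ 4 +
          (81413/800000) * (x - (0)) ^ 4 * ((1) - x) ^ 3 +
          (265363/4000000) * (x - (0)) ^ 5 * ((1) - x) ^ 2 +
          (93097/4000000) * (x - (0)) ^ 6 * ((1) - x) ^ 1 + (11259/4000000) * (x - (0)) ^ 7 := by ring
    rw [e]
    positivity

theorem p2 {x : ℝ} (h1 : -1 ≤ x) (h2 : x ≤ 1) :
    0 ≤ (2669/1425000) + (12481/1425000) * x + (36557/1425000) * x ^ 2 + (6547/356250) * x ^ 3 := by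
  rcases le_total x (-1/2) with hx | hx
  · clear h2; rename' hx => h2
    have ha : 0 ≤ x - (-1) := by linarith
    have hb : 0 ≤ (-1/2) - x := by linarith
    have e : (2669/1425000) + (12481/1425000) * x + (36557/1425000) * x ^ 2 +
          (6547/356250) * x ^ 3
        = (557/178125) * ((-1/2) - x) ^ 3 +
          (7091/118750) * (x - (-1)) ^ 1 * ((-1/2) - x) ^ 2 +
          (36401/712500) * (x - (-1)) ^ 2 * ((-1/2) - x) ^ 1 + (161/12500) * (x - (-1)) ^ 3 := by ring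
    rw [e]
    positivity
  · clear h1; rename' hx => h1
    rcases le_total x (0) with hx | hx
    · clear h2; rename' hx => h2
      have ha : 0 ≤ x - (-1/2) := by linarith
      have hb : 0 ≤ (0) - x := by linarith
      have e : (2669/1425000) + (12481/1425000) * x + (36557/1425000) * x ^ 2 +
            (6547/356250) * x ^ 3
          = (161/12500) * ((0) - x) ^ 3 + (18661/712500) * (x - (-1/2)) ^ 1 * ((0) - x) ^ 2 +
            (3533/356250) * (x - (-1/2)) ^ 2 * ((0) - x) ^ 1 +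
            (2669/178125) * (x - (-1/2)) ^ 3 := by ring
      rw [e]
      positivity
    · clear h1; rename' hx => h1
      have ha : 0 ≤ x - (0) := by linarith
      have hb : 0 ≤ (1) - x := by linarith
      have e : (2669/1425000) + (12481/1425000) * x + (36557/1425000) * x ^ 2 +
            (6547/356250) * x ^ 3
          = (2669/1425000) * ((1) - x) ^ 3 + (2561/178125) * (x - (0)) ^ 1 * ((1) - x) ^ 2 +
            (34763/712500) * (x - (0)) ^ 2 * ((1) - x) ^ 1 + (5193/95000) * (x - (0)) ^ 3 := by ring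
      rw [e]
      positivity

theorem p3 {x : ℝ} (h1 : -1 ≤ x) (h2 : x ≤ 1) :
    0 ≤ (3625371223/2030625000000) + (302924761/1015312500000) * x +
      (-406906183/135375000000) * x ^ 2 + (739471/270750000) * x ^ 3 + (79/25000) * x ^ 4 +
      (-141/62500) * x ^ 5 + (-8/15625) * x ^ 6 := by
  rcases le_total x (-1/2) with hx | hx
  · clear h2; rename' hx => h2
    have ha : 0 ≤ x - (-1) := by linarith
    have hb : 0 ≤ (-1/2) - x := by linarith
    have e : (3625371223/2030625000000) + (302924761/1015312500000) * x +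
          (-406906183/135375000000) * x ^ 2 + (739471/270750000) * x ^ 3 +
          (79/25000) * x ^ 4 + (-141/62500) * x ^ 5 + (-8/15625) * x ^ 6
        = (7357792/87890625) * ((-1/2) - x) ^ 7 +
          (634422544/3525390625) * (x - (-1)) ^ 1 * ((-1/2) - x) ^ 6 +
          (977817401/21152343750) * (x - (-1)) ^ 2 * ((-1/2) - x) ^ 5 +
          (269415769/2538281250) * (x - (-1)) ^ 3 * ((-1/2) - x) ^ 4 +
          (1449984104/2115234375) * (x - (-1)) ^ 4 * ((-1/2) - x) ^ 3 +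
          (9982100869/10576171875) * (x - (-1)) ^ 5 * ((-1/2) - x) ^ 2 +
          (32827330937/63457031250) * (x - (-1)) ^ 6 * ((-1/2) - x) ^ 1 +
          (2175008951/21152343750) * (x - (-1)) ^ 7 := by ring
    rw [e]
    positivity
  · clear h1; rename' hx => h1
    rcases le_total x (0) with hx | hx
    · clear h2; rename' hx => h2
      have ha : 0 ≤ x - (-1/2) := by linarith
      have hb : 0 ≤ (0) - x := by linarith
      have e : (3625371223/2030625000000) + (302924761/1015312500000) * x +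
            (-406906183/135375000000) * x ^ 2 + (739471/270750000) * x ^ 3 +
            (79/25000) * x ^ 4 + (-141/62500) * x ^ 5 + (-8/15625) * x ^ 6
          = (2175008951/21152343750) * ((0) - x) ^ 7 +
            (11704609001/12691406250) * (x - (-1/2)) ^ 1 * ((0) - x) ^ 6 +
            (11892604979/3525390625) * (x - (-1/2)) ^ 2 * ((0) - x) ^ 5 +
            (13759806388/2115234375) * (x - (-1/2)) ^ 3 * ((0) - x) ^ 4 +
            (91217101117/12691406250) * (x - (-1/2)) ^ 4 * ((0) - x) ^ 3 +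
            (32350821747/7050781250) * (x - (-1/2)) ^ 5 * ((0) - x) ^ 2 +
            (668657968/423046875) * (x - (-1/2)) ^ 6 * ((0) - x) ^ 1 +
            (7250742446/31728515625) * (x - (-1/2)) ^ 7 := by ring
      rw [e]
      positivity
    · clear h1; rename' hx => h1
      have ha : 0 ≤ x - (0) := by linarith
      have hb : 0 ≤ (1) - x := by linarith
      have e : (3625371223/2030625000000) + (302924761/1015312500000) * x +
            (-406906183/135375000000) * x ^ 2 + (739471/270750000) * x ^ 3 +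
            (79/25000) * x ^ 4 + (-141/62500) * x ^ 5 + (-8/15625) * x ^ 6
          = (3625371223/2030625000000) * ((1) - x) ^ 7 +
            (2887049787/225625000000) * (x - (0)) ^ 1 * ((1) - x) ^ 6 +
            (818492223/22562500000) * (x - (0)) ^ 2 * ((1) - x) ^ 5 +
            (11100380441/203062500000) * (x - (0)) ^ 3 * ((1) - x) ^ 4 +
            (124643229/2375000000) * (x - (0)) ^ 4 * ((1) - x) ^ 3 +
            (8014449007/225625000000) * (x - (0)) ^ 5 * ((1) - x) ^ 2 +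
            (3715915871/253828125000) * (x - (0)) ^ 6 * ((1) - x) ^ 1 +
            (993259/451250000) * (x - (0)) ^ 7 := by ring
      rw [e]
      positivity

end C228

/-- powers on the unit circle -/
theorem circle_pow {w : ℂ} (hw : ‖w‖ = 1) :
    w.re ^ 2 + w.im ^ 2 = 1 ∧ (w ^ 2).re = 2 * w.re ^ 2 - 1 ∧ (w ^ 2).im = 2 * w.re * w.im ∧
      (w ^ 3).re = 4 * w.re ^ 3 - 3 * w.re ∧ (w ^ 3).im = (4 * w.re ^ 2 - 1) * w.im := by
  have h : w.re ^ 2 + w.im ^ 2 = 1 := by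
    have h1 := Complex.normSq_eq_norm_sq w
    rw [hw, Complex.normSq_apply] at h1
    nlinarith
  refine ⟨h, ?_, ?_, ?_, ?_⟩
  · simp only [pow_succ, pow_zero, one_mul, Complex.mul_re]
    linear_combination -h
  · simp only [pow_succ, pow_zero, one_mul, Complex.mul_im]
    ring
  · simp only [pow_succ, pow_zero, one_mul, Complex.mul_re, Complex.mul_im]
    linear_combination (-3 * w.re) * h
  · simp only [pow_succ, pow_zero, one_mul, Complex.mul_re, Complex.mul_im]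
    linear_combination (-w.im) * h

theorem re_circle {w : ℂ} (hw : ‖w‖ = 1) (a0 a1 a2 a3 : ℝ) :
    ((a0 : ℂ) + a1 * w + a2 * w ^ 2 + a3 * w ^ 3).re
      = a0 + a1 * w.re + a2 * (2 * w.re ^ 2 - 1) + a3 * (4 * w.re ^ 3 - 3 * w.re) := by
  obtain ⟨-, h2, -, h3, -⟩ := circle_pow hw
  simp only [Complex.add_re, Complex.re_ofReal_mul, Complex.ofReal_re, h2, h3]

theorem normSq_circle {w : ℂ} (hw : ‖w‖ = 1) (a0 a1 a2 a3 b1 b2 b3 : ℝ) :
    ‖((a0 : ℂ) + a1 * w + a2 * w ^ 2 + a3 * w ^ 3)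
      + star ((b1 : ℂ) * w + b2 * w ^ 2 + b3 * w ^ 3)‖ ^ 2
      = (a0 + (a1 + b1) * w.re + (a2 + b2) * (2 * w.re ^ 2 - 1)
          + (a3 + b3) * (4 * w.re ^ 3 - 3 * w.re)) ^ 2
        + (1 - w.re ^ 2) * ((a1 - b1) + (a2 - b2) * (2 * w.re)
          + (a3 - b3) * (4 * w.re ^ 2 - 1)) ^ 2 := by
  obtain ⟨h1, h2, h2', h3, h3'⟩ := circle_pow hw
  rw [← Complex.normSq_eq_norm_sq, Complex.normSq_apply]
  simp only [Complex.star_def, Complex.add_re, Complex.add_im, Complex.re_ofReal_mul,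
    Complex.im_ofReal_mul, Complex.ofReal_re, Complex.ofReal_im, h2, h3, h2', h3',
    Complex.conj_re, Complex.conj_im]
  linear_combination ((a1 - b1) + (a2 - b2) * (2 * w.re) + (a3 - b3) * (4 * w.re ^ 2 - 1)) ^ 2 * h1

noncomputable def psi228 : ℂ[X] := C ((1 : ℝ) : ℂ) + C ((-43 / 250 : ℝ) : ℂ) * X
  + C ((9 / 1000 : ℝ) : ℂ) * X ^ 2 + C ((3 / 1000 : ℝ) : ℂ) * X ^ 3

noncomputable def phi228 : ℂ[X] := C ((7 / 100 : ℝ) : ℂ) + C ((47 / 2000 : ℝ) : ℂ) * X
  + C ((1 / 250 : ℝ) : ℂ) * X ^ 2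

noncomputable def chi228 : ℂ[X] := C ((127 / 125 : ℝ) : ℂ) + C ((-99 / 1000 : ℝ) : ℂ) * X
  + C ((9 / 500 : ℝ) : ℂ) * X ^ 2 + C ((1 / 250 : ℝ) : ℂ) * X ^ 3

theorem psi228_eval (w : ℂ) : psi228.eval w = ((1 : ℝ) : ℂ) + ((-43 / 250 : ℝ) : ℂ) * w
  + ((9 / 1000 : ℝ) : ℂ) * w ^ 2 + ((3 / 1000 : ℝ) : ℂ) * w ^ 3 := by
  simp [psi228]

theorem phi228_eval (w : ℂ) : phi228.eval w = ((7 / 100 : ℝ) : ℂ) + ((47 / 2000 : ℝ) : ℂ) * w
  + ((1 / 250 : ℝ) : ℂ) * w ^ 2 := by
  simp [phi228]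

theorem chi228_eval (w : ℂ) : chi228.eval w = ((127 / 125 : ℝ) : ℂ) + ((-99 / 1000 : ℝ) : ℂ) * w
  + ((9 / 500 : ℝ) : ℂ) * w ^ 2 + ((1 / 250 : ℝ) : ℂ) * w ^ 3 := by
  simp [chi228]

theorem ofReal_mul_star (r : ℝ) (z : ℂ) : (r : ℂ) * star z = star ((r : ℂ) * z) := by
  rw [star_mul', Complex.star_def, Complex.conj_ofReal]

theorem norm_mul_le_of {r : ℝ} (hr : 0 ≤ r) {z : ℂ} (hz : ‖z‖ ≤ 1) : ‖(r : ℂ) * z‖ ≤ r := by
  rw [norm_mul, Complex.norm_real, Real.norm_of_nonneg hr]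
  nlinarith [norm_nonneg z]

theorem norm_coef_le (r : ℝ) {z : ℂ} (hz : ‖z‖ ≤ 1) (n : ℕ) : ‖(r : ℂ) * z ^ n‖ ≤ |r| := by
  rw [norm_mul, Complex.norm_real, Real.norm_eq_abs, norm_pow]
  exact mul_le_of_le_one_right (abs_nonneg r) (pow_le_one₀ (norm_nonneg z) hz)

theorem cert228 : Cert (57 / 25) psi228 phi228 chi228 (57 / 200) (12493 / 10000 - 12483 / 10000) := by
  have hx : ∀ w : ℂ, ‖w‖ = 1 → -1 ≤ w.re ∧ w.re ≤ 1 := fun w hw => by
    have := Complex.abs_re_le_norm w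
    rw [hw] at this
    exact abs_le.mp this
  have hpsi1 : ∀ z : ℂ, ‖z‖ ≤ 1 → ‖psi228.eval z - 1‖ ≤ 184 / 1000 := by
    intro z hz
    have e : psi228.eval z - 1 = ((-43 / 250 : ℝ) : ℂ) * z ^ 1
      + ((9 / 1000 : ℝ) : ℂ) * z ^ 2 + ((3 / 1000 : ℝ) : ℂ) * z ^ 3 := by
      rw [psi228_eval, Complex.ofReal_one]
      ring
    rw [e]
    refine (norm_add_le _ _).trans ((add_le_add ((norm_add_le _ _).trans (add_le_add
      (norm_coef_le _ hz 1) (norm_coef_le _ hz 2))) (norm_coef_le _ hz 3)).trans ?_)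
    norm_num [abs_of_neg, abs_of_pos]
  refine cert_of_circle (m1 := 816 / 1000) (m2 := 975 / 10000) (m3 := 1184 / 1000)
    (by norm_num) (by norm_num) ?_ ?_ ?_ (by norm_num) ?_ ?_ ?_
  · intro z hz
    have h1 := hpsi1 z hz
    have h2 := (abs_le.mp ((Complex.abs_re_le_norm _).trans h1)).1
    rw [Complex.sub_re, Complex.one_re] at h2
    linarith
  · intro z hz
    have e : phi228.eval z = ((7 / 100 : ℝ) : ℂ) * z ^ 0
      + ((47 / 2000 : ℝ) : ℂ) * z ^ 1 + ((1 / 250 : ℝ) : ℂ) * z ^ 2 := by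
      rw [phi228_eval]
      ring
    rw [e]
    refine (norm_add_le _ _).trans ((add_le_add ((norm_add_le _ _).trans (add_le_add
      (norm_coef_le _ hz 0) (norm_coef_le _ hz 1))) (norm_coef_le _ hz 2)).trans ?_)
    norm_num [abs_of_neg, abs_of_pos]
  · intro z hz
    have h1 := hpsi1 z hz
    calc ‖psi228.eval z‖ = ‖1 + (psi228.eval z - 1)‖ := by ring_nf
      _ ≤ ‖(1 : ℂ)‖ + ‖psi228.eval z - 1‖ := norm_add_le _ _
      _ ≤ 1184 / 1000 := by rw [norm_one]; linarith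
  · intro w hw
    obtain ⟨hx1, hx2⟩ := hx w hw
    have e : psi228.eval w + star (w * phi228.eval w)
        = (((1 : ℝ) : ℂ) + ((-43 / 250 : ℝ) : ℂ) * w
          + ((9 / 1000 : ℝ) : ℂ) * w ^ 2 + ((3 / 1000 : ℝ) : ℂ) * w ^ 3)
          + star (((7 / 100 : ℝ) : ℂ) * w + ((47 / 2000 : ℝ) : ℂ) * w ^ 2
            + ((1 / 250 : ℝ) : ℂ) * w ^ 3) := by
      rw [psi228_eval, phi228_eval]
      congr 2
      ring
    have hX := C228.pX hx1 hx2
    have hp := C228.p1 hx1 hx2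
    refine le_of_sq_le_sq ?_ ?_
    · rw [e, normSq_circle hw, chi228_eval, re_circle hw]
      linarith
    · rw [chi228_eval, re_circle hw]
      linarith
  · intro w hw
    obtain ⟨hx1, hx2⟩ := hx w hw
    have e : (((57 / 25 : ℝ)) : ℂ) * psi228.eval w + (((57 / 25 : ℝ)) : ℂ)⁻¹ * (w * phi228.eval w)
        - chi228.eval w + (((57 / 200 : ℝ)) : ℂ) * w
        = (((57 / 25 : ℝ) * 1 - 127 / 125 : ℝ) : ℂ)
          + (((57 / 25 : ℝ) * (-43 / 250) + (25 / 57) * (7 / 100) + 99 / 1000 + 57 / 200 : ℝ) : ℂ) * w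
          + (((57 / 25 : ℝ) * (9 / 1000) + (25 / 57) * (47 / 2000) - 9 / 500 : ℝ) : ℂ) * w ^ 2
          + (((57 / 25 : ℝ) * (3 / 1000) + (25 / 57) * (1 / 250) - 1 / 250 : ℝ) : ℂ) * w ^ 3 := by
      rw [psi228_eval, phi228_eval, chi228_eval]
      push_cast
      ring
    rw [e, re_circle hw]
    have hp := C228.p2 hx1 hx2
    linarith
  · intro w hw
    obtain ⟨hx1, hx2⟩ := hx w hw
    have e : (((57 / 25 : ℝ)) : ℂ)⁻¹ * psi228.eval w - (((57 / 200 : ℝ)) : ℂ)
        + (((57 / 25 : ℝ)) : ℂ) * star (w * phi228.eval w)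
        = (((25 / 57 - 57 / 200 : ℝ) : ℂ) + ((25 / 57 * (-43 / 250) : ℝ) : ℂ) * w
          + ((25 / 57 * (9 / 1000) : ℝ) : ℂ) * w ^ 2 + ((25 / 57 * (3 / 1000) : ℝ) : ℂ) * w ^ 3)
          + star (((57 / 25 * (7 / 100) : ℝ) : ℂ) * w + ((57 / 25 * (47 / 2000) : ℝ) : ℂ) * w ^ 2
            + ((57 / 25 * (1 / 250) : ℝ) : ℂ) * w ^ 3) := by
      have h1 : (((57 / 25 : ℝ)) : ℂ) * star (w * phi228.eval w)
          = star ((((57 / 25 : ℝ)) : ℂ) * (w * phi228.eval w)) := ofReal_mul_star _ _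
      rw [h1, psi228_eval, phi228_eval]
      congr 1
      · push_cast
        ring
      · congr 1
        push_cast
        ring
    have hY := C228.pY hx1 hx2
    have hp := C228.p3 hx1 hx2
    have hnorm : ‖(((57 / 25 : ℝ)) : ℂ)⁻¹ * psi228.eval w - (((57 / 200 : ℝ)) : ℂ)
        + (((57 / 25 : ℝ)) : ℂ) * star (w * phi228.eval w)‖
        ≤ 12483 / 10000 - (chi228.eval w).re := by
      refine le_of_sq_le_sq ?_ ?_
      · rw [e, normSq_circle hw, chi228_eval, re_circle hw]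
        linarith
      · rw [chi228_eval, re_circle hw]
        linarith
    linarith

end Vale.Agent.P123
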