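import Vale.Agent.Lib.P123.Defs

namespace Vale.Agent.P123

open MeasureTheory
open scoped Real

variable {h : ℝ → ℝ}

theorem Adm.cd0 (hh : Adm h) : Continuous h := hh.smooth.continuous

theorem Adm.diff (hh : Adm h) (θ : ℝ) : HasDerivAt h (deriv h θ) θ :=
  (hh.smooth.differentiable (by norm_num)).differentiableAt.hasDerivAt

theorem Adm.cd1 (hh : Adm h) : ContDiff ℝ 1 (deriv h) := by
  have h1 : ContDiff ℝ (1 + 1) h := by
    have := hh.smooth
    norm_num
    exact this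
  exact (contDiff_succ_iff_deriv.1 h1).2.2

theorem Adm.diff' (hh : Adm h) (θ : ℝ) : HasDerivAt (deriv h) (deriv (deriv h) θ) θ :=
  (hh.cd1.differentiable (by norm_num)).differentiableAt.hasDerivAt

theorem Adm.cont_deriv (hh : Adm h) : Continuous (deriv h) := hh.cd1.continuous

theorem Adm.cont_deriv2 (hh : Adm h) : Continuous (deriv (deriv h)) :=
  hh.cd1.continuous_deriv le_rfl

theorem deriv_per {f : ℝ → ℝ} {c : ℝ} (hf : ∀ θ, f (θ + c) = f θ) (θ : ℝ) :
    deriv f (θ + c) = deriv f θ := by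
  have h1 : (fun x => f (x + c)) = f := funext hf
  have h2 := deriv_comp_add_const f c θ
  rw [h1] at h2
  exact h2.symm

theorem continuous_rho (hh : Adm h) : Continuous (rho h) := hh.cd0.add hh.cont_deriv2

theorem rho_per (hh : Adm h) (θ : ℝ) : rho h (θ + 2 * π) = rho h θ := by
  unfold rho
  rw [hh.per, deriv_per (deriv_per hh.per)]

theorem hasDerivAt_ei (θ : ℝ) : HasDerivAt ei (Complex.I * ei θ) θ := by
  have h1 : HasDerivAt (fun θ : ℝ => (θ : ℂ) * Complex.I) Complex.I θ := by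
    have := (Complex.ofRealCLM.hasDerivAt (x := θ)).mul_const Complex.I
    simpa using this
  have h4 := h1.cexp
  rw [mul_comm]
  exact h4

theorem ei_neg_mul (θ : ℝ) : ei (-θ) * ei θ = 1 := by
  unfold ei
  rw [← Complex.exp_add]
  simp

theorem norm_ei (θ : ℝ) : ‖ei θ‖ = 1 := by
  unfold ei
  exact Complex.norm_exp_ofReal_mul_I θ

theorem continuous_ei : Continuous ei := by
  rw [continuous_iff_continuousAt]
  exact fun θ => (hasDerivAt_ei θ).continuousAt

theorem ei_per (θ : ℝ) : ei (θ + 2 * π) = ei θ := by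
  unfold ei
  have : ((θ + 2 * π : ℝ) : ℂ) * Complex.I = θ * Complex.I + 2 * π * Complex.I := by
    push_cast
    ring
  rw [this, Complex.exp_add, Complex.exp_two_pi_mul_I, mul_one]

theorem hasDerivAt_cur (hh : Adm h) (θ : ℝ) : HasDerivAt (cur h) (dcur h θ) θ := by
  have h1 : HasDerivAt (fun θ : ℝ => (((h θ : ℝ) : ℂ) + ((deriv h θ : ℝ) : ℂ) * Complex.I))
      (((deriv h θ : ℝ) : ℂ) + ((deriv (deriv h) θ : ℝ) : ℂ) * Complex.I) θ :=
    (hh.diff θ).ofReal_comp.add ((hh.diff' θ).ofReal_comp.mul_const Complex.I)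
  have h2 := (hasDerivAt_ei θ).mul h1
  refine h2.congr_deriv ?_
  unfold dcur rho
  push_cast
  linear_combination (ei θ * ((deriv h θ : ℝ) : ℂ)) * Complex.I_mul_I

theorem continuous_cur (hh : Adm h) : Continuous (cur h) := by
  rw [continuous_iff_continuousAt]
  exact fun θ => (hasDerivAt_cur hh θ).continuousAt

theorem continuous_dcur (hh : Adm h) : Continuous (dcur h) := by
  unfold dcur
  exact (continuous_const.mul continuous_ei).mul
    (Complex.continuous_ofReal.comp (continuous_rho hh))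

theorem cur_per (hh : Adm h) (θ : ℝ) : cur h (θ + 2 * π) = cur h θ := by
  unfold cur
  rw [ei_per, hh.per, deriv_per hh.per]

theorem dcur_per (hh : Adm h) (θ : ℝ) : dcur h (θ + 2 * π) = dcur h θ := by
  unfold dcur
  rw [ei_per, rho_per hh]

theorem sp_cur_self (θ : ℝ) : sp θ (cur h θ) = h θ := by
  unfold sp cur
  rw [← mul_assoc, ei_neg_mul, one_mul]
  simp

theorem sp_add (θ : ℝ) (z w : ℂ) : sp θ (z + w) = sp θ z + sp θ w := by
  unfold sp
  rw [mul_add, Complex.add_re]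

theorem sp_sub (θ : ℝ) (z w : ℂ) : sp θ (z - w) = sp θ z - sp θ w := by
  unfold sp
  rw [mul_sub, Complex.sub_re]

theorem sp_smul (θ q : ℝ) (z : ℂ) : sp θ (q * z) = q * sp θ z := by
  unfold sp
  rw [mul_left_comm, Complex.re_ofReal_mul]

theorem sp_le_norm (θ : ℝ) (z : ℂ) : sp θ z ≤ ‖z‖ := by
  unfold sp
  refine (Complex.re_le_norm _).trans ?_
  rw [norm_mul, norm_ei, one_mul]

/-- `Im (e^{-iθ} z)` -/
noncomputable def sq (θ : ℝ) (z : ℂ) : ℝ := (ei (-θ) * z).im

theorem hasDerivAt_ei_neg' (θ : ℝ) :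
    HasDerivAt (fun θ => ei (-θ)) (-Complex.I * ei (-θ)) θ := by
  have h1 := (hasDerivAt_ei (-θ)).scomp θ (hasDerivAt_neg θ)
  refine h1.congr_deriv ?_
  simp

theorem hasDerivAt_sp (z : ℂ) (θ : ℝ) : HasDerivAt (fun θ => sp θ z) (sq θ z) θ := by
  have h1 := (hasDerivAt_ei_neg' θ).mul_const z
  have h2 := Complex.reCLM.hasFDerivAt.comp_hasDerivAt θ h1
  refine h2.congr_deriv ?_
  show (-Complex.I * ei (-θ) * z).re = (ei (-θ) * z).im
  rw [mul_assoc]
  simp

theorem hasDerivAt_sq (z : ℂ) (θ : ℝ) : HasDerivAt (fun θ => sq θ z) (-sp θ z) θ := by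
  have h1 := (hasDerivAt_ei_neg' θ).mul_const z
  have h2 := Complex.imCLM.hasFDerivAt.comp_hasDerivAt θ h1
  refine h2.congr_deriv ?_
  show (-Complex.I * ei (-θ) * z).im = -(ei (-θ) * z).re
  rw [mul_assoc]
  simp

theorem sq_cur_self (θ : ℝ) : sq θ (cur h θ) = deriv h θ := by
  unfold sq cur
  rw [← mul_assoc, ei_neg_mul, one_mul]
  simp

/-- auxiliary function -/
noncomputable def Gaux (h : ℝ → ℝ) (z : ℂ) (t u : ℝ) : ℝ :=
  (deriv h u - sq u z) * Real.sin (t - u) + (h u - sp u z) * Real.cos (t - u)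

theorem hasDerivAt_Gaux (hh : Adm h) (z : ℂ) (t u : ℝ) :
    HasDerivAt (Gaux h z t) (rho h u * Real.sin (t - u)) u := by
  have h0 : HasDerivAt (fun u => t - u) (-1) u := by
    simpa using (hasDerivAt_id u).const_sub t
  have h1 : HasDerivAt (fun u => Real.sin (t - u)) (Real.cos (t - u) * (-1)) u := h0.sin
  have h2 : HasDerivAt (fun u => Real.cos (t - u)) (-Real.sin (t - u) * (-1)) u := h0.cos
  have h3 : HasDerivAt (fun u => deriv h u - sq u z) (deriv (deriv h) u - -sp u z) u :=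
    (hh.diff' u).sub (hasDerivAt_sq z u)
  have h4 : HasDerivAt (fun u => h u - sp u z) (deriv h u - sq u z) u :=
    (hh.diff u).sub (hasDerivAt_sp z u)
  refine ((h3.mul h1).add (h4.mul h2)).congr_deriv ?_
  unfold rho
  ring

theorem sp_cur_lt (hh : Adm h) {θ s : ℝ} (h1 : 0 < |θ - s|) (h2 : |θ - s| ≤ π) :
    sp θ (cur h s) < h θ := by
  have hs : Gaux h (cur h s) θ s = 0 := by
    unfold Gaux
    rw [sq_cur_self, sp_cur_self]
    ring
  have ht : Gaux h (cur h s) θ θ = h θ - sp θ (cur h s) := by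
    unfold Gaux
    rw [sub_self, Real.sin_zero, Real.cos_zero]
    ring
  have hc : Continuous (Gaux h (cur h s) θ) := by
    rw [continuous_iff_continuousAt]
    exact fun u => (hasDerivAt_Gaux hh _ _ u).continuousAt
  have h2' := abs_le.1 h2
  rcases lt_or_gt_of_ne (sub_ne_zero.1 (abs_pos.1 h1)) with hlt | hlt
  · -- θ < s
    have hmono : StrictAntiOn (Gaux h (cur h s) θ) (Set.Icc θ s) := by
      refine strictAntiOn_of_deriv_neg (convex_Icc θ s) hc.continuousOn fun u hu => ?_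
      rw [interior_Icc] at hu
      rw [(hasDerivAt_Gaux hh _ _ u).deriv]
      refine mul_neg_of_pos_of_neg (hh.rho_pos u) ?_
      refine Real.sin_neg_of_neg_of_neg_pi_lt (by linarith [hu.1]) (by linarith [hu.2])
    have := hmono (Set.left_mem_Icc.2 hlt.le) (Set.right_mem_Icc.2 hlt.le) hlt
    linarith
  · have hmono : StrictMonoOn (Gaux h (cur h s) θ) (Set.Icc s θ) := by
      refine strictMonoOn_of_deriv_pos (convex_Icc s θ) hc.continuousOn fun u hu => ?_
      rw [interior_Icc] at hu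
      rw [(hasDerivAt_Gaux hh _ _ u).deriv]
      refine mul_pos (hh.rho_pos u) ?_
      exact Real.sin_pos_of_pos_of_lt_pi (by linarith [hu.2]) (by linarith [hu.1])
    have hlt' : s < θ := hlt
    have := hmono (Set.left_mem_Icc.2 hlt'.le) (Set.right_mem_Icc.2 hlt'.le) hlt'
    linarith

theorem exists_shift (θ s : ℝ) : ∃ n : ℤ, |θ - (s + n * (2 * π))| ≤ π := by
  have hpi := Real.pi_pos
  refine ⟨round ((θ - s) / (2 * π)), ?_⟩
  have h1 := abs_sub_round ((θ - s) / (2 * π))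
  have h2 : θ - (s + (round ((θ - s) / (2 * π)) : ℝ) * (2 * π)) =
      ((θ - s) / (2 * π) - round ((θ - s) / (2 * π))) * (2 * π) := by
    field_simp
    ring
  rw [h2, abs_mul, abs_of_pos (by positivity : (0 : ℝ) < 2 * π)]
  nlinarith

theorem cur_shift (hh : Adm h) (s : ℝ) (n : ℤ) : cur h (s + n * (2 * π)) = cur h s := by
  have hp : Function.Periodic (cur h) (2 * π) := cur_per hh
  exact hp.int_mul n s

/-- the curve is on the correct side of each of its tangent lines -/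
theorem sp_cur_le (hh : Adm h) (θ s : ℝ) : sp θ (cur h s) ≤ h θ := by
  obtain ⟨n, hn⟩ := exists_shift θ s
  rw [← cur_shift hh s n]
  rcases eq_or_ne θ (s + n * (2 * π)) with h1 | h1
  · rw [← h1, sp_cur_self]
  · exact (sp_cur_lt hh (abs_pos.2 (sub_ne_zero.2 h1)) hn).le

theorem cur_ne (hh : Adm h) {t s : ℝ} (h1 : 0 < |t - s|) (h2 : |t - s| ≤ π) :
    cur h t ≠ cur h s := by
  intro h3
  have h4 := sp_cur_lt hh h1 h2
  rw [← h3, sp_cur_self] at h4
  exact lt_irrefl _ h4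

theorem sp_lt_of_scale (hh : Adm h) {q : ℝ} (hq0 : 0 ≤ q) (hq1 : q < 1) (θ s : ℝ) :
    sp θ (q * cur h s) < h θ := by
  rw [sp_smul]
  have h1 := sp_cur_le hh θ s
  have h2 := hh.pos θ
  nlinarith

theorem norm_sub_ge (hh : Adm h) {q : ℝ} (hq0 : 0 ≤ q) (hq1 : q ≤ 1) (t s : ℝ) :
    (1 - q) * h t ≤ ‖cur h t - q * cur h s‖ := by
  refine le_trans ?_ (sp_le_norm t _)
  rw [sp_sub, sp_cur_self, sp_smul]
  have h1 := sp_cur_le hh t s
  nlinarith

theorem im_div (t : ℝ) (z : ℂ) : (dcur h t / (cur h t - z)).im = ker h z t := by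
  unfold ker
  have h1 : h t - sp t z = (ei (-t) * (cur h t - z)).re := by
    have := sp_sub t (cur h t) z
    rw [sp_cur_self] at this
    exact this.symm
  rw [h1]
  set w := cur h t - z with hw
  have h2 : (ei t).re = (ei (-t)).re ∧ (ei t).im = -(ei (-t)).im := by
    unfold ei
    constructor
    · rw [Complex.exp_ofReal_mul_I_re, Complex.exp_ofReal_mul_I_re, Real.cos_neg]
    · rw [Complex.exp_ofReal_mul_I_im, Complex.exp_ofReal_mul_I_im, Real.sin_neg, neg_neg]
  rw [Complex.div_im, Complex.normSq_eq_norm_sq]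
  unfold dcur
  simp only [Complex.mul_re, Complex.mul_im, Complex.I_re, Complex.I_im, Complex.ofReal_re,
    Complex.ofReal_im]
  rw [h2.1, h2.2]
  ring

theorem ker_nonneg (hh : Adm h) {z : ℂ} (hz : ∀ θ, sp θ z ≤ h θ) (t : ℝ) : 0 ≤ ker h z t := by
  unfold ker
  have h1 := hh.rho_pos t
  have h2 := hz t
  have h3 : 0 ≤ h t - sp t z := by linarith
  positivity

theorem dist_lower (hh : Adm h) (r : ℝ) (hr : 0 < r) :
    ∃ c : ℝ, 0 < c ∧ ∀ q : ℝ, 0 ≤ q → q ≤ 1 → ∀ s t : ℝ, r ≤ |t - s| → |t - s| ≤ π →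
      c ≤ ‖cur h t - q * cur h s‖ := by
  let Kset : Set (ℝ × ℝ × ℝ) := {x | 0 ≤ x.1 ∧ x.1 ≤ 1 ∧ 0 ≤ x.2.1 ∧ x.2.1 ≤ 2 * π ∧
    r ≤ |x.2.2 - x.2.1| ∧ |x.2.2 - x.2.1| ≤ π}
  have hpi := Real.pi_pos
  have hK : IsCompact Kset := by
    have h1 : IsCompact (Set.Icc (0 : ℝ) 1 ×ˢ (Set.Icc (0 : ℝ) (2 * π) ×ˢ
        Set.Icc (-π) (3 * π))) := isCompact_Icc.prod (isCompact_Icc.prod isCompact_Icc)
    refine h1.of_isClosed_subset ?_ ?_
    · simp only [Kset, Set.ofPred_and]
      refine (isClosed_le continuous_const continuous_fst).inter ((isClosed_le continuous_fst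
        continuous_const).inter ((isClosed_le continuous_const (by fun_prop)).inter
        ((isClosed_le (by fun_prop) continuous_const).inter ((isClosed_le continuous_const
        (by fun_prop)).inter (isClosed_le (by fun_prop) continuous_const)))))
    · rintro ⟨q, s, t⟩ ⟨hq0, hq1, hs0, hs1, -, ht⟩
      have ht' := abs_le.1 ht
      exact ⟨⟨hq0, hq1⟩, ⟨hs0, hs1⟩, ⟨by linarith [ht'.1], by linarith [ht'.2]⟩⟩
  have hΦ : Continuous (fun x : ℝ × ℝ × ℝ => ‖cur h x.2.2 - x.1 * cur h x.2.1‖) := by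
    have := continuous_cur hh
    fun_prop
  have hpos : ∀ x ∈ Kset, 0 < ‖cur h x.2.2 - x.1 * cur h x.2.1‖ := by
    rintro ⟨q, s, t⟩ ⟨hq0, hq1, -, -, hrt, ht⟩
    rcases hq1.eq_or_lt with hq | hq
    · have hq' : q = 1 := hq
      subst hq'
      show 0 < ‖cur h t - ((1 : ℝ) : ℂ) * cur h s‖
      rw [Complex.ofReal_one, one_mul, norm_pos_iff, sub_ne_zero]
      exact cur_ne hh (lt_of_lt_of_le hr hrt) ht
    · have h1 := norm_sub_ge hh hq0 hq1 t s
      have h2 := hh.pos t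
      have h3 : 0 < 1 - q := by
        have : q < 1 := hq
        linarith
      exact lt_of_lt_of_le (mul_pos h3 h2) h1
  obtain ⟨c, hc, hcK⟩ : ∃ c : ℝ, 0 < c ∧ ∀ x ∈ Kset, c ≤ ‖cur h x.2.2 - x.1 * cur h x.2.1‖ := by
    rcases Kset.eq_empty_or_nonempty with he | hne
    · refine ⟨1, one_pos, fun x hx => ?_⟩
      rw [he] at hx
      exact hx.elim
    · obtain ⟨x, hx, hmin⟩ := hK.exists_isMinOn hne hΦ.continuousOn
      exact ⟨_, hpos x hx, fun y hy => hmin hy⟩
  refine ⟨c, hc, fun q hq0 hq1 s t hrt ht => ?_⟩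
  -- shift `s` to `[0, 2π]`
  obtain ⟨n, hn⟩ := exists_shift π s
  have hn' := abs_le.1 hn
  have h1 := hcK (q, s + n * (2 * π), t + n * (2 * π)) ⟨hq0, hq1, by
    show 0 ≤ s + n * (2 * π)
    linarith [hn'.2], by
    show s + n * (2 * π) ≤ 2 * π
    linarith [hn'.1], by
    show r ≤ |t + n * (2 * π) - (s + n * (2 * π))|
    rwa [add_sub_add_right_eq_sub], by
    show |t + n * (2 * π) - (s + n * (2 * π))| ≤ π
    rwa [add_sub_add_right_eq_sub]⟩
  have h2 : c ≤ ‖cur h (t + n * (2 * π)) - q * cur h (s + n * (2 * π))‖ := h1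
  rwa [cur_shift hh, cur_shift hh] at h2

end Vale.Agent.P123
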