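import Vale.Agent.Lib.P123.Curve

namespace Vale.Agent.P123

open MeasureTheory
open scoped Real

variable {h : ℝ → ℝ}

theorem ei_ne_zero (θ : ℝ) : ei θ ≠ 0 := Complex.exp_ne_zero _

theorem ei_mul_neg (θ : ℝ) : ei θ * ei (-θ) = 1 := by
  unfold ei
  rw [← Complex.exp_add]
  simp

theorem ei_add_two_pi (θ : ℝ) : ei (θ + 2 * π) = ei θ := by
  unfold ei
  have : ((θ + 2 * π : ℝ) : ℂ) * Complex.I = θ * Complex.I + 2 * π * Complex.I := by
    push_cast
    ring
  rw [this, Complex.exp_add, Complex.exp_two_pi_mul_I, mul_one]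

theorem hasDerivAt_ei_neg (θ : ℝ) :
    HasDerivAt (fun θ => ei (-θ)) (-Complex.I * ei (-θ)) θ := by
  unfold ei
  have h1 : HasDerivAt (fun θ : ℝ => ((-θ : ℝ) : ℂ) * Complex.I) (-Complex.I) θ := by
    have h2 : HasDerivAt (fun θ : ℝ => ((-θ : ℝ) : ℂ)) (((-1 : ℝ) : ℝ) : ℂ) θ :=
      (hasDerivAt_neg θ).ofReal_comp
    have h3 := h2.mul_const Complex.I
    simpa using h3
  have h4 := h1.cexp
  rw [mul_comm]
  exact h4

theorem continuous_ei_neg : Continuous (fun θ => ei (-θ)) := by
  rw [continuous_iff_continuousAt]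
  exact fun θ => (hasDerivAt_ei_neg θ).continuousAt

/-- rotated difference -/
theorem rot_re (_hh : Adm h) (z : ℂ) (t : ℝ) :
    (ei (-t) * (cur h t - z)).re = h t - sp t z := by
  rw [mul_sub, Complex.sub_re]
  have := sp_cur_self (h := h) t
  unfold sp at this ⊢
  rw [this]

theorem cur_sub_ne (hh : Adm h) (z : ℂ) (hz : ∀ θ, sp θ z < h θ) (t : ℝ) : cur h t - z ≠ 0 := by
  intro h0
  have := rot_re hh z t
  rw [h0, mul_zero, Complex.zero_re] at this
  have := hz t
  linarith

theorem continuous_log_deriv (hh : Adm h) (z : ℂ) (hz : ∀ θ, sp θ z < h θ) :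
    Continuous (fun t => dcur h t / (cur h t - z)) :=
  (continuous_dcur hh).div ((continuous_cur hh).sub continuous_const) (cur_sub_ne hh z hz)

/-- winding number of the curve around an inside point -/
theorem integral_inside (hh : Adm h) (z : ℂ) (hz : ∀ θ, sp θ z < h θ) :
    ∫ t in (0 : ℝ)..(2 * π), dcur h t / (cur h t - z) = 2 * π * Complex.I := by
  let w : ℝ → ℂ := fun t => ei (-t) * (cur h t - z)
  have hw : ∀ t, 0 < (w t).re := fun t => by
    rw [show (w t).re = _ from rot_re hh z t]
    linarith [hz t]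
  have hslit : ∀ t, w t ∈ Complex.slitPlane := fun t => Or.inl (hw t)
  have hwd : ∀ t, HasDerivAt w (-Complex.I * ei (-t) * (cur h t - z) + ei (-t) * dcur h t) t := by
    intro t
    exact (hasDerivAt_ei_neg t).mul ((hasDerivAt_cur hh t).sub_const z)
  have hF : ∀ t, HasDerivAt (fun t : ℝ => (t : ℂ) * Complex.I + Complex.log (w t))
      (dcur h t / (cur h t - z)) t := by
    intro t
    have h1 : HasDerivAt (fun t : ℝ => (t : ℂ) * Complex.I) Complex.I t := by
      have := (Complex.ofRealCLM.hasDerivAt (x := t)).mul_const Complex.I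
      simpa using this
    have h2 := (hwd t).clog_real (hslit t)
    refine (h1.add h2).congr_deriv ?_
    have hne := cur_sub_ne hh z hz t
    have hne2 := ei_ne_zero (-t)
    have key : ∀ e c d : ℂ, e ≠ 0 → c ≠ 0 →
        Complex.I + (-Complex.I * e * c + e * d) / (e * c) = d / c := by
      intro e c d he hc
      field_simp
      ring
    exact key _ _ _ hne2 hne
  rw [intervalIntegral.integral_eq_sub_of_hasDerivAt (fun t _ => hF t)
    ((continuous_log_deriv hh z hz).intervalIntegrable _ _)]
  have hper : w (2 * π) = w 0 := by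
    show ei (-(2 * π)) * (cur h (2 * π) - z) = ei (-0) * (cur h 0 - z)
    have h1 : cur h (2 * π) = cur h 0 := by
      have := cur_per hh 0
      rwa [zero_add] at this
    have h2 : ei (-(2 * π)) = ei (-0) := by
      have := ei_add_two_pi (-(2 * π))
      rw [neg_add_cancel] at this
      rw [← this, neg_zero]
    rw [h1, h2]
  rw [hper]
  push_cast
  ring

theorem ker_eq (z : ℂ) : ker h z = fun t => (dcur h t / (cur h t - z)).im :=
  funext fun t => (im_div t z).symm

theorem continuous_ker_inside (hh : Adm h) (z : ℂ) (hz : ∀ θ, sp θ z < h θ) :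
    Continuous (ker h z) := by
  rw [ker_eq]
  exact Complex.continuous_im.comp (continuous_log_deriv hh z hz)

theorem integral_ker_inside (hh : Adm h) (z : ℂ) (hz : ∀ θ, sp θ z < h θ) (s : ℝ) :
    ∫ t in (s - π)..(s + π), ker h z t = 2 * π := by
  have hp : Function.Periodic (ker h z) (2 * π) := by
    intro t
    rw [ker_eq]
    show (dcur h (t + 2 * π) / (cur h (t + 2 * π) - z)).im = _
    rw [dcur_per hh, cur_per hh]
  have h1 := hp.intervalIntegral_add_eq (s - π) 0
  rw [zero_add, show s - π + 2 * π = s + π by ring] at h1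
  rw [h1, ker_eq]
  have h2 := Complex.imCLM.intervalIntegral_comp_comm
    ((continuous_log_deriv hh z hz).intervalIntegrable (μ := volume) 0 (2 * π))
  have h3 : ∫ t in (0 : ℝ)..(2 * π), (dcur h t / (cur h t - z)).im =
    (∫ t in (0 : ℝ)..(2 * π), dcur h t / (cur h t - z)).im := h2
  rw [h3, integral_inside hh z hz]
  simp

/-- winding number around an outside point -/
theorem integral_outside (hh : Adm h) (t₀ r : ℝ) (h0 : 0 ≤ r) (h1 : r < 1) :
    ∫ t in (0 : ℝ)..(2 * π), dcur h t / (cur h t₀ - r * cur h t) = 0 := by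
  have hre : ∀ t, 0 < (ei (-t₀) * (cur h t₀ - r * cur h t)).re := by
    intro t
    rw [rot_re hh]
    linarith [sp_lt_of_scale hh h0 h1 t₀ t]
  have hne : ∀ t, cur h t₀ - r * cur h t ≠ 0 := by
    intro t h
    have := hre t
    rw [h, mul_zero, Complex.zero_re] at this
    exact lt_irrefl _ this
  have hcont : Continuous (fun t => dcur h t / (cur h t₀ - r * cur h t)) :=
    (continuous_dcur hh).div (continuous_const.sub (continuous_const.mul (continuous_cur hh))) hne
  have hc2 : cur h (2 * π) = cur h 0 := by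
    have := cur_per hh 0
    rwa [zero_add] at this
  rcases h0.eq_or_lt with h0 | h0
  · subst h0
    have : ∀ t, dcur h t / (cur h t₀ - ((0 : ℝ) : ℂ) * cur h t) = dcur h t * (cur h t₀)⁻¹ := by
      intro t
      rw [Complex.ofReal_zero, zero_mul, sub_zero, div_eq_mul_inv]
    simp only [this]
    rw [intervalIntegral.integral_mul_const, intervalIntegral.integral_eq_sub_of_hasDerivAt
      (fun t _ => hasDerivAt_cur hh t) ((continuous_dcur hh).intervalIntegrable _ _), hc2,
      sub_self, zero_mul]
  · have hF : ∀ t, HasDerivAt (fun t : ℝ => Complex.log (ei (-t₀) * (cur h t₀ - r * cur h t)))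
        (-(r : ℂ) * (dcur h t / (cur h t₀ - r * cur h t))) t := by
      intro t
      have h2 : HasDerivAt (fun t : ℝ => ei (-t₀) * (cur h t₀ - r * cur h t))
          (ei (-t₀) * (-(r * dcur h t))) t :=
        (((hasDerivAt_cur hh t).const_mul (r : ℂ)).const_sub (cur h t₀)).const_mul (ei (-t₀))
      refine (h2.clog_real (Or.inl (hre t))).congr_deriv ?_
      have hne1 := hne t
      have hne2 := ei_ne_zero (-t₀)
      field_simp
    have h4 : ∫ t in (0 : ℝ)..(2 * π), (-(r : ℂ) * (dcur h t / (cur h t₀ - r * cur h t))) = 0 := by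
      rw [intervalIntegral.integral_eq_sub_of_hasDerivAt (fun t _ => hF t)
        ((continuous_const.mul hcont).intervalIntegrable _ _), hc2, sub_self]
    rw [intervalIntegral.integral_const_mul] at h4
    have hr : -(r : ℂ) ≠ 0 := by
      rw [neg_ne_zero]
      exact_mod_cast h0.ne'
    exact (mul_eq_zero.1 h4).resolve_left hr

/-- `(cur t - cur s) / ((t - s) i e^{is})`, extended continuously -/
noncomputable def DD (h : ℝ → ℝ) (s t : ℝ) : ℂ := dslope (cur h) s t * (-Complex.I * ei (-s))

theorem DD_ne {s t : ℝ} (hst : t ≠ s) :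
    DD h s t = ((t - s)⁻¹ : ℝ) • (-Complex.I * (ei (-s) * (cur h t - cur h s))) := by
  unfold DD
  rw [dslope_of_ne _ hst, slope_def_module, Complex.real_smul, Complex.real_smul]
  ring

theorem DD_same (hh : Adm h) (s : ℝ) : DD h s s = rho h s := by
  unfold DD
  rw [dslope_same, (hasDerivAt_cur hh s).deriv]
  unfold dcur
  have := ei_mul_neg s
  linear_combination (-Complex.I * Complex.I * rho h s) * this + (-(rho h s : ℂ)) * Complex.I_mul_I

theorem DD_im {s t : ℝ} (hst : t ≠ s) :
    (DD h s t).im = (t - s)⁻¹ * (h s - sp s (cur h t)) := by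
  rw [DD_ne hst, Complex.smul_im, smul_eq_mul]
  congr 1
  have h1 : (-Complex.I * (ei (-s) * (cur h t - cur h s))).im =
      -(ei (-s) * (cur h t - cur h s)).re := by
    simp
  rw [h1, mul_sub, Complex.sub_re]
  have := sp_cur_self (h := h) s
  unfold sp at this ⊢
  rw [this]
  ring

theorem DD_slit (hh : Adm h) {s t : ℝ} (hst : |t - s| ≤ π) : DD h s t ∈ Complex.slitPlane := by
  rcases eq_or_ne t s with rfl | hne
  · rw [DD_same hh]
    exact Or.inl (by exact_mod_cast hh.rho_pos t)
  · refine Or.inr ?_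
    rw [DD_im hne]
    have h1 : 0 < |s - t| := abs_pos.2 (sub_ne_zero.2 hne.symm)
    have h2 := sp_cur_lt hh h1 (by rwa [abs_sub_comm])
    exact mul_ne_zero (inv_ne_zero (sub_ne_zero.2 hne)) (by linarith)

theorem DD_continuousAt (hh : Adm h) (s t : ℝ) : ContinuousAt (DD h s) t := by
  unfold DD
  refine ContinuousAt.mul ?_ continuousAt_const
  rcases eq_or_ne t s with rfl | hne
  · exact continuousAt_dslope_same.2 (hasDerivAt_cur hh t).differentiableAt
  · exact (continuousAt_dslope_of_ne hne).2 (continuous_cur hh).continuousAt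

theorem DD_hasDerivAt (hh : Adm h) {s t : ℝ} (hne : t ≠ s) (hst : |t - s| ≤ π) :
    HasDerivAt (fun t => (Complex.log (DD h s t)).im) (ker h (cur h s) t) t := by
  have hne' : (t : ℂ) - s ≠ 0 := by
    rw [sub_ne_zero]
    exact_mod_cast hne
  have hcne : cur h t - cur h s ≠ 0 := by
    rw [sub_ne_zero]
    exact cur_ne hh (abs_pos.2 (sub_ne_zero.2 hne)) hst
  have h1 : HasDerivAt (fun t : ℝ => ((t : ℂ) - s)⁻¹) (-1 / ((t : ℂ) - s) ^ 2) t := by
    have h2 : HasDerivAt (fun t : ℝ => (t : ℂ) - s) 1 t := by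
      have := (Complex.ofRealCLM.hasDerivAt (x := t)).sub_const (s : ℂ)
      simpa using this
    exact h2.inv hne'
  have h2 : HasDerivAt (fun t : ℝ => ((t : ℂ) - s)⁻¹ *
      (-Complex.I * (ei (-s) * (cur h t - cur h s))))
      (-1 / ((t : ℂ) - s) ^ 2 * (-Complex.I * (ei (-s) * (cur h t - cur h s))) +
        ((t : ℂ) - s)⁻¹ * (-Complex.I * (ei (-s) * dcur h t))) t :=
    h1.mul ((((hasDerivAt_cur hh t).sub_const _).const_mul _).const_mul _)
  have h3 : (fun t : ℝ => ((t : ℂ) - s)⁻¹ *
      (-Complex.I * (ei (-s) * (cur h t - cur h s)))) =ᶠ[nhds t] DD h s := by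
    filter_upwards [isOpen_ne.mem_nhds hne] with u hu
    rw [DD_ne hu, Complex.real_smul]
    push_cast
    rfl
  have h4 := (h2.congr_of_eventuallyEq h3.symm).clog_real (DD_slit hh hst)
  have h5 := Complex.imCLM.hasFDerivAt.comp_hasDerivAt t h4
  have h6 : ker h (cur h s) t = Complex.imCLM ((-1 / ((t : ℂ) - s) ^ 2 *
      (-Complex.I * (ei (-s) * (cur h t - cur h s))) +
        ((t : ℂ) - s)⁻¹ * (-Complex.I * (ei (-s) * dcur h t))) / DD h s t) := by
    have h7 : (-1 / ((t : ℂ) - s) ^ 2 *
      (-Complex.I * (ei (-s) * (cur h t - cur h s))) +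
        ((t : ℂ) - s)⁻¹ * (-Complex.I * (ei (-s) * dcur h t))) / DD h s t =
        dcur h t / (cur h t - cur h s) - (((t - s)⁻¹ : ℝ) : ℂ) := by
      rw [← h3.eq_of_nhds]
      have := ei_ne_zero (-s)
      have := Complex.I_ne_zero
      push_cast
      field_simp
      ring
    rw [h7, ← im_div]
    show _ = (dcur h t / (cur h t - cur h s) - (((t - s)⁻¹ : ℝ) : ℂ)).im
    rw [Complex.sub_im, Complex.ofReal_im, sub_zero]
  rw [h6]
  exact h5

theorem DD_log_continuousOn (hh : Adm h) (s : ℝ) :
    ContinuousOn (fun t => (Complex.log (DD h s t)).im) (Set.Icc (s - π) (s + π)) := by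
  intro t ht
  have h1 : |t - s| ≤ π := abs_le.2 ⟨by linarith [ht.1], by linarith [ht.2]⟩
  exact (Complex.continuous_im.continuousAt.comp
    ((DD_continuousAt hh s t).clog (DD_slit hh h1))).continuousWithinAt

theorem ker_nonneg' (hh : Adm h) (s t : ℝ) : 0 ≤ ker h (cur h s) t :=
  ker_nonneg hh (fun θ => sp_cur_le hh θ s) t

theorem intervalIntegrable_ker_left (hh : Adm h) (s : ℝ) :
    IntervalIntegrable (ker h (cur h s)) volume (s - π) s := by
  rw [intervalIntegrable_iff_integrableOn_Ioc_of_le (by linarith [Real.pi_pos])]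
  refine intervalIntegral.integrableOn_deriv_of_nonneg
    ((DD_log_continuousOn hh s).mono (Set.Icc_subset_Icc le_rfl (by linarith [Real.pi_pos]))) ?_ ?_
  · intro t ht
    exact DD_hasDerivAt hh ht.2.ne (abs_le.2 ⟨by linarith [ht.1], by linarith [ht.2, Real.pi_pos]⟩)
  · intro t _
    exact ker_nonneg' hh s t

theorem intervalIntegrable_ker_right (hh : Adm h) (s : ℝ) :
    IntervalIntegrable (ker h (cur h s)) volume s (s + π) := by
  rw [intervalIntegrable_iff_integrableOn_Ioc_of_le (by linarith [Real.pi_pos])]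
  refine intervalIntegral.integrableOn_deriv_of_nonneg
    ((DD_log_continuousOn hh s).mono (Set.Icc_subset_Icc (by linarith [Real.pi_pos]) le_rfl)) ?_ ?_
  · intro t ht
    exact DD_hasDerivAt hh ht.1.ne' (abs_le.2 ⟨by linarith [ht.1, Real.pi_pos], by linarith [ht.2]⟩)
  · intro t _
    exact ker_nonneg' hh s t

/-- the curve is seen from each of its points under an angle at most `π` -/
theorem intervalIntegrable_ker (hh : Adm h) (s : ℝ) :
    IntervalIntegrable (ker h (cur h s)) volume (s - π) (s + π) :=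
  (intervalIntegrable_ker_left hh s).trans (intervalIntegrable_ker_right hh s)

theorem Th_eq (hh : Adm h) (s : ℝ) : Th h s = π := by
  unfold Th
  have hpi := Real.pi_pos
  rw [← intervalIntegral.integral_add_adjacent_intervals (intervalIntegrable_ker_left hh s)
    (intervalIntegrable_ker_right hh s)]
  rw [intervalIntegral.integral_eq_sub_of_hasDerivAt_of_le (by linarith)
    ((DD_log_continuousOn hh s).mono (Set.Icc_subset_Icc le_rfl (by linarith)))
    (fun t ht => DD_hasDerivAt hh ht.2.ne (abs_le.2 ⟨by linarith [ht.1], by linarith [ht.2]⟩))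
    (intervalIntegrable_ker_left hh s)]
  rw [intervalIntegral.integral_eq_sub_of_hasDerivAt_of_le (by linarith)
    ((DD_log_continuousOn hh s).mono (Set.Icc_subset_Icc (by linarith) le_rfl))
    (fun t ht => DD_hasDerivAt hh ht.1.ne' (abs_le.2 ⟨by linarith [ht.1], by linarith [ht.2]⟩))
    (intervalIntegrable_ker_right hh s)]
  set ζ : ℂ := -Complex.I * (ei (-s) * (cur h (s + π) - cur h s)) with hζ
  have hper : cur h (s - π) = cur h (s + π) := by
    have := cur_per hh (s - π)
    rw [show s - π + 2 * π = s + π by ring] at this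
    exact this.symm
  have h1 : (Complex.log (DD h s (s + π))).im = Complex.arg ζ := by
    have hne : s + π ≠ s := by linarith
    rw [Complex.log_im, DD_ne hne, Complex.real_smul, add_sub_cancel_left,
      Complex.arg_real_mul _ (inv_pos.2 hpi)]
  have h2 : (Complex.log (DD h s (s - π))).im = Complex.arg (-ζ) := by
    have hne : s - π ≠ s := by linarith
    rw [Complex.log_im, DD_ne hne, Complex.real_smul, hper]
    have h3 : (((s - π - s)⁻¹ : ℝ) : ℂ) * (-Complex.I * (ei (-s) * (cur h (s + π) - cur h s))) =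
        ((π⁻¹ : ℝ) : ℂ) * (-ζ) := by
      rw [show s - π - s = -π by ring, inv_neg, hζ]
      push_cast
      ring
    rw [h3, Complex.arg_real_mul _ (inv_pos.2 hpi)]
  have him : 0 < ζ.im := by
    have h3 : ζ.im = h s - sp s (cur h (s + π)) := by
      have h4 : (-Complex.I * (ei (-s) * (cur h (s + π) - cur h s))).im =
          -(ei (-s) * (cur h (s + π) - cur h s)).re := by
        simp
      rw [hζ, h4, mul_sub, Complex.sub_re]
      have := sp_cur_self (h := h) s
      unfold sp at this ⊢
      rw [this]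
      ring
    have h5 : |s - (s + π)| = π := by
      rw [show s - (s + π) = -π by ring, abs_neg, abs_of_pos hpi]
    have h6 := sp_cur_lt hh (θ := s) (s := s + π) (by rw [h5]; exact hpi) h5.le
    linarith
  rw [h1, h2, Complex.arg_neg_eq_arg_sub_pi_of_im_pos him]
  ring

theorem Th_le (hh : Adm h) (s : ℝ) : Th h s ≤ π := (Th_eq hh s).le

end Vale.Agent.P123
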