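import Mathlib

/-!
P123 (Crouzeix): definitions.

A convex curve is given by its support function `h`: `cur h θ = e^{iθ} (h θ + i h' θ)` is the
boundary point with outer normal `e^{iθ}` and `cur' = i e^{iθ} (h + h'')`.
-/

namespace Vale.Agent.P123

open MeasureTheory
open scoped Real InnerProductSpace BoundedContinuousFunction

/-- `e^{iθ}` -/
noncomputable def ei (θ : ℝ) : ℂ := Complex.exp (θ * Complex.I)

/-- `Re (e^{-iθ} z)` -/
noncomputable def sp (θ : ℝ) (z : ℂ) : ℝ := (ei (-θ) * z).re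

/-- radius of curvature `h + h''` -/
noncomputable def rho (h : ℝ → ℝ) (θ : ℝ) : ℝ := h θ + deriv (deriv h) θ

/-- the curve with support function `h` -/
noncomputable def cur (h : ℝ → ℝ) (θ : ℝ) : ℂ :=
  ei θ * (((h θ : ℝ) : ℂ) + ((deriv h θ : ℝ) : ℂ) * Complex.I)

/-- the derivative of the curve -/
noncomputable def dcur (h : ℝ → ℝ) (θ : ℝ) : ℂ := Complex.I * ei θ * (rho h θ : ℂ)

/-- the kernel `Im (γ'(t) / (γ(t) - z))` -/
noncomputable def ker (h : ℝ → ℝ) (z : ℂ) (t : ℝ) : ℝ :=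
  rho h t * (h t - sp t z) / ‖cur h t - z‖ ^ 2

/-- smooth, strictly convex, `0` strictly inside -/
structure Adm (h : ℝ → ℝ) : Prop where
  smooth : ContDiff ℝ 2 h
  per : ∀ θ, h (θ + 2 * π) = h θ
  rho_pos : ∀ θ, 0 < rho h θ
  pos : ∀ θ, 0 < h θ

/-- total angle under which the curve is seen from its point `cur h s` -/
noncomputable def Th (h : ℝ → ℝ) (s : ℝ) : ℝ := ∫ t in (s - π)..(s + π), ker h (cur h s) t

/-- the Neumann-Poincare operator -/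
noncomputable def np (h : ℝ → ℝ) (k : ℝ → ℂ) (s : ℝ) : ℂ :=
  ((1 - Th h s / π : ℝ) : ℂ) * k s
    + (1 / π : ℂ) * ∫ t in (s - π)..(s + π), ((ker h (cur h s) t : ℝ) : ℂ) * k t

variable {H : Type*} [NormedAddCommGroup H] [InnerProductSpace ℂ H] [CompleteSpace H]

/-- the numerical range of `A` is inside the curve, at distance `δ` -/
structure AdmA (h : ℝ → ℝ) (A : H →L[ℂ] H) (δ : ℝ) : Prop where
  δ_pos : 0 < δ
  le_h : ∀ θ, δ ≤ h θ
  num : ∀ θ (x : H), ‖x‖ = 1 → sp θ ⟪x, A x⟫_ℂ + δ ≤ h θ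

/-- `(γ(t) - ρ A)⁻¹` -/
noncomputable def res (h : ℝ → ℝ) (A : H →L[ℂ] H) (r : ℝ) (t : ℝ) : H →L[ℂ] H :=
  Ring.inverse (algebraMap ℂ (H →L[ℂ] H) (cur h t) - (r : ℂ) • A)

/-- the Cauchy integral `(2πi)⁻¹ ∮ k(σ) (σ - A)⁻¹ dσ` -/
noncomputable def TC (h : ℝ → ℝ) (A : H →L[ℂ] H) (k : ℝ → ℂ) : H →L[ℂ] H :=
  (2 * π * Complex.I : ℂ)⁻¹ • ∫ t in (0 : ℝ)..(2 * π), (k t * dcur h t) • res h A 1 t

/-- bundling a bounded continuous function -/
noncomputable def bcf (f : ℝ → ℂ) : ℝ →ᵇ ℂ := by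
  classical
  exact if hf : Continuous f ∧ ∃ C, ∀ x, ‖f x‖ ≤ C then
    BoundedContinuousFunction.ofNormedAddCommGroup f hf.1 hf.2.choose hf.2.choose_spec
  else 0

theorem bcf_apply {f : ℝ → ℂ} (hf : Continuous f) (C : ℝ) (hC : ∀ x, ‖f x‖ ≤ C) (x : ℝ) :
    bcf f x = f x := by
  unfold bcf
  rw [dif_pos ⟨hf, C, hC⟩]
  rfl

/-- the generators `(s ↦ (γ(t) - ρ γ(s))⁻¹, (γ(t) - ρ A)⁻¹)` -/
noncomputable def gen (h : ℝ → ℝ) (A : H →L[ℂ] H) (r t : ℝ) : (ℝ →ᵇ ℂ) × (H →L[ℂ] H) :=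
  (bcf (fun s => (cur h t - r * cur h s)⁻¹), res h A r t)

/-- closed span of the generators, a closed subalgebra -/
noncomputable def GG (h : ℝ → ℝ) (A : H →L[ℂ] H) : Submodule ℂ ((ℝ →ᵇ ℂ) × (H →L[ℂ] H)) :=
  (Submodule.span ℂ {p | ∃ r t : ℝ, 0 ≤ r ∧ r < 1 ∧ p = gen h A r t}).topologicalClosure

end Vale.Agent.P123
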