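import Vale.Agent.Lib.P123.AlgB
import Vale.Agent.Lib.P123.Abs

namespace Vale.Agent.P123

open MeasureTheory Polynomial
open scoped Real InnerProductSpace BoundedContinuousFunction

variable {H : Type*} [NormedAddCommGroup H] [InnerProductSpace ℂ H] [CompleteSpace H]

theorem intervalIntegrable_ker_mul {h : ℝ → ℝ} (hh : Adm h) (s : ℝ) (k : ℝ →ᵇ ℂ) :
    IntervalIntegrable (fun t => ((ker h (cur h s) t : ℝ) : ℂ) * k t) volume (s - π) (s + π) := by
  have h1 : IntervalIntegrable (fun t => ((ker h (cur h s) t : ℝ) : ℂ)) volume (s - π) (s + π) := by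
    have := intervalIntegrable_ker hh s
    constructor
    · exact this.1.ofReal
    · exact this.2.ofReal
  exact h1.mul_continuousOn k.continuous.continuousOn

/-- the Neumann-Poincare operator as a linear functional -/
noncomputable def npL {h : ℝ → ℝ} (hh : Adm h) (s : ℝ) : (ℝ →ᵇ ℂ) →ₗ[ℂ] ℂ where
  toFun k := np h k s
  map_add' k l := by
    have e : (fun t => ((ker h (cur h s) t : ℝ) : ℂ) * (k + l) t)
        = fun t => ((ker h (cur h s) t : ℝ) : ℂ) * k t + ((ker h (cur h s) t : ℝ) : ℂ) * l t := by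
      funext t
      rw [BoundedContinuousFunction.add_apply, mul_add]
    simp only [np]
    rw [e, intervalIntegral.integral_add (intervalIntegrable_ker_mul hh s k)
      (intervalIntegrable_ker_mul hh s l), BoundedContinuousFunction.add_apply]
    ring
  map_smul' c k := by
    have e : (fun t => ((ker h (cur h s) t : ℝ) : ℂ) * (c • k) t)
        = fun t => c * (((ker h (cur h s) t : ℝ) : ℂ) * k t) := by
      funext t
      rw [BoundedContinuousFunction.smul_apply, smul_eq_mul]
      ring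
    simp only [np]
    rw [e, intervalIntegral.integral_const_mul, BoundedContinuousFunction.smul_apply, smul_eq_mul,
      RingHom.id_apply, smul_eq_mul]
    ring

theorem npL_one {h : ℝ → ℝ} (hh : Adm h) (s : ℝ) : npL hh s 1 = 1 := by
  change np h (fun _ => 1) s = 1
  have hpi : (π : ℂ) ≠ 0 := by exact_mod_cast Real.pi_ne_zero
  simp only [np, mul_one]
  rw [intervalIntegral.integral_ofReal]
  have : ∫ t in (s - π)..(s + π), ker h (cur h s) t = Th h s := rfl
  rw [this]
  push_cast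
  field_simp
  ring

theorem npL_pos {h : ℝ → ℝ} (hh : Adm h) (s : ℝ) (k : ℝ →ᵇ ℂ) (hk : ∀ t, 0 ≤ (k t).re) :
    0 ≤ (npL hh s k).re := by
  change 0 ≤ (np h k s).re
  simp only [np]
  have e1 : ((1 / π : ℂ)) = ((1 / π : ℝ) : ℂ) := by push_cast; rfl
  rw [e1, Complex.add_re, Complex.re_ofReal_mul, Complex.re_ofReal_mul]
  have e2 : (∫ t in (s - π)..(s + π), ((ker h (cur h s) t : ℝ) : ℂ) * k t).re
      = ∫ t in (s - π)..(s + π), ker h (cur h s) t * (k t).re := by
    have := Complex.reCLM.intervalIntegral_comp_comm (intervalIntegrable_ker_mul hh s k)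
    rw [Complex.reCLM_apply] at this
    rw [← this]
    apply intervalIntegral.integral_congr
    intro t _
    simp only [Complex.reCLM_apply, Complex.re_ofReal_mul]
  rw [e2]
  have hTh := Th_le hh s
  have hpi := Real.pi_pos
  apply add_nonneg
  · apply mul_nonneg _ (hk s)
    have : Th h s / π ≤ 1 := by rw [div_le_one hpi]; exact hTh
    linarith
  · apply mul_nonneg (by positivity)
    apply intervalIntegral.integral_nonneg (by linarith)
    intro t _
    exact mul_nonneg (ker_nonneg' hh s t) (hk t)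

/-- the bound inside an admissible curve -/
theorem bound_of_adm {Ks B c₀ : ℝ} {ψ φ χ : ℂ[X]} (cert : Cert Ks ψ φ χ B c₀)
    {h : ℝ → ℝ} {A : H →L[ℂ] H} {δ : ℝ} (hh : Adm h) (hA : AdmA h A δ) (Q : ℂ[X]) (M : ℝ)
    (hM : ∀ s, ‖Q.eval (cur h s)‖ ≤ M) : ‖aeval A Q‖ ≤ Ks * M := by
  have hM0 : 0 ≤ M := le_trans (norm_nonneg _) (hM 0)
  obtain ⟨K₀, hK₀⟩ := exists_bound hh hA
  let G : Subalgebra ℂ ((ℝ →ᵇ ℂ) × (H →L[ℂ] H)) :=
    (GG h A).toSubalgebra (one_mem_GG hh hA) (fun x y hx hy => mul_mem_GG hh hA hx hy)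
  have hGmem : ∀ p, p ∈ G ↔ p ∈ GG h A := fun p => Iff.rfl
  have hv : ((bcf (cur h), A) : (ℝ →ᵇ ℂ) × (H →L[ℂ] H)) ∈ G := cur_mem_GG hh hA
  have hp₀ := aeval_mem_G G hv Q
  have key := abstract_bound cert G K₀ (fun p hp => hK₀ p hp) (fun s => npL hh s)
    (fun s => npL_one hh s) (fun s k hk => npL_pos hh s k hk)
    (fun k => Sop h A k)
    (by
      intro k l
      have e1 : TC h A ((k + l : ℝ →ᵇ ℂ) : ℝ → ℂ) = TC h A k + TC h A l := TC_add hh hA k l
      have e2 : TC h A (fun t => star ((k + l : ℝ →ᵇ ℂ) t))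
          = TC h A (fun t => star (k t)) + TC h A (fun t => star (l t)) := by
        have := TC_add hh hA (star k) (star l)
        rw [← star_add] at this
        exact this
      simp only [Sop]
      rw [e1, e2, map_add]
      abel)
    (by
      intro k
      have e1 : (fun t => star ((star k : ℝ →ᵇ ℂ) t)) = (k : ℝ → ℂ) := by
        funext t
        exact star_star (k t)
      have e2 : ((star k : ℝ →ᵇ ℂ) : ℝ → ℂ) = fun t => star (k t) := rfl
      simp only [Sop]
      rw [e1, e2, map_add, ContinuousLinearMap.adjoint_adjoint, add_comm])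
    (fun k χ' hk x y => Sop_ineq hh hA k χ' k.continuous χ'.continuous hk x y)
    (by
      intro p hp
      obtain ⟨q, hq, hq1, hq2⟩ := np_mem hh hA hp
      refine ⟨q, hq, fun s => hq1 s, ?_⟩
      rw [hq2, snd_eq_TC hh hA hp]
      rfl)
    hp₀
  have e3 : (aeval ((bcf (cur h), A) : (ℝ →ᵇ ℂ) × (H →L[ℂ] H)) Q).2 = aeval A Q := by
    have h1 : (aeval ((bcf (cur h), A) : (ℝ →ᵇ ℂ) × (H →L[ℂ] H)) Q).2
        = (AlgHom.snd ℂ (ℝ →ᵇ ℂ) (H →L[ℂ] H)) (aeval (bcf (cur h), A) Q) := rfl
    rw [h1, ← Polynomial.aeval_algHom_apply]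
    rfl
  have e4 : ‖(aeval ((bcf (cur h), A) : (ℝ →ᵇ ℂ) × (H →L[ℂ] H)) Q).1‖ ≤ M := by
    rw [BoundedContinuousFunction.norm_le hM0]
    intro t
    rw [aeval_fst_apply, bcf_cur_apply hh]
    exact hM t
  rw [e3] at key
  have hKs : 0 ≤ Ks := le_trans zero_le_one cert.Ks_ge
  exact le_trans key (mul_le_mul_of_nonneg_left e4 hKs)

end Vale.Agent.P123
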