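import Vale.Agent.Lib.P123.Defs

namespace Vale.Agent.P123

open scoped Real
open MeasureTheory

namespace GeoAux

theorem sp_eq (t : ℝ) (w : ℂ) : sp t w = w.re * Real.cos t + w.im * Real.sin t := by
  unfold sp ei
  rw [Complex.mul_re, Complex.exp_ofReal_mul_I_re, Complex.exp_ofReal_mul_I_im, Real.cos_neg,
    Real.sin_neg]
  ring

/-- support function of a set -/
noncomputable def hW (W : Set ℂ) (t : ℝ) : ℝ := ⨆ w : W, sp t w

variable {W : Set ℂ} {R : ℝ}

theorem sp_le_norm (t : ℝ) (w : ℂ) : |sp t w| ≤ ‖w‖ := by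
  unfold sp
  refine (Complex.abs_re_le_norm _).trans ?_
  rw [norm_mul]
  unfold ei
  rw [Complex.norm_exp_ofReal_mul_I, one_mul]

theorem bdd (hR : ∀ w ∈ W, ‖w‖ ≤ R) (t : ℝ) : BddAbove (Set.range fun w : W => sp t w) := by
  refine ⟨R, ?_⟩
  rintro _ ⟨w, rfl⟩
  exact (le_abs_self _).trans ((sp_le_norm t w).trans (hR w w.2))

theorem sp_le_hW (hR : ∀ w ∈ W, ‖w‖ ≤ R) (t : ℝ) {w : ℂ} (hw : w ∈ W) : sp t w ≤ hW W t :=
  le_ciSup (bdd hR t) ⟨w, hw⟩

theorem hW_le (h0 : (0 : ℂ) ∈ W) {t c : ℝ} (h : ∀ w ∈ W, sp t w ≤ c) : hW W t ≤ c := by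
  have : Nonempty W := ⟨⟨0, h0⟩⟩
  exact ciSup_le fun w => h w w.2

theorem hW_nonneg (hR : ∀ w ∈ W, ‖w‖ ≤ R) (h0 : (0 : ℂ) ∈ W) (t : ℝ) : 0 ≤ hW W t := by
  have h := sp_le_hW hR t h0
  simpa [sp] using h

theorem sp_sub (t : ℝ) (z w : ℂ) : sp t (z - w) = sp t z - sp t w := by
  simp only [sp_eq, Complex.sub_re, Complex.sub_im]
  ring

theorem sp_lip (s t : ℝ) (w : ℂ) : sp s w - sp t w ≤ ‖w‖ * |s - t| := by
  have h1 : sp s w - sp t w = ((ei (-s) - ei (-t)) * w).re := by
    unfold sp
    rw [sub_mul, Complex.sub_re]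
  have h2 : ‖ei (-s) - ei (-t)‖ ≤ |s - t| := by
    have h3 : ei (-s) - ei (-t) = ei (-t) * (Complex.exp (((t - s : ℝ) : ℂ) * Complex.I) - 1) := by
      unfold ei
      rw [mul_sub, ← Complex.exp_add, mul_one]
      congr 2
      push_cast
      ring
    rw [h3, norm_mul]
    unfold ei
    rw [Complex.norm_exp_ofReal_mul_I, one_mul]
    have h4 := Real.norm_exp_I_mul_ofReal_sub_one_le (x := t - s)
    rw [mul_comm] at h4
    rw [abs_sub_comm]
    simpa using h4
  rw [h1]
  refine (Complex.re_le_norm _).trans ?_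
  rw [norm_mul, mul_comm]
  exact mul_le_mul_of_nonneg_left h2 (norm_nonneg _)

theorem hW_lip (hR : ∀ w ∈ W, ‖w‖ ≤ R) (h0 : (0 : ℂ) ∈ W) (s t : ℝ) :
    hW W s ≤ hW W t + R * |s - t| := by
  refine hW_le h0 fun w hw => ?_
  have h1 := sp_lip s t w
  have h2 := sp_le_hW hR t hw
  have h3 := mul_le_mul_of_nonneg_right (hR w hw) (abs_nonneg (s - t))
  linarith

theorem hW_star (hR : ∀ w ∈ W, ‖w‖ ≤ R) (h0 : (0 : ℂ) ∈ W) (t u : ℝ) (hu : 0 ≤ Real.cos u) :
    2 * Real.cos u * hW W t ≤ hW W (t - u) + hW W (t + u) := by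
  have : Nonempty W := ⟨⟨0, h0⟩⟩
  unfold hW
  rw [Real.mul_iSup_of_nonneg (by positivity)]
  refine ciSup_le fun w => ?_
  have h1 := sp_le_hW hR (t - u) w.2
  have h2 := sp_le_hW hR (t + u) w.2
  unfold hW at h1 h2
  refine le_trans (le_of_eq ?_) (add_le_add h1 h2)
  simp only [sp_eq, Real.cos_sub, Real.cos_add, Real.sin_sub, Real.sin_add]
  ring

theorem hW_per (t : ℝ) : hW W (t + 2 * π) = hW W t := by
  unfold hW
  simp only [sp_eq, Real.cos_add_two_pi, Real.sin_add_two_pi]

theorem hW_cont (hR : ∀ w ∈ W, ‖w‖ ≤ R) (h0 : (0 : ℂ) ∈ W) : Continuous (hW W) := by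
  have hR0 : 0 ≤ R := by simpa using hR 0 h0
  have : LipschitzWith ⟨R, hR0⟩ (hW W) := by
    refine LipschitzWith.of_le_add_mul _ fun s t => ?_
    have := hW_lip hR h0 s t
    rw [Real.dist_eq]
    exact this
  exact this.continuous

end GeoAux

open GeoAux

/-- Smooth strictly convex approximation of a bounded convex set from outside, through support
functions. -/
theorem exists_adm (W : Set ℂ) (hW' : Convex ℝ W) (hb : ∃ R, ∀ w ∈ W, ‖w‖ ≤ R) (h0 : (0 : ℂ) ∈ W)
    (ε : ℝ) (hε : 0 < ε) :
    ∃ h : ℝ → ℝ, Adm h ∧ (∃ δ : ℝ, 0 < δ ∧ ∀ θ, δ ≤ h θ ∧ ∀ w ∈ W, sp θ w + δ ≤ h θ) ∧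
      ∀ z : ℂ, (∀ θ, sp θ z ≤ h θ) → ∃ w ∈ W, ‖z - w‖ ≤ ε := by
  obtain ⟨R₀, hR₀⟩ := hb
  obtain ⟨R, hR1, hR⟩ : ∃ R : ℝ, 1 ≤ R ∧ ∀ w ∈ W, ‖w‖ ≤ R :=
    ⟨max R₀ 1, le_max_right _ _, fun w hw => (hR₀ w hw).trans (le_max_left _ _)⟩
  obtain ⟨η, hη0, hη1, hη⟩ : ∃ η : ℝ, 0 < η ∧ η ≤ 1 ∧ R * η ≤ ε / 16 := by
    refine ⟨min 1 (ε / (16 * R)), by positivity, min_le_left _ _, ?_⟩
    calc R * min 1 (ε / (16 * R)) ≤ R * (ε / (16 * R)) := by
          gcongr
          exact min_le_right _ _
      _ = ε / 16 := by field_simp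
  set f : ℝ → ℝ := hW W with hf
  have hfc : Continuous f := hW_cont hR h0
  set F : ℝ → ℝ := fun x => ∫ y in (0 : ℝ)..x, f y with hF
  have hFd : ∀ x, HasDerivAt F (f x) x := fun x =>
    intervalIntegral.integral_hasDerivAt_right (hfc.intervalIntegrable _ _)
      hfc.aestronglyMeasurable.stronglyMeasurableAtFilter hfc.continuousAt
  have hFc : Continuous F := continuous_iff_continuousAt.2 fun x => (hFd x).continuousAt
  set G : ℝ → ℝ := fun x => ∫ y in (0 : ℝ)..x, F y with hG
  have hGd : ∀ x, HasDerivAt G (F x) x := fun x =>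
    intervalIntegral.integral_hasDerivAt_right (hFc.intervalIntegrable _ _)
      hFc.aestronglyMeasurable.stronglyMeasurableAtFilter hFc.continuousAt
  set h : ℝ → ℝ := fun t => (G (t + 2 * η) - 2 * G (t + η) + G t) / η ^ 2 + ε / 4 with hh
  set h1 : ℝ → ℝ := fun t => (F (t + 2 * η) - 2 * F (t + η) + F t) / η ^ 2 with hh1
  set h2 : ℝ → ℝ := fun t => (f (t + 2 * η) - 2 * f (t + η) + f t) / η ^ 2 with hh2
  have hd1 : ∀ t, HasDerivAt h (h1 t) t := by
    intro t
    have a1 : HasDerivAt (fun t => G (t + 2 * η)) (F (t + 2 * η)) t := (hGd _).comp_add_const t _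
    have a2 : HasDerivAt (fun t => G (t + η)) (F (t + η)) t := (hGd _).comp_add_const t _
    exact (((a1.sub (a2.const_mul 2)).add (hGd t)).div_const _).add_const _
  have hd2 : ∀ t, HasDerivAt h1 (h2 t) t := by
    intro t
    have a1 : HasDerivAt (fun t => F (t + 2 * η)) (f (t + 2 * η)) t := (hFd _).comp_add_const t _
    have a2 : HasDerivAt (fun t => F (t + η)) (f (t + η)) t := (hFd _).comp_add_const t _
    exact ((a1.sub (a2.const_mul 2)).add (hFd t)).div_const _
  have hd1' : deriv h = h1 := funext fun t => (hd1 t).deriv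
  have hd2' : deriv h1 = h2 := funext fun t => (hd2 t).deriv
  have hh2c : Continuous h2 := by
    rw [hh2]
    fun_prop
  have hsm : ContDiff ℝ 2 h := by
    have e1 : ContDiff ℝ 1 h1 := by
      rw [contDiff_one_iff_deriv]
      exact ⟨fun t => (hd2 t).differentiableAt, by rw [hd2']; exact hh2c⟩
    have e2 : ContDiff ℝ (1 + 1) h := by
      rw [contDiff_succ_iff_deriv]
      refine ⟨fun t => (hd1 t).differentiableAt, by simp, by rw [hd1']; exact e1⟩
    exact_mod_cast e2
  -- the double average
  have hca : ∀ c : ℝ, Continuous fun u => F (c + u) := fun c => hFc.comp (by fun_prop)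
  have hdd : ∀ t, G (t + 2 * η) - 2 * G (t + η) + G t =
      ∫ u in (0 : ℝ)..η, (F (t + η + u) - F (t + u)) := by
    intro t
    rw [intervalIntegral.integral_sub ((hca (t + η)).intervalIntegrable _ _)
      ((hca t).intervalIntegrable _ _),
      intervalIntegral.integral_comp_add_left (fun y => F y) (t + η),
      intervalIntegral.integral_comp_add_left (fun y => F y) t]
    have e5 : G (t + 2 * η) - G (t + η) = ∫ y in (t + η)..(t + 2 * η), F y := by
      rw [hG]
      exact intervalIntegral.integral_interval_sub_left (hFc.intervalIntegrable _ _)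
        (hFc.intervalIntegrable _ _)
    have e6 : G (t + η) - G t = ∫ y in t..(t + η), F y := by
      rw [hG]
      exact intervalIntegral.integral_interval_sub_left (hFc.intervalIntegrable _ _)
        (hFc.intervalIntegrable _ _)
    rw [add_zero, add_zero, show t + η + η = t + 2 * η by ring, ← e5, ← e6]
    ring
  have hlow : ∀ t m : ℝ, (∀ y, t ≤ y → y ≤ t + 2 * η → m ≤ f y) →
      m ≤ (G (t + 2 * η) - 2 * G (t + η) + G t) / η ^ 2 := by
    intro t m hm
    rw [le_div_iff₀ (by positivity)]
    have e1 : ∀ u, 0 ≤ u → u ≤ η → m * η ≤ F (t + η + u) - F (t + u) := by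
      intro u hu0 hu1
      have e2 : F (t + η + u) - F (t + u) = ∫ y in (t + u)..(t + η + u), f y := by
        rw [hF]
        exact intervalIntegral.integral_interval_sub_left (hfc.intervalIntegrable _ _)
          (hfc.intervalIntegrable _ _)
      rw [e2]
      have e3 : ∫ y in (t + u)..(t + η + u), m = m * η := by
        rw [intervalIntegral.integral_const, smul_eq_mul]
        ring
      rw [← e3]
      refine intervalIntegral.integral_mono_on (by linarith) (by simp)
        (hfc.intervalIntegrable _ _) fun y hy => hm y (by linarith [hy.1]) (by linarith [hy.2])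
    rw [hdd t]
    have e7 : ∫ u in (0 : ℝ)..η, m * η = m * η ^ 2 := by
      rw [intervalIntegral.integral_const, smul_eq_mul]
      ring
    rw [← e7]
    refine intervalIntegral.integral_mono_on hη0.le (by simp)
      (((hca (t + η)).sub (hca t)).intervalIntegrable _ _)
      fun u hu => e1 u hu.1 hu.2
  have hupp : ∀ t m : ℝ, (∀ y, t ≤ y → y ≤ t + 2 * η → f y ≤ m) →
      (G (t + 2 * η) - 2 * G (t + η) + G t) / η ^ 2 ≤ m := by
    intro t m hm
    rw [div_le_iff₀ (by positivity)]
    have e1 : ∀ u, 0 ≤ u → u ≤ η → F (t + η + u) - F (t + u) ≤ m * η := by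
      intro u hu0 hu1
      have e2 : F (t + η + u) - F (t + u) = ∫ y in (t + u)..(t + η + u), f y := by
        rw [hF]
        exact intervalIntegral.integral_interval_sub_left (hfc.intervalIntegrable _ _)
          (hfc.intervalIntegrable _ _)
      rw [e2]
      have e3 : ∫ y in (t + u)..(t + η + u), m = m * η := by
        rw [intervalIntegral.integral_const, smul_eq_mul]
        ring
      rw [← e3]
      refine intervalIntegral.integral_mono_on (by linarith) (hfc.intervalIntegrable _ _)
        (by simp) fun y hy => hm y (by linarith [hy.1]) (by linarith [hy.2])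
    rw [hdd t]
    have e7 : ∫ u in (0 : ℝ)..η, m * η = m * η ^ 2 := by
      rw [intervalIntegral.integral_const, smul_eq_mul]
      ring
    rw [← e7]
    refine intervalIntegral.integral_mono_on hη0.le
      (((hca (t + η)).sub (hca t)).intervalIntegrable _ _)
      (by simp) fun u hu => e1 u hu.1 hu.2
  have hge : ∀ t, f t + ε / 8 ≤ h t := by
    intro t
    have := hlow t (f t - ε / 8) fun y hy1 hy2 => by
      have e := hW_lip hR h0 t y
      have e2 : R * |t - y| ≤ R * (2 * η) := by
        gcongr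
        rw [abs_le]
        constructor <;> linarith
      simp only [hf]
      linarith
    simp only [hh]
    linarith
  have hle : ∀ t, h t ≤ f t + 3 * ε / 8 := by
    intro t
    have := hupp t (f t + ε / 8) fun y hy1 hy2 => by
      have e := hW_lip hR h0 y t
      have e2 : R * |y - t| ≤ R * (2 * η) := by
        gcongr
        rw [abs_le]
        constructor <;> linarith
      simp only [hf]
      linarith
    simp only [hh]
    linarith
  have hf0 : ∀ t, 0 ≤ f t := hW_nonneg hR h0
  have hadm : Adm h := by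
    refine ⟨hsm, fun t => ?_, fun t => ?_, fun t => ?_⟩
    · -- periodicity: the derivative of the difference vanishes
      have hF' : ∀ x, F (x + 2 * π) - F x = F (2 * π) := by
        intro x
        have e1 : F (x + 2 * π) - F x = ∫ y in x..(x + 2 * π), f y := by
          rw [hF]
          exact intervalIntegral.integral_interval_sub_left (hfc.intervalIntegrable _ _)
            (hfc.intervalIntegrable _ _)
        rw [e1]
        have hp : Function.Periodic f (2 * π) := fun y => hW_per y
        have := hp.intervalIntegral_add_eq x 0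
        rw [this, zero_add]
      have hG' : ∀ x, G (x + 2 * π) - G x = G (2 * π) + x * F (2 * π) := by
        intro x
        have e1 : G (x + 2 * π) - G (2 * π) = ∫ y in (2 * π)..(x + 2 * π), F y := by
          rw [hG]
          exact intervalIntegral.integral_interval_sub_left (hFc.intervalIntegrable _ _)
            (hFc.intervalIntegrable _ _)
        have e2 : ∫ y in (2 * π)..(x + 2 * π), F y = ∫ y in (0 : ℝ)..x, F (y + 2 * π) := by
          rw [intervalIntegral.integral_comp_add_right (fun y => F y), zero_add]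
        have e3 : ∫ y in (0 : ℝ)..x, F (y + 2 * π) = ∫ y in (0 : ℝ)..x, (F y + F (2 * π)) := by
          congr 1
          funext y
          linarith [hF' y]
        rw [intervalIntegral.integral_add (hFc.intervalIntegrable _ _) (by simp),
          intervalIntegral.integral_const, smul_eq_mul, sub_zero] at e3
        have e4 : ∫ y in (0 : ℝ)..x, F y = G x := rfl
        linarith
      have q1 := hG' (t + 2 * η)
      have q2 := hG' (t + η)
      have q3 := hG' t
      simp only [hh]
      rw [show t + 2 * π + 2 * η = t + 2 * η + 2 * π by ring,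
        show t + 2 * π + η = t + η + 2 * π by ring]
      congr 2
      linarith
    · unfold rho
      rw [hd1', hd2']
      have e1 := hW_star hR h0 (t + η) η (Real.cos_nonneg_of_mem_Icc
        ⟨by linarith [Real.pi_gt_three], by linarith [Real.pi_gt_three]⟩)
      rw [show t + η - η = t by ring, show t + η + η = t + 2 * η by ring] at e1
      have e2 : -f (t + η) ≤ h2 t := by
        simp only [hh2]
        rw [le_div_iff₀ (by positivity)]
        have e3 := Real.one_sub_sq_div_two_le_cos (x := η)
        have e4 := hf0 (t + η)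
        simp only [hf] at e4 ⊢
        nlinarith
      have e5 := hlow t (f (t + η) - ε / 16) fun y hy1 hy2 => by
        have e := hW_lip hR h0 (t + η) y
        have e2 : R * |t + η - y| ≤ R * η := by
          gcongr
          rw [abs_le]
          constructor <;> linarith
        simp only [hf]
        linarith
      simp only [hh]
      linarith
    · linarith [hge t, hf0 t]
  refine ⟨h, hadm, ⟨ε / 8, by positivity, fun θ => ⟨?_, fun w hw => ?_⟩⟩, fun z hz => ?_⟩
  · linarith [hge θ, hf0 θ]
  · linarith [hge θ, sp_le_hW hR θ hw]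
  · -- nearest point
    have hKc : Convex ℝ (closure W) := hW'.closure
    have hne : (closure W).Nonempty := ⟨0, subset_closure h0⟩
    obtain ⟨w₀, hw₀, hmin⟩ := exists_norm_eq_iInf_of_complete_convex hne
      isClosed_closure.isComplete hKc z
    have hin := (norm_eq_iInf_iff_real_inner_le_zero hKc hw₀).1 hmin
    have hd : ‖z - w₀‖ ≤ 3 * ε / 8 := by
      set θ := Complex.arg (z - w₀) with hθ
      have hz1 : z - w₀ = ‖z - w₀‖ * ei θ := by
        unfold ei
        exact (Complex.norm_mul_exp_arg_mul_I _).symm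
      have hsp : ∀ v : ℂ, ‖z - w₀‖ * sp θ v = inner ℝ (z - w₀) v := by
        intro v
        rw [Complex.inner]
        have e1 : (starRingEnd ℂ) (z - w₀) = ‖z - w₀‖ * ei (-θ) := by
          conv_lhs => rw [hz1]
          rw [map_mul, Complex.conj_ofReal]
          congr 1
          unfold ei
          rw [← Complex.exp_conj, map_mul, Complex.conj_ofReal, Complex.conj_I]
          push_cast
          ring_nf
        rw [e1, mul_comm v, mul_assoc, Complex.re_ofReal_mul]
        rfl
      rcases eq_or_lt_of_le (norm_nonneg (z - w₀)) with h00 | hpos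
      · rw [← h00]
        positivity
      · have e1 : f θ ≤ sp θ w₀ := by
          refine hW_le h0 fun w hw => ?_
          have e2 := hin w (subset_closure hw)
          rw [← hsp, sp_sub] at e2
          nlinarith
        have e3 : sp θ (z - w₀) = ‖z - w₀‖ := by
          have e4 := hsp (z - w₀)
          rw [real_inner_self_eq_norm_sq] at e4
          have : ‖z - w₀‖ * (sp θ (z - w₀) - ‖z - w₀‖) = 0 := by rw [mul_sub, e4]; ring
          rcases mul_eq_zero.1 this with h5 | h5
          · exact absurd h5 hpos.ne'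
          · linarith
        rw [← e3, sp_sub]
        linarith [hz θ, hle θ]
    obtain ⟨w, hw, hdist⟩ := Metric.mem_closure_iff.1 hw₀ (ε / 8) (by positivity)
    refine ⟨w, hw, ?_⟩
    calc ‖z - w‖ = ‖(z - w₀) + (w₀ - w)‖ := by ring_nf
      _ ≤ ‖z - w₀‖ + ‖w₀ - w‖ := norm_add_le _ _
      _ ≤ 3 * ε / 8 + ε / 8 := by
          gcongr
          rw [← dist_eq_norm]
          exact hdist.le
      _ ≤ ε := by linarith

end Vale.Agent.P123
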