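import Vale.Agent.Lib.P123.Defs

namespace Vale.Agent.P123

open scoped Real InnerProductSpace ComplexConjugate

variable {H : Type*} [NormedAddCommGroup H] [InnerProductSpace ℂ H]

theorem exists_unit_real (c : ℂ) : ∃ w : ℂ, conj w * w = 1 ∧ (w * c).im = 0 := by
  by_cases hc : c = 0
  · exact ⟨1, by simp, by simp [hc]⟩
  · have hn : (‖c‖ : ℂ) ≠ 0 := by simpa using hc
    refine ⟨conj c / ‖c‖, ?_, ?_⟩
    · rw [map_div₀, Complex.conj_conj, Complex.conj_ofReal]
      field_simp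
      rw [mul_comm, Complex.conj_mul']
    · rw [div_mul_eq_mul_div, Complex.conj_mul']
      rw [sq, mul_div_assoc, div_self hn, mul_one]
      exact Complex.ofReal_im _

/-- the normalised form -/
theorem mem_of_ne_zero (A : H →L[ℂ] H) (z : H) (hz : z ≠ 0) (c : ℂ)
    (h : ⟪z, A z⟫_ℂ = c * (‖z‖ : ℂ) ^ 2) :
    c ∈ {z : ℂ | ∃ x : H, ‖x‖ = 1 ∧ ⟪x, A x⟫_ℂ = z} := by
  have hn : (‖z‖ : ℂ) ≠ 0 := by simpa using hz
  refine ⟨((‖z‖ : ℂ)⁻¹) • z, ?_, ?_⟩
  · rw [norm_smul, norm_inv, Complex.norm_real, norm_norm]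
    exact inv_mul_cancel₀ (norm_ne_zero_iff.mpr hz)
  · rw [map_smul, inner_smul_left, inner_smul_right, h, map_inv₀, Complex.conj_ofReal]
    field_simp

/-- Toeplitz-Hausdorff: the numerical range is convex. -/
theorem toeplitz_hausdorff (A : H →L[ℂ] H) :
    Convex ℝ {z : ℂ | ∃ x : H, ‖x‖ = 1 ∧ ⟪x, A x⟫_ℂ = z} := by
  rintro a ⟨x, hx, hxa⟩ b ⟨y, hy, hyb⟩ u s hu hs hus
  by_cases hab : a = b
  · subst hab
    refine ⟨x, hx, ?_⟩
    rw [hxa, ← add_smul, hus, one_smul]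
  have hba : b - a ≠ 0 := sub_ne_zero.mpr (Ne.symm hab)
  have hu' : u = 1 - s := by linarith
  have hs1 : s ≤ 1 := by linarith
  set p : ℂ := (⟪x, A y⟫_ℂ - a * ⟪x, y⟫_ℂ) / (b - a) with hp
  set q : ℂ := (⟪y, A x⟫_ℂ - a * ⟪y, x⟫_ℂ) / (b - a) with hq
  obtain ⟨w, hw1, hw2⟩ := exists_unit_real (p - conj q)
  have hwn : ‖w‖ = 1 := by
    have h1 : ((‖w‖ ^ 2 : ℝ) : ℂ) = 1 := by
      rw [← hw1, Complex.conj_mul']; push_cast; rfl
    have h2 : ‖w‖ ^ 2 = 1 := by exact_mod_cast h1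
    nlinarith [norm_nonneg w]
  have him : (w * p + conj w * q).im = 0 := by
    have : (w * (p - conj q)).im = (w * p + conj w * q).im := by
      simp [Complex.mul_im]
      ring
    rw [← this, hw2]
  let z : ℝ → H := fun t => ((1 - t : ℝ) : ℂ) • x + ((t : ℂ) * w) • y
  have hzc : Continuous z := by
    apply Continuous.add
    · apply Continuous.smul _ continuous_const
      exact Complex.continuous_ofReal.comp (by fun_prop)
    · apply Continuous.smul _ continuous_const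
      exact Complex.continuous_ofReal.mul continuous_const
  have hxx : ⟪x, x⟫_ℂ = 1 := by rw [inner_self_eq_norm_sq_to_K, hx]; simp
  have hyy : ⟪y, y⟫_ℂ = 1 := by rw [inner_self_eq_norm_sq_to_K, hy]; simp
  -- the form along the path
  have hform : ∀ t : ℝ, ⟪z t, A (z t)⟫_ℂ - a * ⟪z t, z t⟫_ℂ
      = (b - a) * ((t : ℂ) ^ 2 + t * (1 - t) * (w * p + conj w * q)) := by
    intro t
    have hp' : (b - a) * p = ⟪x, A y⟫_ℂ - a * ⟪x, y⟫_ℂ := by
      rw [hp]; field_simp
    have hq' : (b - a) * q = ⟪y, A x⟫_ℂ - a * ⟪y, x⟫_ℂ := by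
      rw [hq]; field_simp
    have e1 : ⟪z t, A (z t)⟫_ℂ = (1 - t) * (1 - t) * a + (1 - t) * (t * w) * ⟪x, A y⟫_ℂ
        + (t * conj w) * (1 - t) * ⟪y, A x⟫_ℂ + (t * conj w) * (t * w) * b := by
      simp only [z, map_add, map_smul, inner_add_left, inner_add_right, inner_smul_left,
        inner_smul_right, hxa, hyb, map_mul, Complex.conj_ofReal]
      push_cast
      ring
    have e2 : ⟪z t, z t⟫_ℂ = (1 - t) * (1 - t) + (1 - t) * (t * w) * ⟪x, y⟫_ℂ
        + (t * conj w) * (1 - t) * ⟪y, x⟫_ℂ + (t * conj w) * (t * w) := by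
      simp only [z, inner_add_left, inner_add_right, inner_smul_left,
        inner_smul_right, hxx, hyy, map_mul, Complex.conj_ofReal]
      push_cast
      ring
    rw [e1, e2]
    linear_combination (-(t : ℂ) * (1 - t) * w) * hp' + (-(t : ℂ) * (1 - t) * conj w) * hq'
      + (t : ℂ) ^ 2 * (b - a) * hw1
  have hzne : ∀ t ∈ Set.Icc (0 : ℝ) 1, z t ≠ 0 := by
    intro t ht h0
    have h1 : ((1 - t : ℝ) : ℂ) • x = -(((t : ℂ) * w) • y) := eq_neg_of_add_eq_zero_left h0
    have h2 : 1 - t = t := by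
      have := congrArg norm h1
      rw [norm_neg, norm_smul, norm_smul, norm_mul, hwn, hx, hy, Complex.norm_real,
        Complex.norm_real, Real.norm_of_nonneg (by linarith [ht.2]),
        Real.norm_of_nonneg ht.1] at this
      linarith
    have ht2 : t = 1 / 2 := by linarith
    have h3 : x = (-w) • y := by
      have h4 : (1 / 2 : ℂ) • x = (1 / 2 : ℂ) • ((-w) • y) := by
        rw [ht2] at h1
        rw [smul_smul]
        have e3 : ((1 - 1 / 2 : ℝ) : ℂ) = 1 / 2 := by push_cast; norm_num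
        have e4 : (((1 / 2 : ℝ) : ℂ)) = 1 / 2 := by push_cast; norm_num
        rw [e3, e4] at h1
        rw [h1, ← neg_smul]
        congr 1
        ring
      exact smul_right_injective H (by norm_num : (1 / 2 : ℂ) ≠ 0) h4
    apply hab
    rw [← hxa, h3, map_smul, inner_smul_left, inner_smul_right, hyb, map_neg]
    linear_combination b * hw1
  -- real function
  let φ : ℝ → ℝ := fun t => (t ^ 2 + t * (1 - t) * (w * p + conj w * q).re) / ‖z t‖ ^ 2
  have hφc : ContinuousOn φ (Set.Icc 0 1) := by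
    apply ContinuousOn.div
    · fun_prop
    · exact (hzc.norm.pow 2).continuousOn
    · intro t ht
      exact pow_ne_zero 2 (norm_ne_zero_iff.mpr (hzne t ht))
  have hφ0 : φ 0 = 0 := by simp [φ]
  have hφ1 : φ 1 = 1 := by
    simp [φ, z, norm_smul, hwn, hy]
  obtain ⟨t, ht, hts⟩ := intermediate_value_Icc (zero_le_one) hφc
    (show s ∈ Set.Icc (φ 0) (φ 1) by rw [hφ0, hφ1]; exact ⟨hs, hs1⟩)
  have hz := hzne t ht
  have key : u • a + s • b = a + (s : ℂ) * (b - a) := by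
    rw [hu']
    simp only [Complex.real_smul]
    push_cast
    ring
  rw [key]
  apply mem_of_ne_zero A (z t) hz
  have hn : ‖z t‖ ^ 2 ≠ 0 := pow_ne_zero 2 (norm_ne_zero_iff.mpr hz)
  have h5 : t ^ 2 + t * (1 - t) * (w * p + conj w * q).re = s * ‖z t‖ ^ 2 := by
    have : φ t * ‖z t‖ ^ 2 = t ^ 2 + t * (1 - t) * (w * p + conj w * q).re := by
      simp only [φ]
      field_simp
    rw [← this, hts]
  have h6 : (w * p + conj w * q) = ((w * p + conj w * q).re : ℂ) := by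
    apply Complex.ext
    · simp
    · rw [him]; simp
  have h7 := hform t
  rw [h6] at h7
  have h8 : ((t ^ 2 + t * (1 - t) * (w * p + conj w * q).re : ℝ) : ℂ) = ((s * ‖z t‖ ^ 2 : ℝ) : ℂ) := by
    rw [h5]
  push_cast at h8
  have h9 : ⟪z t, z t⟫_ℂ = (‖z t‖ : ℂ) ^ 2 := inner_self_eq_norm_sq_to_K (𝕜 := ℂ) (z t)
  rw [h9] at h7
  linear_combination h7 + (b - a) * h8

end Vale.Agent.P123
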