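import Vale.Agent.Lib.P123.FinalA
import Vale.Agent.Lib.P123.Geo
import Vale.Agent.Lib.P123.TH

namespace Vale.Agent.P123

open MeasureTheory Polynomial
open scoped Real InnerProductSpace BoundedContinuousFunction

variable {H : Type*} [NormedAddCommGroup H] [InnerProductSpace ℂ H] [CompleteSpace H]

/-- uniform continuity of a polynomial near a bounded set -/
theorem exists_near (Q : ℂ[X]) (R η : ℝ) (hη : 0 < η) :
    ∃ ε : ℝ, 0 < ε ∧ ∀ w z : ℂ, ‖w‖ ≤ R → ‖z - w‖ ≤ ε → ‖Q.eval z‖ ≤ ‖Q.eval w‖ + η := by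
  have hc : IsCompact (Metric.closedBall (0 : ℂ) (R + 1)) := isCompact_closedBall _ _
  have hu := hc.uniformContinuousOn_of_continuous (f := fun z => Q.eval z)
    Q.continuous.continuousOn
  rw [Metric.uniformContinuousOn_iff] at hu
  obtain ⟨δ, hδ, hd⟩ := hu η hη
  refine ⟨min (δ / 2) 1, by positivity, fun w z hw hz => ?_⟩
  have hz1 : ‖z - w‖ ≤ 1 := hz.trans (min_le_right _ _)
  have hz2 : ‖z - w‖ < δ := lt_of_le_of_lt (hz.trans (min_le_left _ _)) (by linarith)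
  have hzn : ‖z‖ ≤ R + 1 := by
    calc ‖z‖ = ‖w + (z - w)‖ := by ring_nf
      _ ≤ ‖w‖ + ‖z - w‖ := norm_add_le _ _
      _ ≤ R + 1 := by linarith
  have := hd z (by simpa using hzn) w (by
    have : ‖w‖ ≤ R + 1 := by linarith
    simpa using this) (by rw [dist_eq_norm]; exact hz2)
  rw [dist_eq_norm] at this
  have h3 : ‖Q.eval z‖ ≤ ‖Q.eval w‖ + ‖Q.eval z - Q.eval w‖ := by
    calc ‖Q.eval z‖ = ‖Q.eval w + (Q.eval z - Q.eval w)‖ := by ring_nf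
      _ ≤ _ := norm_add_le _ _
  linarith

/-- the case `0 ∈ W(A)` -/
theorem crouzeix_of_cert_zero {Ks B c₀ : ℝ} {ψ φ χ : ℂ[X]} (cert : Cert Ks ψ φ χ B c₀)
    (A : H →L[ℂ] H) (Q : ℂ[X]) (M : ℝ)
    (hM : ∀ x : H, ‖x‖ = 1 → ‖Q.eval ⟪x, A x⟫_ℂ‖ ≤ M)
    (h0 : ∃ x : H, ‖x‖ = 1 ∧ ⟪x, A x⟫_ℂ = 0) : ‖aeval A Q‖ ≤ Ks * M := by
  have hKs : 0 < Ks := lt_of_lt_of_le zero_lt_one cert.Ks_ge
  have hbd : ∀ x : H, ‖x‖ = 1 → ‖⟪x, A x⟫_ℂ‖ ≤ ‖A‖ := by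
    intro x hx
    calc ‖⟪x, A x⟫_ℂ‖ ≤ ‖x‖ * ‖A x‖ := norm_inner_le_norm _ _
      _ ≤ ‖x‖ * (‖A‖ * ‖x‖) := mul_le_mul_of_nonneg_left (A.le_opNorm x) (norm_nonneg _)
      _ = ‖A‖ := by rw [hx]; ring
  apply le_of_forall_pos_le_add
  intro η hη
  obtain ⟨ε, hε, hnear⟩ := exists_near Q ‖A‖ (η / Ks) (div_pos hη hKs)
  obtain ⟨h, hh, ⟨δ, hδ, hin⟩, hout⟩ := exists_adm
    {z : ℂ | ∃ x : H, ‖x‖ = 1 ∧ ⟪x, A x⟫_ℂ = z} (toeplitz_hausdorff A)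
    ⟨‖A‖, by rintro w ⟨x, hx, rfl⟩; exact hbd x hx⟩ h0 ε hε
  have hA : AdmA h A δ :=
    { δ_pos := hδ
      le_h := fun θ => (hin θ).1
      num := fun θ x hx => (hin θ).2 _ ⟨x, hx, rfl⟩ }
  have hb := bound_of_adm cert hh hA Q (M + η / Ks) (by
    intro s
    obtain ⟨w, ⟨x, hx, hxw⟩, hw⟩ := hout (cur h s) (fun θ => sp_cur_le hh θ s)
    have h1 := hnear w (cur h s) (by rw [← hxw]; exact hbd x hx) hw
    have h2 : ‖Q.eval w‖ ≤ M := by rw [← hxw]; exact hM x hx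
    linarith)
  calc ‖aeval A Q‖ ≤ Ks * (M + η / Ks) := hb
    _ = Ks * M + η := by field_simp

/-- a certificate gives a bound for all operators -/
theorem crouzeix_of_cert {Ks B c₀ : ℝ} {ψ φ χ : ℂ[X]} (cert : Cert Ks ψ φ χ B c₀)
    (A : H →L[ℂ] H) (Q : ℂ[X]) (M : ℝ) (hM0 : 0 ≤ M)
    (hM : ∀ x : H, ‖x‖ = 1 → ‖Q.eval ⟪x, A x⟫_ℂ‖ ≤ M) : ‖aeval A Q‖ ≤ Ks * M := by
  have hKs : 0 < Ks := lt_of_lt_of_le zero_lt_one cert.Ks_ge
  by_cases hne : ∃ x : H, ‖x‖ = 1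
  · obtain ⟨x₀, hx₀⟩ := hne
    set w₀ : ℂ := ⟪x₀, A x₀⟫_ℂ with hw₀
    have hin : ∀ x : H, ‖x‖ = 1 →
        ⟪x, (A - algebraMap ℂ (H →L[ℂ] H) w₀) x⟫_ℂ = ⟪x, A x⟫_ℂ - w₀ := by
      intro x hx
      have h1 : (A - algebraMap ℂ (H →L[ℂ] H) w₀) x = A x - w₀ • x := by
        rw [Algebra.algebraMap_eq_smul_one]
        simp
      rw [h1, inner_sub_right, inner_smul_right, inner_self_eq_norm_sq_to_K, hx]
      simp
    have key := crouzeix_of_cert_zero cert (A - algebraMap ℂ (H →L[ℂ] H) w₀)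
      (Q.comp (X + C w₀)) M (by
        intro x hx
        rw [hin x hx, eval_comp]
        simp only [eval_add, eval_X, eval_C, sub_add_cancel]
        exact hM x hx)
      ⟨x₀, hx₀, by rw [hin x₀ hx₀, ← hw₀, sub_self]⟩
    have e : aeval (A - algebraMap ℂ (H →L[ℂ] H) w₀) (Q.comp (X + C w₀)) = aeval A Q := by
      rw [aeval_comp]
      simp only [map_add, aeval_X, aeval_C, sub_add_cancel]
    rw [e] at key
    exact key
  · -- the trivial space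
    have hz : ∀ x : H, x = 0 := by
      intro x
      by_contra hx
      exact hne ⟨((‖x‖ : ℂ)⁻¹) • x, by
        rw [norm_smul, norm_inv, Complex.norm_real, norm_norm,
          inv_mul_cancel₀ (norm_ne_zero_iff.mpr hx)]⟩
    have : aeval A Q = 0 := by
      ext x
      rw [hz ((aeval A Q) x), hz ((0 : H →L[ℂ] H) x)]
    rw [this, norm_zero]
    positivity

end Vale.Agent.P123
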