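import Mathlib

/-!
P123: near-extremal pairs for a bounded commutative functional calculus.
-/

namespace Vale.Agent.P123

open scoped InnerProductSpace BoundedContinuousFunction

variable {X : Type*} [TopologicalSpace X]
  {H : Type*} [NormedAddCommGroup H] [InnerProductSpace ℂ H] [CompleteSpace H]

/-- the modulus of a bounded continuous function, as a complex function -/
noncomputable def absE (f : X →ᵇ ℂ) : X →ᵇ ℂ :=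
  BoundedContinuousFunction.ofNormedAddCommGroup (fun t => ((‖f t‖ : ℝ) : ℂ))
    (Complex.continuous_ofReal.comp (continuous_norm.comp f.continuous)) ‖f‖
    (fun t => by
      rw [Complex.norm_real, norm_norm]; exact f.norm_coe_le_norm t)

theorem absE_apply (f : X →ᵇ ℂ) (t : X) : absE f t = ((‖f t‖ : ℝ) : ℂ) := rfl

omit [CompleteSpace H] in
/-- The functional `h ↦ ⟪y, T_h x⟫` extends to all bounded continuous functions. -/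
theorem exists_ext (G : Submodule ℂ ((X →ᵇ ℂ) × (H →L[ℂ] H))) (K : ℝ) (hK0 : 0 ≤ K)
    (hK : ∀ p ∈ G, ‖p.2‖ ≤ K * ‖p.1‖) (x y : H) (hx : ‖x‖ = 1) (hy : ‖y‖ = 1) :
    ∃ L : (X →ᵇ ℂ) →L[ℂ] ℂ, ‖L‖ ≤ K ∧ ∀ p ∈ G, L p.1 = ⟪y, p.2 x⟫_ℂ := by
  classical
  let φ : G →ₗ[ℂ] (X →ᵇ ℂ) := (LinearMap.fst ℂ (X →ᵇ ℂ) (H →L[ℂ] H)).comp G.subtype
  have hφ : ∀ p : G, φ p = p.1.1 := fun p => rfl
  have hinj : Function.Injective φ := by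
    rw [← LinearMap.ker_eq_bot, LinearMap.ker_eq_bot']
    intro p hp
    have h1 : p.1.1 = 0 := hp
    have h2 : ‖p.1.2‖ ≤ 0 := by
      have := hK p.1 p.2
      rw [h1, norm_zero, mul_zero] at this
      exact this
    have h3 : p.1.2 = 0 := by
      rw [← norm_eq_zero]; exact le_antisymm h2 (norm_nonneg _)
    apply Subtype.ext
    exact Prod.ext h1 h3
  let e := LinearEquiv.ofInjective φ hinj
  let ev : (H →L[ℂ] H) →ₗ[ℂ] ℂ :=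
    { toFun := fun T => ⟪y, T x⟫_ℂ
      map_add' := fun S T => by simp
      map_smul' := fun c T => by simp }
  let l : LinearMap.range φ →ₗ[ℂ] ℂ :=
    ev.comp ((LinearMap.snd ℂ (X →ᵇ ℂ) (H →L[ℂ] H)).comp (G.subtype.comp e.symm.toLinearMap))
  have hl : ∀ z : LinearMap.range φ, l z = ⟪y, (e.symm z).1.2 x⟫_ℂ := fun z => rfl
  have hb : ∀ z : LinearMap.range φ, ‖l z‖ ≤ K * ‖z‖ := by
    intro z
    rw [hl]
    have h1 : (e.symm z).1.1 = (z : X →ᵇ ℂ) := by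
      have := e.apply_symm_apply z
      have h2 := congrArg Subtype.val this
      rw [LinearEquiv.ofInjective_apply] at h2
      exact h2
    calc ‖⟪y, (e.symm z).1.2 x⟫_ℂ‖ ≤ ‖y‖ * ‖(e.symm z).1.2 x‖ := norm_inner_le_norm _ _
      _ ≤ 1 * (‖(e.symm z).1.2‖ * 1) := by
          rw [hy]
          have := (e.symm z).1.2.le_opNorm x
          rw [hx] at this
          linarith
      _ = ‖(e.symm z).1.2‖ := by ring
      _ ≤ K * ‖(e.symm z).1.1‖ := hK _ (e.symm z).2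
      _ = K * ‖z‖ := by rw [h1]; rfl
  obtain ⟨g, hg, hgn⟩ := exists_extension_norm_eq (𝕜 := ℂ) (LinearMap.range φ)
    (l.mkContinuous K hb)
  refine ⟨g, ?_, ?_⟩
  · rw [hgn]; exact LinearMap.mkContinuous_norm_le _ hK0 _
  · intro p hp
    have h1 := hg ⟨φ ⟨p, hp⟩, ⟨_, rfl⟩⟩
    have h2 : (l.mkContinuous K hb) ⟨φ ⟨p, hp⟩, ⟨_, rfl⟩⟩ = ⟪y, p.2 x⟫_ℂ := by
      rw [LinearMap.mkContinuous_apply, hl]
      have h3 : e.symm ⟨φ ⟨p, hp⟩, ⟨_, rfl⟩⟩ = ⟨p, hp⟩ := by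
        rw [LinearEquiv.symm_apply_eq]
        apply Subtype.ext
        rw [LinearEquiv.ofInjective_apply]
      rw [h3]
    rw [h2] at h1
    exact h1


/-- `L` almost vanishes on `(1-|f|) k` if `L` has norm `≤ K` and almost attains it at `f`. -/
theorem norm_one_sub_abs_le {L : (X →ᵇ ℂ) →L[ℂ] ℂ} {K κ : ℝ} (hL : ‖L‖ ≤ K) {f : X →ᵇ ℂ}
    (hf : ‖f‖ ≤ 1) (hκ : L f = (κ : ℂ)) (k : X →ᵇ ℂ) :
    ‖L ((1 - absE f) * k)‖ ≤ (K - κ) * ‖k‖ := by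
  by_cases hk : ‖k‖ = 0
  · have : k = 0 := norm_eq_zero.mp hk
    rw [this]; simp
  have hk' : 0 < ‖k‖ := lt_of_le_of_ne (norm_nonneg _) (Ne.symm hk)
  by_cases hz : L ((1 - absE f) * k) = 0
  · rw [hz, norm_zero]
    apply mul_nonneg _ (norm_nonneg _)
    have h1 : ‖L f‖ ≤ K * 1 := by
      calc ‖L f‖ ≤ ‖L‖ * ‖f‖ := L.le_opNorm f
        _ ≤ K * 1 := by
          apply mul_le_mul hL hf (norm_nonneg _) ((norm_nonneg _).trans hL)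
    rw [hκ, Complex.norm_real, Real.norm_eq_abs] at h1
    have := le_abs_self κ
    linarith
  · set z := L ((1 - absE f) * k) with hzdef
    have hz' : 0 < ‖z‖ := norm_pos_iff.mpr hz
    -- ω = conj z / |z|
    set ω : ℂ := star z / (‖z‖ : ℂ) with hω
    have hωn : ‖ω‖ = 1 := by
      rw [hω, norm_div, norm_star, Complex.norm_real, norm_norm, div_self hz'.ne']
    have hωz : ω * z = (‖z‖ : ℂ) := by
      have h2 : star z * z = ((‖z‖ ^ 2 : ℝ) : ℂ) := by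
        rw [Complex.star_def, mul_comm, Complex.mul_conj, Complex.normSq_eq_norm_sq]
      rw [hω, div_mul_eq_mul_div, h2]
      have : (‖z‖ : ℂ) ≠ 0 := by exact_mod_cast hz'.ne'
      field_simp
      push_cast
      ring
    set F : X →ᵇ ℂ := f + (ω * ((‖k‖ : ℝ) : ℂ)⁻¹) • ((1 - absE f) * k) with hF
    have hFn : ‖F‖ ≤ 1 := by
      rw [BoundedContinuousFunction.norm_le zero_le_one]
      intro t
      have hft : ‖f t‖ ≤ 1 := (f.norm_coe_le_norm t).trans hf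
      have h3 : ‖(ω * ((‖k‖ : ℝ) : ℂ)⁻¹) * ((1 - ((‖f t‖ : ℝ) : ℂ)) * k t)‖ ≤ 1 - ‖f t‖ := by
        rw [norm_mul, norm_mul, norm_mul, hωn, one_mul, norm_inv, Complex.norm_real,
          norm_norm]
        have h4 : ‖(1 : ℂ) - ((‖f t‖ : ℝ) : ℂ)‖ = 1 - ‖f t‖ := by
          rw [show (1 : ℂ) - ((‖f t‖ : ℝ) : ℂ) = ((1 - ‖f t‖ : ℝ) : ℂ) by push_cast; ring,
            Complex.norm_real, Real.norm_eq_abs, abs_of_nonneg (by linarith)]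
        rw [h4]
        have h5 : ‖k t‖ ≤ ‖k‖ := k.norm_coe_le_norm t
        have h6 : ‖k‖⁻¹ * ((1 - ‖f t‖) * ‖k t‖) ≤ ‖k‖⁻¹ * ((1 - ‖f t‖) * ‖k‖) := by
          apply mul_le_mul_of_nonneg_left _ (inv_nonneg.mpr hk'.le)
          exact mul_le_mul_of_nonneg_left h5 (by linarith)
        calc ‖k‖⁻¹ * ((1 - ‖f t‖) * ‖k t‖) ≤ ‖k‖⁻¹ * ((1 - ‖f t‖) * ‖k‖) := h6
          _ = 1 - ‖f t‖ := by field_simp
      calc ‖F t‖ = ‖f t + (ω * ((‖k‖ : ℝ) : ℂ)⁻¹) * ((1 - ((‖f t‖ : ℝ) : ℂ)) * k t)‖ := rfl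
        _ ≤ ‖f t‖ + ‖(ω * ((‖k‖ : ℝ) : ℂ)⁻¹) * ((1 - ((‖f t‖ : ℝ) : ℂ)) * k t)‖ := norm_add_le _ _
        _ ≤ ‖f t‖ + (1 - ‖f t‖) := by linarith
        _ = 1 := by ring
    have h7 : L F = ((κ + ‖z‖ / ‖k‖ : ℝ) : ℂ) := by
      rw [hF, map_add, map_smul, hκ, ← hzdef, smul_eq_mul]
      have : ω * ((‖k‖ : ℝ) : ℂ)⁻¹ * z = (ω * z) * ((‖k‖ : ℝ) : ℂ)⁻¹ := by ring
      rw [this, hωz]
      push_cast
      rw [div_eq_mul_inv]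
    have h8 : ‖L F‖ ≤ K := by
      calc ‖L F‖ ≤ ‖L‖ * ‖F‖ := L.le_opNorm F
        _ ≤ K * 1 := by
          apply mul_le_mul hL hFn (norm_nonneg _) ((norm_nonneg _).trans hL)
        _ = K := mul_one K
    rw [h7, Complex.norm_real, Real.norm_eq_abs] at h8
    have h9 := le_abs_self (κ + ‖z‖ / ‖k‖)
    have h10 : ‖z‖ / ‖k‖ ≤ K - κ := by linarith
    rwa [div_le_iff₀ hk'] at h10

/-- Choice of a near-extremal element and near-extremal vectors. -/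
theorem near_vec (G : Subalgebra ℂ ((X →ᵇ ℂ) × (H →L[ℂ] H))) (K : ℝ) (hK1 : 1 ≤ K)
    (hK : ∀ p ∈ G, ‖p.2‖ ≤ K * ‖p.1‖)
    (hsup : ∀ K' < K, ∃ p ∈ G, ‖p.1‖ ≤ 1 ∧ K' < ‖p.2‖) (η : ℝ) (hηpos : 0 < η)
    (hη1 : η ≤ 1 / 2) :
    ∃ p ∈ G, ∃ x y : H, ∃ κ : ℝ, ‖p.1‖ ≤ 1 ∧ ‖x‖ = 1 ∧ ‖y‖ = 1 ∧ K - η < κ ∧ κ ≤ K ∧
      p.2 x = (κ : ℂ) • y ∧
      ‖ContinuousLinearMap.adjoint p.2 y - (κ : ℂ) • x‖ ^ 2 ≤ K ^ 2 - κ ^ 2 := by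
  have hK0 : 0 < K := by linarith
  obtain ⟨p, hp, hp1, hp2⟩ := hsup (K - η) (by linarith)
  obtain ⟨x₀, hx₀, hx₀'⟩ := p.2.exists_lt_apply_of_lt_opNorm hp2
  have hx₀ne : x₀ ≠ 0 := by
    rintro rfl
    rw [map_zero, norm_zero] at hx₀'
    linarith
  have hx₀n : 0 < ‖x₀‖ := norm_pos_iff.mpr hx₀ne
  set x : H := ((‖x₀‖ : ℝ) : ℂ)⁻¹ • x₀ with hxdef
  have hx : ‖x‖ = 1 := by
    rw [hxdef, norm_smul, norm_inv, Complex.norm_real, norm_norm, inv_mul_cancel₀ hx₀n.ne']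
  set κ : ℝ := ‖p.2 x‖ with hκdef
  have hκ1 : K - η < κ := by
    have h1 : κ = ‖x₀‖⁻¹ * ‖p.2 x₀‖ := by
      rw [hκdef, hxdef, map_smul, norm_smul, norm_inv, Complex.norm_real, norm_norm]
    have h2 : (1 : ℝ) ≤ ‖x₀‖⁻¹ := by
      rw [one_le_inv₀ hx₀n]; exact hx₀.le
    have h3 : ‖p.2 x₀‖ ≤ ‖x₀‖⁻¹ * ‖p.2 x₀‖ := by
      nlinarith [norm_nonneg (p.2 x₀)]
    rw [h1]; linarith
  have hpn : ‖p.2‖ ≤ K := by
    have := hK p hp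
    nlinarith [norm_nonneg p.1]
  have hκ2 : κ ≤ K := by
    have := p.2.le_opNorm x
    rw [hx, mul_one] at this
    exact this.trans hpn
  have hκpos : 0 < κ := by linarith
  have hκne : (κ : ℂ) ≠ 0 := by exact_mod_cast hκpos.ne'
  set y : H := ((κ : ℝ) : ℂ)⁻¹ • p.2 x with hydef
  have hy : ‖y‖ = 1 := by
    rw [hydef, norm_smul, norm_inv, Complex.norm_real, Real.norm_eq_abs, abs_of_pos hκpos,
      ← hκdef, inv_mul_cancel₀ hκpos.ne']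
  have hpx : p.2 x = (κ : ℂ) • y := by
    rw [hydef, smul_smul, mul_inv_cancel₀ hκne, one_smul]
  refine ⟨p, hp, x, y, κ, hp1, hx, hy, hκ1, hκ2, hpx, ?_⟩
  have h1 : ‖ContinuousLinearMap.adjoint p.2 y - (κ : ℂ) • x‖ ^ 2
      = ‖ContinuousLinearMap.adjoint p.2 y‖ ^ 2
      - 2 * (⟪ContinuousLinearMap.adjoint p.2 y, (κ : ℂ) • x⟫_ℂ).re + ‖(κ : ℂ) • x‖ ^ 2 :=
    norm_sub_sq (𝕜 := ℂ) _ _
  have h2 : ⟪ContinuousLinearMap.adjoint p.2 y, (κ : ℂ) • x⟫_ℂ = ((κ ^ 2 : ℝ) : ℂ) := by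
    rw [ContinuousLinearMap.adjoint_inner_left, map_smul, hpx, inner_smul_right,
      inner_smul_right, inner_self_eq_norm_sq_to_K, hy]
    push_cast
    simp
    ring
  have h3 : ‖(κ : ℂ) • x‖ = κ := by
    rw [norm_smul, hx, mul_one, Complex.norm_real, Real.norm_eq_abs, abs_of_pos hκpos]
  have h4 : ‖ContinuousLinearMap.adjoint p.2 y‖ ≤ K := by
    calc ‖ContinuousLinearMap.adjoint p.2 y‖ ≤ ‖ContinuousLinearMap.adjoint p.2‖ * ‖y‖ :=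
          ContinuousLinearMap.le_opNorm _ _
      _ = ‖p.2‖ := by
          rw [hy, mul_one]
          exact LinearIsometryEquiv.norm_map ContinuousLinearMap.adjoint p.2
      _ ≤ K := hpn
  have h5 : ‖ContinuousLinearMap.adjoint p.2 y‖ ^ 2 ≤ K ^ 2 :=
    pow_le_pow_left₀ (norm_nonneg _) h4 2
  rw [h1, h2, h3, Complex.ofReal_re]
  linarith

/-- The functional `Λ` attached to near-extremal data. -/
theorem near_fun (G : Subalgebra ℂ ((X →ᵇ ℂ) × (H →L[ℂ] H))) (K : ℝ) (hK1 : 1 ≤ K)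
    (hK : ∀ p ∈ G, ‖p.2‖ ≤ K * ‖p.1‖) (p : (X →ᵇ ℂ) × (H →L[ℂ] H)) (hp : p ∈ G) (x y : H)
    (κ η μ : ℝ) (hp1 : ‖p.1‖ ≤ 1) (hx : ‖x‖ = 1) (hy : ‖y‖ = 1) (hκ1 : K - η < κ)
    (hη1 : η ≤ 1 / 2) (hκ2 : κ ≤ K) (hpx : p.2 x = (κ : ℂ) • y)
    (heμ : ‖ContinuousLinearMap.adjoint p.2 y - (κ : ℂ) • x‖ * K / κ ≤ μ) :
    ∃ Λ : (X →ᵇ ℂ) →L[ℂ] ℂ, Λ 1 = 1 ∧ ‖Λ‖ ≤ κ⁻¹ * K ∧
      (∀ k, ‖Λ ((1 - absE p.1) * k)‖ ≤ 2 * η * ‖k‖) ∧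
      (∀ q ∈ G, ‖⟪y, q.2 x⟫_ℂ - κ * Λ (star p.1 * q.1)‖ ≤ 2 * η * ‖q.1‖) ∧
      (∀ q ∈ G, ‖⟪x, q.2 x⟫_ℂ - Λ q.1‖ ≤ μ * ‖q.1‖) ∧
      (∀ q ∈ G, ⟪y, q.2 y⟫_ℂ = Λ q.1) ∧
      (∀ q ∈ G, ‖⟪x, q.2 y⟫_ℂ - (κ : ℂ)⁻¹ * Λ (p.1 * q.1)‖ ≤ μ * ‖q.1‖) := by
  have hK0 : 0 < K := by linarith
  have hκhalf : 1 / 2 ≤ κ := by linarith
  have hκpos : 0 < κ := by linarith
  have hηpos : 0 ≤ η := by linarith
  have hκne : (κ : ℂ) ≠ 0 := by exact_mod_cast hκpos.ne'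
  obtain ⟨L, hL, hLG⟩ := exists_ext G.toSubmodule K hK0.le (fun q hq => hK q hq) x y hx hy
  have hLG' : ∀ q ∈ G, L q.1 = ⟪y, q.2 x⟫_ℂ := fun q hq => hLG q hq
  have hLf : L p.1 = (κ : ℂ) := by
    rw [hLG' p hp, hpx, inner_smul_right, inner_self_eq_norm_sq_to_K, hy]
    simp
  let mulf : (X →ᵇ ℂ) →L[ℂ] (X →ᵇ ℂ) := ContinuousLinearMap.mul ℂ (X →ᵇ ℂ) p.1
  have hΛa : ∀ k, ((κ : ℂ)⁻¹ • (L.comp mulf)) k = (κ : ℂ)⁻¹ * L (p.1 * k) := fun k => rfl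
  have hadj : ∀ z : H, ⟪y, p.2 z⟫_ℂ = (κ : ℂ) * ⟪x, z⟫_ℂ
      + ⟪ContinuousLinearMap.adjoint p.2 y - (κ : ℂ) • x, z⟫_ℂ := by
    intro z
    rw [inner_sub_left, inner_smul_left, Complex.conj_ofReal,
      ContinuousLinearMap.adjoint_inner_left]
    ring
  have hbound : ∀ q ∈ G, ∀ w : H, ‖w‖ = 1 →
      ‖(κ : ℂ)⁻¹ * ⟪ContinuousLinearMap.adjoint p.2 y - (κ : ℂ) • x, q.2 w⟫_ℂ‖
        ≤ μ * ‖q.1‖ := by
    intro q hq w hw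
    have h0 : ‖⟪ContinuousLinearMap.adjoint p.2 y - (κ : ℂ) • x, q.2 w⟫_ℂ‖
        ≤ ‖ContinuousLinearMap.adjoint p.2 y - (κ : ℂ) • x‖ * (K * ‖q.1‖) := by
      refine (norm_inner_le_norm _ _).trans ?_
      apply mul_le_mul_of_nonneg_left _ (norm_nonneg _)
      have h1 := q.2.le_opNorm w
      rw [hw, mul_one] at h1
      exact h1.trans (hK q hq)
    rw [norm_mul, norm_inv, Complex.norm_real, Real.norm_eq_abs, abs_of_pos hκpos]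
    refine (mul_le_mul_of_nonneg_left h0 (inv_nonneg.mpr hκpos.le)).trans ?_
    have h2 : κ⁻¹ * (‖ContinuousLinearMap.adjoint p.2 y - (κ : ℂ) • x‖ * (K * ‖q.1‖))
        = (‖ContinuousLinearMap.adjoint p.2 y - (κ : ℂ) • x‖ * K / κ) * ‖q.1‖ := by
      field_simp
    rw [h2]
    exact mul_le_mul_of_nonneg_right heμ (norm_nonneg _)
  refine ⟨(κ : ℂ)⁻¹ • (L.comp mulf), ?_, ?_, ?_, ?_, ?_, ?_, ?_⟩
  · rw [hΛa, mul_one, hLf, inv_mul_cancel₀ hκne]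
  · rw [norm_smul, norm_inv, Complex.norm_real, Real.norm_eq_abs, abs_of_pos hκpos]
    apply mul_le_mul_of_nonneg_left _ (inv_nonneg.mpr hκpos.le)
    apply ContinuousLinearMap.opNorm_le_bound _ hK0.le
    intro k
    calc ‖(L.comp mulf) k‖ = ‖L (p.1 * k)‖ := rfl
      _ ≤ ‖L‖ * ‖p.1 * k‖ := L.le_opNorm _
      _ ≤ K * (1 * ‖k‖) := by
        apply mul_le_mul hL _ (norm_nonneg _) hK0.le
        exact (norm_mul_le _ _).trans (mul_le_mul_of_nonneg_right hp1 (norm_nonneg _))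
      _ = K * ‖k‖ := by ring
  · intro k
    rw [hΛa]
    have h1 : p.1 * ((1 - absE p.1) * k) = (1 - absE p.1) * (p.1 * k) := by ring
    rw [h1, norm_mul, norm_inv, Complex.norm_real, Real.norm_eq_abs, abs_of_pos hκpos]
    have h2 := norm_one_sub_abs_le hL hp1 hLf (p.1 * k)
    have h3 : ‖p.1 * k‖ ≤ ‖k‖ := by
      calc ‖p.1 * k‖ ≤ ‖p.1‖ * ‖k‖ := norm_mul_le _ _
        _ ≤ 1 * ‖k‖ := mul_le_mul_of_nonneg_right hp1 (norm_nonneg _)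
        _ = ‖k‖ := one_mul _
    have h4 : ‖L ((1 - absE p.1) * (p.1 * k))‖ ≤ η * ‖k‖ :=
      h2.trans (mul_le_mul (by linarith) h3 (norm_nonneg _) hηpos)
    have h5 : η * ‖k‖ ≤ (κ * 2) * (η * ‖k‖) := by
      have h6 : 1 ≤ κ * 2 := by linarith
      have h7 : 0 ≤ η * ‖k‖ := mul_nonneg hηpos (norm_nonneg _)
      nlinarith
    rw [inv_mul_le_iff₀ hκpos]
    refine h4.trans (h5.trans (le_of_eq ?_))
    ring
  · intro q hq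
    rw [← hLG' q hq, hΛa]
    have h1 : (κ : ℂ) * ((κ : ℂ)⁻¹ * L (p.1 * (star p.1 * q.1))) = L (p.1 * (star p.1 * q.1)) := by
      rw [← mul_assoc, mul_inv_cancel₀ hκne, one_mul]
    rw [h1, ← map_sub]
    have h2 : q.1 - p.1 * (star p.1 * q.1) = (1 - absE p.1) * ((1 + absE p.1) * q.1) := by
      ext t
      have h3 : p.1 t * star (p.1 t) = ((‖p.1 t‖ : ℝ) : ℂ) * ((‖p.1 t‖ : ℝ) : ℂ) := by
        rw [Complex.star_def, Complex.mul_conj, Complex.normSq_eq_norm_sq]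
        push_cast; ring
      show q.1 t - p.1 t * (star (p.1 t) * q.1 t)
        = (1 - ((‖p.1 t‖ : ℝ) : ℂ)) * ((1 + ((‖p.1 t‖ : ℝ) : ℂ)) * q.1 t)
      rw [← mul_assoc, h3]
      ring
    rw [h2]
    have h4 := norm_one_sub_abs_le hL hp1 hLf ((1 + absE p.1) * q.1)
    have h5 : ‖(1 + absE p.1) * q.1‖ ≤ 2 * ‖q.1‖ := by
      rw [BoundedContinuousFunction.norm_le (by positivity)]
      intro t
      have h6 : ‖p.1 t‖ ≤ 1 := (p.1.norm_coe_le_norm t).trans hp1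
      have h7 : ‖((1 + absE p.1) * q.1) t‖ = ‖(1 : ℂ) + ((‖p.1 t‖ : ℝ) : ℂ)‖ * ‖q.1 t‖ :=
        norm_mul _ _
      rw [h7]
      apply mul_le_mul _ (q.1.norm_coe_le_norm t) (norm_nonneg _) (by norm_num)
      calc ‖(1 : ℂ) + ((‖p.1 t‖ : ℝ) : ℂ)‖ ≤ ‖(1 : ℂ)‖ + ‖((‖p.1 t‖ : ℝ) : ℂ)‖ := norm_add_le _ _
        _ ≤ 2 := by rw [norm_one, Complex.norm_real, norm_norm]; linarith
    refine h4.trans ((mul_le_mul (by linarith : K - κ ≤ η) h5 (norm_nonneg _)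
      hηpos).trans (le_of_eq ?_))
    ring
  · intro q hq
    have h1 : L (p.1 * q.1) = ⟪y, (p * q).2 x⟫_ℂ := hLG' (p * q) (G.mul_mem hp hq)
    have h2 : ⟪y, (p * q).2 x⟫_ℂ = ⟪y, p.2 (q.2 x)⟫_ℂ := rfl
    rw [hΛa, h1, h2, hadj]
    have h3 : ⟪x, q.2 x⟫_ℂ - (κ : ℂ)⁻¹ * ((κ : ℂ) * ⟪x, q.2 x⟫_ℂ
        + ⟪ContinuousLinearMap.adjoint p.2 y - (κ : ℂ) • x, q.2 x⟫_ℂ)
        = -((κ : ℂ)⁻¹ * ⟪ContinuousLinearMap.adjoint p.2 y - (κ : ℂ) • x, q.2 x⟫_ℂ) := by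
      rw [mul_add, ← mul_assoc, inv_mul_cancel₀ hκne]
      ring
    rw [h3, norm_neg]
    exact hbound q hq x hx
  · intro q hq
    have h1 : L (q.1 * p.1) = ⟪y, (q * p).2 x⟫_ℂ := hLG' (q * p) (G.mul_mem hq hp)
    have h2 : ⟪y, (q * p).2 x⟫_ℂ = ⟪y, q.2 (p.2 x)⟫_ℂ := rfl
    rw [hΛa, mul_comm p.1 q.1, h1, h2, hpx, map_smul, inner_smul_right, ← mul_assoc,
      inv_mul_cancel₀ hκne, one_mul]
  · intro q hq
    have h1 : L (p.1 * (q.1 * p.1)) = ⟪y, (p * (q * p)).2 x⟫_ℂ :=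
      hLG' (p * (q * p)) (G.mul_mem hp (G.mul_mem hq hp))
    have h2 : ⟪y, (p * (q * p)).2 x⟫_ℂ = ⟪y, p.2 (q.2 (p.2 x))⟫_ℂ := rfl
    have h0 : p.1 * (p.1 * q.1) = p.1 * (q.1 * p.1) := by ring
    rw [hΛa, h0, h1, h2, hadj, hpx, map_smul, inner_smul_right, inner_smul_right]
    have h3 : ∀ a b : ℂ, a - (κ : ℂ)⁻¹ * ((κ : ℂ)⁻¹ * ((κ : ℂ) * ((κ : ℂ) * a) + (κ : ℂ) * b))
        = -((κ : ℂ)⁻¹ * b) := by
      intro a b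
      field_simp
      ring
    rw [h3, norm_neg]
    exact hbound q hq y hy

/-- Near-extremal data. -/
theorem near_ext (G : Subalgebra ℂ ((X →ᵇ ℂ) × (H →L[ℂ] H))) (K : ℝ) (hK1 : 1 ≤ K)
    (hK : ∀ p ∈ G, ‖p.2‖ ≤ K * ‖p.1‖)
    (hsup : ∀ K' < K, ∃ p ∈ G, ‖p.1‖ ≤ 1 ∧ K' < ‖p.2‖) (ε : ℝ) (hε : 0 < ε) :
    ∃ p ∈ G, ∃ x y : H, ∃ κ : ℝ, ∃ Λ : (X →ᵇ ℂ) →L[ℂ] ℂ,
      ‖p.1‖ ≤ 1 ∧ ‖x‖ = 1 ∧ ‖y‖ = 1 ∧ K - ε ≤ κ ∧ κ ≤ K ∧ 1 / 2 ≤ κ ∧ Λ 1 = 1 ∧ ‖Λ‖ ≤ 1 + ε ∧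
      (∀ k, ‖Λ ((1 - absE p.1) * k)‖ ≤ ε * ‖k‖) ∧
      (∀ q ∈ G, ‖⟪y, q.2 x⟫_ℂ - κ * Λ (star p.1 * q.1)‖ ≤ ε * ‖q.1‖) ∧
      (∀ q ∈ G, ‖⟪x, q.2 x⟫_ℂ - Λ q.1‖ ≤ ε * ‖q.1‖) ∧
      (∀ q ∈ G, ⟪y, q.2 y⟫_ℂ = Λ q.1) ∧
      (∀ q ∈ G, ‖⟪x, q.2 y⟫_ℂ - (κ : ℂ)⁻¹ * Λ (p.1 * q.1)‖ ≤ ε * ‖q.1‖) := by
  have hK0 : 0 < K := by linarith
  obtain ⟨η, hηpos, hη1, hη2, hη3⟩ : ∃ η : ℝ, 0 < η ∧ η ≤ 1 / 2 ∧ η ≤ ε / 2 ∧
      η ≤ ε ^ 2 / (8 * K ^ 3) := by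
    refine ⟨min (1 / 2) (min (ε / 2) (ε ^ 2 / (8 * K ^ 3))), ?_, min_le_left _ _,
      (min_le_right _ _).trans (min_le_left _ _), (min_le_right _ _).trans (min_le_right _ _)⟩
    apply lt_min (by norm_num)
    apply lt_min (by linarith)
    positivity
  obtain ⟨p, hp, x, y, κ, hp1, hx, hy, hκ1, hκ2, hpx, hee⟩ :=
    near_vec G K hK1 hK hsup η hηpos hη1
  have hκhalf : 1 / 2 ≤ κ := by linarith
  have hκpos : 0 < κ := by linarith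
  have heμ : ‖ContinuousLinearMap.adjoint p.2 y - (κ : ℂ) • x‖ * K / κ ≤ ε := by
    set e := ContinuousLinearMap.adjoint p.2 y - (κ : ℂ) • x with he
    have h1 : ‖e‖ ^ 2 ≤ 2 * K * η := by nlinarith
    have h2 : ‖e‖ ^ 2 ≤ (ε / (2 * K)) ^ 2 := by
      have h3 : 2 * K * η ≤ 2 * K * (ε ^ 2 / (8 * K ^ 3)) :=
        mul_le_mul_of_nonneg_left hη3 (by linarith)
      have h4 : 2 * K * (ε ^ 2 / (8 * K ^ 3)) = (ε / (2 * K)) ^ 2 := by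
        field_simp
        ring
      linarith
    have h5 : ‖e‖ ≤ ε / (2 * K) := by
      apply le_of_sq_le_sq _ (by positivity)
      exact h2
    rw [div_le_iff₀ hκpos]
    have h6 : ‖e‖ * K ≤ ε / (2 * K) * K := mul_le_mul_of_nonneg_right h5 hK0.le
    have h7 : ε / (2 * K) * K = ε * (1 / 2) := by field_simp
    have h8 : ε * (1 / 2) ≤ ε * κ := mul_le_mul_of_nonneg_left hκhalf hε.le
    linarith
  obtain ⟨Λ, h1, h2, h3, h4, h5, h6, h7⟩ := near_fun G K hK1 hK p hp x y κ η ε hp1 hx hy hκ1 hη1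
    hκ2 hpx heμ
  refine ⟨p, hp, x, y, κ, Λ, hp1, hx, hy, by linarith, hκ2, hκhalf, h1, ?_, ?_, ?_, h5, h6, h7⟩
  · refine h2.trans ?_
    rw [inv_mul_le_iff₀ hκpos]
    nlinarith
  · intro k
    refine (h3 k).trans (mul_le_mul_of_nonneg_right (by linarith) (norm_nonneg _))
  · intro q hq
    refine (h4 q hq).trans (mul_le_mul_of_nonneg_right (by linarith) (norm_nonneg _))

end Vale.Agent.P123
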