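import Vale.Agent.Lib.P123.CurveB

namespace Vale.Agent.P123

open MeasureTheory
open scoped Real InnerProductSpace

variable {h : ℝ → ℝ} {H : Type*} [NormedAddCommGroup H] [InnerProductSpace ℂ H] [CompleteSpace H]
  {A : H →L[ℂ] H} {δ : ℝ}

/-- the pencil `γ(t) - r A` -/
noncomputable def pen (h : ℝ → ℝ) (A : H →L[ℂ] H) (r t : ℝ) : H →L[ℂ] H :=
  algebraMap ℂ (H →L[ℂ] H) (cur h t) - (r : ℂ) • A

omit [CompleteSpace H] in
theorem pen_apply (r t : ℝ) (x : H) : pen h A r t x = cur h t • x - (r : ℂ) • A x := by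
  simp only [pen, sub_apply, smul_apply,
    Algebra.algebraMap_eq_smul_one, one_apply_eq_self]

theorem sp_real_mul (θ r : ℝ) (z : ℂ) : sp θ ((r : ℂ) * z) = r * sp θ z := by
  simp only [sp]
  rw [mul_left_comm, Complex.re_ofReal_mul]

/-- coercivity -/
theorem sp_inner_pen (hA : AdmA h A δ) {r : ℝ} (h0 : 0 ≤ r) (h1 : r ≤ 1) (t : ℝ) (x : H) :
    δ * ‖x‖ ^ 2 ≤ sp t ⟪x, pen h A r t x⟫_ℂ := by
  by_cases hx : x = 0
  · subst hx
    simp [sp]
  have hx0 : 0 < ‖x‖ := norm_pos_iff.2 hx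
  -- unit vectors
  have hunit : ∀ u : H, ‖u‖ = 1 → δ ≤ sp t ⟪u, pen h A r t u⟫_ℂ := by
    intro u hu
    have h2 := hA.num t u hu
    have h3 := hA.le_h t
    rw [pen_apply, inner_sub_right, inner_smul_right, inner_smul_right,
      inner_self_eq_norm_sq_to_K, hu, sp_sub, sp_real_mul]
    have e : sp t (cur h t * ((1 : ℝ) : ℂ) ^ 2) = h t := by
      rw [Complex.ofReal_one, one_pow, mul_one, sp_cur_self]
    have e' : sp t (cur h t * (((1 : ℝ) : ℂ)) ^ 2) = h t := e
    simp only [Complex.coe_algebraMap] at *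
    rw [e']
    nlinarith
  have h4 := hunit (((‖x‖ : ℂ))⁻¹ • x) (by
    rw [norm_smul, norm_inv, Complex.norm_real, norm_norm, inv_mul_cancel₀ hx0.ne'])
  have e : ⟪((‖x‖ : ℂ))⁻¹ • x, pen h A r t (((‖x‖ : ℂ))⁻¹ • x)⟫_ℂ =
      (((‖x‖ ^ 2)⁻¹ : ℝ) : ℂ) * ⟪x, pen h A r t x⟫_ℂ := by
    rw [map_smul, inner_smul_left, inner_smul_right]
    rw [← Complex.ofReal_inv, Complex.conj_ofReal]
    push_cast
    ring
  rw [e, sp_real_mul, le_inv_mul_iff₀ (by positivity)] at h4
  linarith

theorem le_norm_inner_pen (hA : AdmA h A δ) {r : ℝ} (h0 : 0 ≤ r) (h1 : r ≤ 1) (t : ℝ) (x : H) :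
    δ * ‖x‖ ^ 2 ≤ ‖⟪x, pen h A r t x⟫_ℂ‖ :=
  (sp_inner_pen hA h0 h1 t x).trans (sp_le_norm _ _)

theorem le_norm_pen (hA : AdmA h A δ) {r : ℝ} (h0 : 0 ≤ r) (h1 : r ≤ 1) (t : ℝ) (x : H) :
    δ * ‖x‖ ≤ ‖pen h A r t x‖ := by
  by_cases hx : x = 0
  · subst hx; simp
  have hx0 : 0 < ‖x‖ := norm_pos_iff.2 hx
  have h2 := (le_norm_inner_pen hA h0 h1 t x).trans (norm_inner_le_norm x _)
  refine le_of_mul_le_mul_left ?_ hx0
  linarith

theorem isUnit_pen (hA : AdmA h A δ) {r : ℝ} (h0 : 0 ≤ r) (h1 : r ≤ 1) (t : ℝ) :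
    IsUnit (pen h A r t) := by
  refine ContinuousLinearMap.isUnit_of_forall_le_norm_inner_map _ (c := ⟨δ, hA.δ_pos.le⟩)
    hA.δ_pos fun x => ?_
  rw [← norm_inner_symm]
  have := le_norm_inner_pen hA h0 h1 t x
  change ‖x‖ ^ 2 * δ ≤ _
  linarith

theorem isUnit_sub (hA : AdmA h A δ) {r : ℝ} (h0 : 0 ≤ r) (h1 : r ≤ 1)
    (t : ℝ) : IsUnit (algebraMap ℂ (H →L[ℂ] H) (cur h t) - (r : ℂ) • A) :=
  isUnit_pen hA h0 h1 t

theorem pen_mul_res (hA : AdmA h A δ) {r : ℝ} (h0 : 0 ≤ r) (h1 : r ≤ 1) (t : ℝ) :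
    pen h A r t * res h A r t = 1 :=
  Ring.mul_inverse_cancel _ (isUnit_pen hA h0 h1 t)

theorem res_mul_pen (hA : AdmA h A δ) {r : ℝ} (h0 : 0 ≤ r) (h1 : r ≤ 1) (t : ℝ) :
    res h A r t * pen h A r t = 1 :=
  Ring.inverse_mul_cancel _ (isUnit_pen hA h0 h1 t)

theorem norm_res_le (hA : AdmA h A δ) {r : ℝ} (h0 : 0 ≤ r) (h1 : r ≤ 1) (t : ℝ) :
    ‖res h A r t‖ ≤ δ⁻¹ := by
  have hδ := hA.δ_pos
  refine ContinuousLinearMap.opNorm_le_bound _ (by positivity) fun y => ?_
  have h2 := le_norm_pen hA h0 h1 t (res h A r t y)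
  have h3 : pen h A r t (res h A r t y) = y := by
    have := congrArg (fun T : H →L[ℂ] H => T y) (pen_mul_res hA h0 h1 t)
    simpa using this
  rw [h3] at h2
  rw [le_inv_mul_iff₀ hδ]
  exact h2

theorem continuous_res (hh : Adm h) (hA : AdmA h A δ) {r : ℝ} (h0 : 0 ≤ r) (h1 : r ≤ 1) :
    Continuous (fun t => res h A r t) := by
  rw [continuous_iff_continuousAt]
  intro t
  have h2 : ContinuousAt Ring.inverse (pen h A r t) := by
    obtain ⟨u, hu⟩ := isUnit_pen hA h0 h1 t
    rw [← hu]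
    exact NormedRing.inverse_continuousAt u
  have h3 : ContinuousAt (fun t => pen h A r t) t := by
    unfold pen
    exact (((algebraMapCLM ℂ (H →L[ℂ] H)).continuous.comp (continuous_cur hh)).sub
      continuous_const).continuousAt
  exact ContinuousAt.comp (f := fun t => pen h A r t) h2 h3

omit [CompleteSpace H] in
theorem res_per (hh : Adm h) (r t : ℝ) : res h A r (t + 2 * π) = res h A r t := by
  unfold res
  rw [cur_per hh]

omit [CompleteSpace H] in
theorem pen_sub_pen (r r' t : ℝ) : pen h A r' t - pen h A r t = ((r - r' : ℝ) : ℂ) • A := by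
  unfold pen
  push_cast
  module

/-- resolvent identity -/
theorem res_sub_res (hA : AdmA h A δ) {r r' : ℝ} (h0 : 0 ≤ r) (h1 : r ≤ 1) (h0' : 0 ≤ r')
    (h1' : r' ≤ 1) (t : ℝ) :
    res h A r t - res h A r' t = ((r - r' : ℝ) : ℂ) • (res h A r t * A * res h A r' t) := by
  have h2 : res h A r t * (pen h A r' t - pen h A r t) * res h A r' t =
      res h A r t - res h A r' t := by
    rw [mul_sub, sub_mul, mul_assoc, pen_mul_res hA h0' h1', res_mul_pen hA h0 h1]
    simp
  rw [← h2, pen_sub_pen]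
  simp only [mul_smul_comm, smul_mul_assoc]

theorem norm_res_sub_le (hA : AdmA h A δ) {r : ℝ} (h0 : 0 ≤ r) (h1 : r ≤ 1) (t : ℝ) :
    ‖res h A r t - res h A 1 t‖ ≤ (1 - r) * ‖A‖ * (δ⁻¹) ^ 2 := by
  have hδ := hA.δ_pos
  rw [res_sub_res hA h0 h1 zero_le_one le_rfl, norm_smul, Complex.norm_real, Real.norm_eq_abs,
    abs_of_nonpos (by linarith)]
  have h2 : ‖res h A r t * A * res h A 1 t‖ ≤ δ⁻¹ * ‖A‖ * δ⁻¹ := by
    refine (norm_mul_le _ _).trans ?_
    refine mul_le_mul ((norm_mul_le _ _).trans ?_) (norm_res_le hA zero_le_one le_rfl t)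
      (norm_nonneg _) (by positivity)
    exact mul_le_mul_of_nonneg_right (norm_res_le hA h0 h1 t) (norm_nonneg _)
  have h3 := mul_le_mul_of_nonneg_left h2 (by linarith : 0 ≤ -(r - 1))
  refine h3.trans (le_of_eq ?_)
  ring

theorem A_mul_res (hA : AdmA h A δ) {r : ℝ} (h0 : 0 ≤ r) (h1 : r ≤ 1) (t : ℝ) :
    A * res h A r t = res h A r t * A := by
  have hc : A * pen h A r t = pen h A r t * A := by
    unfold pen
    rw [mul_sub, sub_mul, (Algebra.commutes (cur h t) A).symm, mul_smul_comm, smul_mul_assoc]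
  calc A * res h A r t = (res h A r t * pen h A r t) * A * res h A r t := by
        rw [res_mul_pen hA h0 h1, one_mul]
    _ = res h A r t * (A * pen h A r t) * res h A r t := by rw [hc]; simp only [mul_assoc]
    _ = res h A r t * A * (pen h A r t * res h A r t) := by simp only [mul_assoc]
    _ = res h A r t * A := by rw [pen_mul_res hA h0 h1, mul_one]

theorem hasDerivAt_res (hh : Adm h) (hA : AdmA h A δ) {r : ℝ} (h0 : 0 ≤ r) (h1 : r ≤ 1) (t : ℝ) :
    HasDerivAt (fun t => res h A r t) (dcur h t • (-(res h A r t) ^ 2)) t := by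
  have h2 : HasDerivAt (resolvent ((r : ℂ) • A)) (-resolvent ((r : ℂ) • A) (cur h t) ^ 2)
      (cur h t) :=
    spectrum.hasDerivAt_resolvent_const_left (isUnit_sub hA h0 h1 t)
  exact HasDerivAt.scomp t h2 (hasDerivAt_cur hh t)

theorem integral_res_sq (hh : Adm h) (hA : AdmA h A δ) {r : ℝ} (h0 : 0 ≤ r) (h1 : r ≤ 1) :
    ∫ t in (0 : ℝ)..(2 * π), dcur h t • (res h A r t) ^ 2 = 0 := by
  have hc : Continuous (fun t => dcur h t • (-(res h A r t) ^ 2)) :=
    (continuous_dcur hh).smul ((continuous_res hh hA h0 h1).pow 2).neg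
  have h2 := intervalIntegral.integral_eq_sub_of_hasDerivAt
    (fun t _ => hasDerivAt_res hh hA h0 h1 t) (hc.intervalIntegrable 0 (2 * π))
  have h3 : res h A r (2 * π) = res h A r 0 := by
    have := res_per (A := A) hh r 0
    rwa [zero_add] at this
  rw [h3, sub_self] at h2
  simp only [smul_neg, intervalIntegral.integral_neg, neg_eq_zero] at h2
  exact h2

/-- the Cauchy integral of `1` for the scaled operator -/
noncomputable def II (h : ℝ → ℝ) (A : H →L[ℂ] H) (r : ℝ) : H →L[ℂ] H :=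
  ∫ t in (0 : ℝ)..(2 * π), dcur h t • res h A r t

theorem continuous_smul_res (hh : Adm h) (hA : AdmA h A δ) {r : ℝ} (h0 : 0 ≤ r) (h1 : r ≤ 1) :
    Continuous (fun t => dcur h t • res h A r t) :=
  (continuous_dcur hh).smul (continuous_res hh hA h0 h1)

theorem exists_norm_dcur_le (hh : Adm h) : ∃ M : ℝ, 0 < M ∧ ∀ t, ‖dcur h t‖ ≤ M := by
  have hb := Function.Periodic.isBounded_of_continuous (f := dcur h) (c := 2 * π) (dcur_per hh)
    (by positivity) (continuous_dcur hh)
  obtain ⟨M, hM⟩ := hb.exists_norm_le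
  exact ⟨max M 1, by positivity, fun t => (hM _ ⟨t, rfl⟩).trans (le_max_left _ _)⟩

theorem norm_II_sub_le (hh : Adm h) (hA : AdmA h A δ) : ∃ C : ℝ, 0 ≤ C ∧
    ∀ r r' : ℝ, 0 ≤ r → r ≤ 1 → 0 ≤ r' → r' ≤ 1 →
      ‖II h A r - II h A r'‖ ≤ C * (r - r') ^ 2 := by
  have hδ := hA.δ_pos
  obtain ⟨M, hM0, hM⟩ := exists_norm_dcur_le hh
  refine ⟨M * (δ⁻¹ * ‖A‖ * δ⁻¹ * ‖A‖ * δ⁻¹) * (2 * π), by positivity, ?_⟩
  intro r r' h0 h1 h0' h1'
  have e : ∀ t, res h A r t = res h A r' t + ((r - r' : ℝ) : ℂ) • ((res h A r' t) ^ 2 * A) +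
      (((r - r') ^ 2 : ℝ) : ℂ) • (res h A r t * A * res h A r' t * A * res h A r' t) := by
    intro t
    have e1 := res_sub_res hA h0 h1 h0' h1' t
    have e2 : res h A r t * A * res h A r' t =
        (res h A r' t) ^ 2 * A + ((r - r' : ℝ) : ℂ) •
          (res h A r t * A * res h A r' t * A * res h A r' t) := by
      have e3 : res h A r t = res h A r' t + ((r - r' : ℝ) : ℂ) •
          (res h A r t * A * res h A r' t) := by
        rw [← e1]; abel
      conv_lhs => rw [e3]
      rw [add_mul, add_mul, mul_assoc (res h A r' t) A, A_mul_res hA h0' h1' t, ← mul_assoc, ← _root_.sq,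
        smul_mul_assoc, smul_mul_assoc]
    have e4 : res h A r t = res h A r' t + ((r - r' : ℝ) : ℂ) •
        (res h A r t * A * res h A r' t) := by
      rw [← e1]; abel
    rw [e2, smul_add, smul_smul] at e4
    rw [add_assoc]
    convert e4 using 4
    push_cast
    ring
  have hc := continuous_smul_res hh hA h0 h1
  have hc' := continuous_smul_res hh hA h0' h1'
  have hcd := continuous_dcur hh
  have hr := continuous_res hh hA h0 h1
  have hr' := continuous_res hh hA h0' h1'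
  have h2 : II h A r - II h A r' = ∫ t in (0 : ℝ)..(2 * π),
      (((r - r') ^ 2 : ℝ) : ℂ) • (dcur h t •
        (res h A r t * A * res h A r' t * A * res h A r' t)) := by
    have h3 : II h A r = ∫ t in (0 : ℝ)..(2 * π), (dcur h t • res h A r' t +
        ((r - r' : ℝ) : ℂ) • ((dcur h t • (res h A r' t) ^ 2) * A) +
        (((r - r') ^ 2 : ℝ) : ℂ) • (dcur h t •
          (res h A r t * A * res h A r' t * A * res h A r' t))) := by
      unfold II
      refine intervalIntegral.integral_congr fun t _ => ?_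
      conv_lhs => rw [e t]
      rw [smul_add, smul_add, smul_mul_assoc, smul_comm (dcur h t) ((r - r' : ℝ) : ℂ),
        smul_comm (dcur h t) (((r - r') ^ 2 : ℝ) : ℂ)]
    have i1 : IntervalIntegrable (fun t => dcur h t • res h A r' t) volume 0 (2 * π) :=
      hc'.intervalIntegrable _ _
    have c2 : Continuous (fun t => (dcur h t • (res h A r' t) ^ 2) * A) :=
      (hcd.smul (hr'.pow 2)).mul continuous_const
    have i2 : IntervalIntegrable (fun t => ((r - r' : ℝ) : ℂ) •
        ((dcur h t • (res h A r' t) ^ 2) * A)) volume 0 (2 * π) :=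
      (show Continuous (fun t => ((r - r' : ℝ) : ℂ) • ((dcur h t • (res h A r' t) ^ 2) * A)) from
        Continuous.smul (f := fun _ => ((r - r' : ℝ) : ℂ)) continuous_const c2).intervalIntegrable
        _ _
    have c3 : Continuous (fun t => (dcur h t •
          (res h A r t * A * res h A r' t * A * res h A r' t))) :=
      hcd.smul ((((hr.mul continuous_const).mul hr').mul continuous_const).mul hr')
    have i3 : IntervalIntegrable (fun t => (((r - r') ^ 2 : ℝ) : ℂ) • (dcur h t •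
          (res h A r t * A * res h A r' t * A * res h A r' t))) volume 0 (2 * π) :=
      (show Continuous (fun t => (((r - r') ^ 2 : ℝ) : ℂ) • (dcur h t •
          (res h A r t * A * res h A r' t * A * res h A r' t))) from
        Continuous.smul (f := fun _ => (((r - r') ^ 2 : ℝ) : ℂ)) continuous_const
          c3).intervalIntegrable _ _
    rw [h3, intervalIntegral.integral_add (i1.add i2) i3, intervalIntegral.integral_add i1 i2,
      intervalIntegral.integral_smul]
    have h4 : ∫ t in (0 : ℝ)..(2 * π), (dcur h t • (res h A r' t) ^ 2) * A = 0 := by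
      have h5 := ContinuousLinearMap.intervalIntegral_comp_comm
        ((ContinuousLinearMap.mul ℂ (H →L[ℂ] H)).flip A)
        (f := fun t => dcur h t • (res h A r' t) ^ 2) (μ := volume) (a := 0) (b := 2 * π)
        ((hcd.smul (hr'.pow 2)).intervalIntegrable _ _)
      rw [integral_res_sq hh hA h0' h1', map_zero] at h5
      exact h5
    rw [h4, smul_zero, add_zero]
    unfold II
    abel
  rw [h2]
  refine (intervalIntegral.norm_integral_le_of_norm_le_const
    (C := (r - r') ^ 2 * (M * (δ⁻¹ * ‖A‖ * δ⁻¹ * ‖A‖ * δ⁻¹))) ?_).trans ?_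
  · intro t _
    rw [norm_smul, Complex.norm_real, Real.norm_of_nonneg (sq_nonneg _), norm_smul]
    refine mul_le_mul_of_nonneg_left ?_ (sq_nonneg _)
    refine mul_le_mul (hM t) ?_ (norm_nonneg _) hM0.le
    refine (norm_mul_le _ _).trans ?_
    refine mul_le_mul ((norm_mul_le _ _).trans ?_) (norm_res_le hA h0' h1' t)
      (norm_nonneg _) (by positivity)
    refine mul_le_mul_of_nonneg_right ((norm_mul_le _ _).trans ?_) (norm_nonneg _)
    refine mul_le_mul ((norm_mul_le _ _).trans ?_) (norm_res_le hA h0' h1' t)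
      (norm_nonneg _) (by positivity)
    exact mul_le_mul_of_nonneg_right (norm_res_le hA h0 h1 t) (norm_nonneg _)
  · rw [sub_zero, abs_of_pos (by positivity)]
    apply le_of_eq
    ring

theorem II_eq (hh : Adm h) (hA : AdmA h A δ) : II h A 1 = II h A 0 := by
  obtain ⟨C, hC0, hC⟩ := norm_II_sub_le hh hA
  have key : ∀ n : ℕ, 0 < n → ‖II h A 0 - II h A 1‖ ≤ C / n := by
    intro n hn
    have hn' : (0 : ℝ) < n := by exact_mod_cast hn
    have h1 := dist_le_range_sum_of_dist_le (f := fun k : ℕ => II h A (k / n)) n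
      (d := fun _ => C * (1 / n) ^ 2) (fun {k} hk => by
        have hk' : (k : ℝ) + 1 ≤ n := by exact_mod_cast hk
        rw [dist_eq_norm]
        have := hC (k / n) (((k + 1 : ℕ) : ℝ) / n) (by positivity)
          (by rw [div_le_one hn']; linarith) (by positivity)
          (by rw [div_le_one hn']; push_cast; linarith)
        refine this.trans (le_of_eq ?_)
        push_cast
        field_simp
        ring)
    rw [dist_eq_norm] at h1
    simp only [Nat.cast_zero, zero_div, div_self hn'.ne', Finset.sum_const, Finset.card_range,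
      nsmul_eq_mul] at h1
    refine h1.trans (le_of_eq ?_)
    field_simp
  have hzero : ‖II h A 0 - II h A 1‖ ≤ 0 := by
    refine le_of_forall_pos_le_add fun ε hε => ?_
    obtain ⟨n, hn⟩ := exists_nat_gt (C / ε)
    have hn0 : 0 < n := by
      have : (0 : ℝ) < n := lt_of_le_of_lt (by positivity) hn
      exact_mod_cast this
    have hn' : (0 : ℝ) < n := by exact_mod_cast hn0
    refine (key n hn0).trans ?_
    rw [zero_add, div_le_iff₀ hn']
    rw [div_lt_iff₀ hε] at hn
    linarith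
  exact (sub_eq_zero.1 (norm_le_zero_iff.1 hzero)).symm

/-- `∮ (σ - A)⁻¹ dσ = 2πi` -/
theorem integral_res (hh : Adm h) (hA : AdmA h A δ) :
    ∫ t in (0 : ℝ)..(2 * π), dcur h t • res h A 1 t = (2 * π * Complex.I : ℂ) • (1 : H →L[ℂ] H) := by
  have h1 := II_eq hh hA
  unfold II at h1
  rw [h1]
  have hz : ∀ θ, sp θ 0 < h θ := fun θ => by simpa [sp] using hh.pos θ
  have h2 := integral_inside hh 0 hz
  have h3 : ∀ t, dcur h t • res h A 0 t = (dcur h t / (cur h t - 0)) • (1 : H →L[ℂ] H) := by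
    intro t
    have hc : cur h t ≠ 0 := by
      intro h0
      have := sp_cur_self (h := h) t
      rw [h0] at this
      have h5 := hh.pos t
      rw [← this] at h5
      simp [sp] at h5
    have h4 : res h A 0 t = (cur h t)⁻¹ • (1 : H →L[ℂ] H) := by
      have h5 : pen h A 0 t * ((cur h t)⁻¹ • (1 : H →L[ℂ] H)) = 1 := by
        unfold pen
        rw [Complex.ofReal_zero, zero_smul, sub_zero, Algebra.algebraMap_eq_smul_one,
          smul_mul_smul_comm, mul_inv_cancel₀ hc, one_mul, one_smul]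
      calc res h A 0 t = res h A 0 t * (pen h A 0 t * ((cur h t)⁻¹ • (1 : H →L[ℂ] H))) := by
            rw [h5, mul_one]
        _ = (res h A 0 t * pen h A 0 t) * ((cur h t)⁻¹ • (1 : H →L[ℂ] H)) := by rw [mul_assoc]
        _ = _ := by rw [res_mul_pen hA le_rfl zero_le_one, one_mul]
    rw [h4, smul_smul, sub_zero, div_eq_mul_inv]
  simp only [h3]
  rw [intervalIntegral.integral_smul_const, h2]

/-- the Crouzeix-Palencia operator `S(k) = TC(k) + TC(conj k)^*` -/
noncomputable def Sop (h : ℝ → ℝ) (A : H →L[ℂ] H) (k : ℝ → ℂ) : H →L[ℂ] H :=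
  TC h A k + ContinuousLinearMap.adjoint (TC h A (fun t => star (k t)))

theorem TC_one (hh : Adm h) (hA : AdmA h A δ) : TC h A (fun _ => 1) = 1 := by
  unfold TC
  simp only [one_mul]
  rw [integral_res hh hA, smul_smul, inv_mul_cancel₀, one_smul]
  simp [Real.pi_ne_zero]

theorem Sop_one (hh : Adm h) (hA : AdmA h A δ) :
    Sop h A (fun _ => 1) = (2 : ℂ) • (1 : H →L[ℂ] H) := by
  unfold Sop
  simp only [star_one]
  rw [TC_one hh hA, ← ContinuousLinearMap.star_eq_adjoint, star_one, two_smul]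

/-- matrix elements of the Cauchy integral -/
theorem inner_TC (hh : Adm h) (hA : AdmA h A δ) (k : ℝ → ℂ) (hk : Continuous k) (x y : H) :
    ⟪y, TC h A k x⟫_ℂ =
      (2 * π : ℂ)⁻¹ * ∫ t in (0 : ℝ)..(2 * π), ((rho h t : ℝ) : ℂ) *
        (k t * (ei t * ⟪y, res h A 1 t x⟫_ℂ)) := by
  unfold TC
  rw [smul_apply, inner_smul_right]
  have hc : Continuous fun t => (k t * dcur h t) • res h A 1 t :=
    (hk.mul (continuous_dcur hh)).smul (continuous_res hh hA zero_le_one le_rfl)
  have h1 := ContinuousLinearMap.intervalIntegral_comp_comm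
    ((innerSL ℂ y) ∘L (ContinuousLinearMap.apply ℂ H x))
    (f := fun t => (k t * dcur h t) • res h A 1 t) (μ := volume) (a := 0) (b := 2 * π)
    (hc.intervalIntegrable _ _)
  have h2 : ⟪y, (∫ t in (0 : ℝ)..(2 * π), (k t * dcur h t) • res h A 1 t) x⟫_ℂ =
      ∫ t in (0 : ℝ)..(2 * π), ⟪y, ((k t * dcur h t) • res h A 1 t) x⟫_ℂ := h1.symm
  rw [h2, ← intervalIntegral.integral_const_mul, ← intervalIntegral.integral_const_mul]
  refine intervalIntegral.integral_congr fun t _ => ?_
  simp only [smul_apply, inner_smul_right, dcur]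
  have hI : Complex.I ≠ 0 := Complex.I_ne_zero
  have hpi : (π : ℂ) ≠ 0 := by exact_mod_cast Real.pi_ne_zero
  field_simp

theorem continuous_inner_res (hh : Adm h) (hA : AdmA h A δ) (x y : H) :
    Continuous fun t => ⟪y, res h A 1 t x⟫_ℂ :=
  continuous_const.inner ((ContinuousLinearMap.apply ℂ H x).continuous.comp
    (continuous_res hh hA zero_le_one le_rfl))

/-- real part of the matrix elements of `TC` -/
theorem re_inner_TC (hh : Adm h) (hA : AdmA h A δ) (k : ℝ → ℂ) (hk : Continuous k) (x y : H) :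
    (⟪y, TC h A k x⟫_ℂ).re =
      (2 * π)⁻¹ * ∫ t in (0 : ℝ)..(2 * π), rho h t *
        (k t * (ei t * ⟪y, res h A 1 t x⟫_ℂ)).re := by
  rw [inner_TC hh hA k hk]
  have e : (2 * π : ℂ)⁻¹ = (((2 * π)⁻¹ : ℝ) : ℂ) := by push_cast; rfl
  rw [e, Complex.re_ofReal_mul]
  congr 1
  have hc : Continuous fun t => ((rho h t : ℝ) : ℂ) * (k t * (ei t * ⟪y, res h A 1 t x⟫_ℂ)) :=
    (Complex.continuous_ofReal.comp (continuous_rho hh)).mul
      (hk.mul (continuous_ei.mul (continuous_inner_res hh hA x y)))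
  have h1 := Complex.reCLM.intervalIntegral_comp_comm (μ := volume)
    (hc.intervalIntegrable 0 (2 * π))
  simp only [Complex.reCLM_apply, Complex.re_ofReal_mul] at h1
  exact h1.symm

/-- real part of the matrix elements of `Sop` -/
theorem re_inner_Sop (hh : Adm h) (hA : AdmA h A δ) (k : ℝ → ℂ) (hk : Continuous k) (x y : H) :
    (⟪y, Sop h A k x⟫_ℂ).re =
      (2 * π)⁻¹ * ∫ t in (0 : ℝ)..(2 * π), rho h t *
        ((k t * (ei t * ⟪y, res h A 1 t x⟫_ℂ)).re +
          (star (k t) * (ei t * ⟪x, res h A 1 t y⟫_ℂ)).re) := by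
  have hk' : Continuous fun t => star (k t) := continuous_star.comp hk
  unfold Sop
  rw [add_apply, inner_add_right, Complex.add_re,
    ContinuousLinearMap.adjoint_inner_right]
  have e1 : (⟪TC h A (fun t => star (k t)) y, x⟫_ℂ).re =
      (⟪x, TC h A (fun t => star (k t)) y⟫_ℂ).re := by
    rw [← inner_conj_symm, Complex.conj_re]
  rw [e1, re_inner_TC hh hA k hk, re_inner_TC hh hA _ hk', ← mul_add,
    ← intervalIntegral.integral_add]
  · congr 1
    refine intervalIntegral.integral_congr fun t _ => ?_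
    ring
  · refine Continuous.intervalIntegrable ?_ _ _
    exact (continuous_rho hh).mul (Complex.continuous_re.comp
      (hk.mul (continuous_ei.mul (continuous_inner_res hh hA x y))))
  · refine Continuous.intervalIntegrable ?_ _ _
    exact (continuous_rho hh).mul (Complex.continuous_re.comp
      (hk'.mul (continuous_ei.mul (continuous_inner_res hh hA y x))))

/-- positivity of the real part of `e^{it} R` -/
theorem re_ei_res_nonneg (hA : AdmA h A δ) (t : ℝ) (z : H) :
    0 ≤ (ei t * ⟪z, res h A 1 t z⟫_ℂ).re := by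
  set u := res h A 1 t z with hu
  have h3 : pen h A 1 t u = z := by
    have := congrArg (fun T : H →L[ℂ] H => T z) (pen_mul_res hA zero_le_one le_rfl t)
    simpa using this
  have h4 := sp_inner_pen hA zero_le_one le_rfl t u
  have h5 : (0 : ℝ) ≤ sp t ⟪u, pen h A 1 t u⟫_ℂ :=
    le_trans (by have := hA.δ_pos; positivity) h4
  rw [h3] at h5
  unfold sp at h5
  have e : ei t * ⟪z, u⟫_ℂ = (starRingEnd ℂ) (ei (-t) * ⟪u, z⟫_ℂ) := by
    rw [map_mul, inner_conj_symm]
    congr 1
    unfold ei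
    rw [← Complex.exp_conj]
    congr 1
    simp
  rw [e, Complex.conj_re]
  exact h5

/-- pointwise Cauchy-Schwarz type inequality -/
theorem pointwise_ineq (hA : AdmA h A δ) (t : ℝ) (k : ℂ) (x y : H) :
    (k * (ei t * ⟪y, res h A 1 t x⟫_ℂ)).re + (star k * (ei t * ⟪x, res h A 1 t y⟫_ℂ)).re ≤
      ‖k‖ * ((ei t * ⟪x, res h A 1 t x⟫_ℂ).re + (ei t * ⟪y, res h A 1 t y⟫_ℂ).re) := by
  by_cases hk : k = 0
  · subst hk; simp
  have hk0 : 0 < ‖k‖ := norm_pos_iff.2 hk
  have h1 := re_ei_res_nonneg hA t ((starRingEnd ℂ k) • y - (‖k‖ : ℂ) • x)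
  have hkk : k * (starRingEnd ℂ) k = ((‖k‖ ^ 2 : ℝ) : ℂ) := by
    rw [Complex.mul_conj, Complex.normSq_eq_norm_sq]
  have e : ei t * ⟪(starRingEnd ℂ k) • y - (‖k‖ : ℂ) • x,
      res h A 1 t ((starRingEnd ℂ k) • y - (‖k‖ : ℂ) • x)⟫_ℂ =
      ((‖k‖ ^ 2 : ℝ) : ℂ) * (ei t * ⟪x, res h A 1 t x⟫_ℂ) +
      ((‖k‖ ^ 2 : ℝ) : ℂ) * (ei t * ⟪y, res h A 1 t y⟫_ℂ) -
      ((‖k‖ : ℝ) : ℂ) * (k * (ei t * ⟪y, res h A 1 t x⟫_ℂ)) -
      ((‖k‖ : ℝ) : ℂ) * (star k * (ei t * ⟪x, res h A 1 t y⟫_ℂ)) := by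
    rw [map_sub, map_smul, map_smul, inner_sub_left, inner_sub_right, inner_sub_right]
    simp only [inner_smul_left, inner_smul_right, Complex.conj_conj, Complex.conj_ofReal]
    rw [Complex.star_def]
    have e2 : ((‖k‖ ^ 2 : ℝ) : ℂ) * (ei t * ⟪y, res h A 1 t y⟫_ℂ) =
        k * (starRingEnd ℂ) k * (ei t * ⟪y, res h A 1 t y⟫_ℂ) := by rw [hkk]
    rw [e2]
    push_cast
    ring
  rw [e, Complex.sub_re, Complex.sub_re, Complex.add_re, Complex.re_ofReal_mul,
    Complex.re_ofReal_mul, Complex.re_ofReal_mul, Complex.re_ofReal_mul] at h1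
  refine le_of_mul_le_mul_left ?_ hk0
  nlinarith

/-- positivity of the Crouzeix-Palencia measure -/
theorem Sop_ineq (hh : Adm h) (hA : AdmA h A δ) (k χ : ℝ → ℂ) (hk : Continuous k)
    (hχ : Continuous χ) (hkχ : ∀ t, ‖k t‖ ≤ (χ t).re) (x y : H) :
    (⟪y, Sop h A k x⟫_ℂ).re ≤
      ((⟪x, Sop h A χ x⟫_ℂ).re + (⟪y, Sop h A χ y⟫_ℂ).re) / 2 := by
  have hk' : Continuous fun t => star (k t) := continuous_star.comp hk
  have hpi : 0 < π := Real.pi_pos
  have hdiag : ∀ z : H, (⟪z, Sop h A χ z⟫_ℂ).re =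
      (2 * π)⁻¹ * ∫ t in (0 : ℝ)..(2 * π), rho h t *
        (2 * ((χ t).re * (ei t * ⟪z, res h A 1 t z⟫_ℂ).re)) := by
    intro z
    rw [re_inner_Sop hh hA χ hχ]
    congr 1
    refine intervalIntegral.integral_congr fun t _ => ?_
    simp only [Complex.star_def, Complex.mul_re, Complex.conj_re, Complex.conj_im]
    ring
  have hcz : ∀ z : H, Continuous fun t => rho h t *
        (2 * ((χ t).re * (ei t * ⟪z, res h A 1 t z⟫_ℂ).re)) := by
    intro z
    exact (continuous_rho hh).mul (continuous_const.mul ((Complex.continuous_re.comp hχ).mul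
      (Complex.continuous_re.comp (continuous_ei.mul (continuous_inner_res hh hA z z)))))
  rw [hdiag, hdiag, ← mul_add, re_inner_Sop hh hA k hk, mul_div_assoc]
  refine mul_le_mul_of_nonneg_left ?_ (by positivity)
  rw [← intervalIntegral.integral_add ((hcz x).intervalIntegrable _ _)
    ((hcz y).intervalIntegrable _ _), ← intervalIntegral.integral_div]
  refine intervalIntegral.integral_mono_on (by positivity) ?_ ?_ fun t _ => ?_
  · refine Continuous.intervalIntegrable ?_ _ _
    exact (continuous_rho hh).mul ((Complex.continuous_re.comp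
      (hk.mul (continuous_ei.mul (continuous_inner_res hh hA x y)))).add
      (Complex.continuous_re.comp
      (hk'.mul (continuous_ei.mul (continuous_inner_res hh hA y x)))))
  · exact ((hcz x).add (hcz y)).div_const 2 |>.intervalIntegrable _ _
  · have h1 := pointwise_ineq hA t (k t) x y
    have h2 := mul_le_mul_of_nonneg_right (hkχ t)
      (add_nonneg (re_ei_res_nonneg hA t x) (re_ei_res_nonneg hA t y))
    have h3 := mul_le_mul_of_nonneg_left (h1.trans h2) (hh.rho_pos t).le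
    refine h3.trans (le_of_eq ?_)
    ring

end Vale.Agent.P123
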