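import Vale.Agent.Lib.P123.FinalB

/-!
P123: from the bound for all `M` to the supremum.
-/

namespace Vale.Agent.P123

open Polynomial
open scoped InnerProductSpace

variable {H : Type*} [NormedAddCommGroup H] [InnerProductSpace ℂ H] [CompleteSpace H]

/-- the supremum of `|Q|` on the numerical range exists, and the bound holds with it -/
theorem exists_isLUB_of_cert {Ks B c₀ : ℝ} {ψ φ χ : ℂ[X]} (cert : Cert Ks ψ φ χ B c₀)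
    [Nontrivial H] (A : H →L[ℂ] H) (Q : ℂ[X]) :
    ∃ M : ℝ, IsLUB ((fun z : ℂ => ‖Q.eval z‖) '' {z : ℂ | ∃ x : H, ‖x‖ = 1 ∧ ⟪x, A x⟫_ℂ = z}) M ∧
      ‖aeval A Q‖ ≤ Ks * M := by
  have hbd : ∀ x : H, ‖x‖ = 1 → ‖⟪x, A x⟫_ℂ‖ ≤ ‖A‖ := by
    intro x hx
    calc ‖⟪x, A x⟫_ℂ‖ ≤ ‖x‖ * ‖A x‖ := norm_inner_le_norm _ _
      _ ≤ ‖x‖ * (‖A‖ * ‖x‖) := mul_le_mul_of_nonneg_left (A.le_opNorm x) (norm_nonneg _)
      _ = ‖A‖ := by rw [hx]; ring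
  have hne : ((fun z : ℂ => ‖Q.eval z‖) ''
      {z : ℂ | ∃ x : H, ‖x‖ = 1 ∧ ⟪x, A x⟫_ℂ = z}).Nonempty := by
    obtain ⟨x, hx⟩ := exists_norm_eq H zero_le_one
    exact ⟨_, ⟨_, ⟨x, hx, rfl⟩, rfl⟩⟩
  have hba : BddAbove ((fun z : ℂ => ‖Q.eval z‖) ''
      {z : ℂ | ∃ x : H, ‖x‖ = 1 ∧ ⟪x, A x⟫_ℂ = z}) := by
    have hc : IsCompact (Metric.closedBall (0 : ℂ) ‖A‖) := isCompact_closedBall _ _
    have h1 : BddAbove ((fun z : ℂ => ‖Q.eval z‖) '' Metric.closedBall (0 : ℂ) ‖A‖) :=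
      (hc.image (Q.continuous.norm)).bddAbove
    refine h1.mono (Set.image_mono ?_)
    rintro z ⟨x, hx, rfl⟩
    simpa using hbd x hx
  refine ⟨sSup _, isLUB_csSup hne hba, ?_⟩
  obtain ⟨y, hy⟩ := hne
  have hy0 : 0 ≤ y := by
    obtain ⟨z, -, rfl⟩ := hy
    exact norm_nonneg _
  refine crouzeix_of_cert cert A Q _ (hy0.trans (le_csSup hba hy)) ?_
  intro x hx
  exact le_csSup hba ⟨_, ⟨x, hx, rfl⟩, rfl⟩

end Vale.Agent.P123
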